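import Crest.Agent.N250.Gi.Fe
import Crest.Agent.N250.Gi.Cj
import Crest.Agent.N250.Gl.Fix
import Crest.Agent.N250.R0.Core
import Crest.Agent.N250.Em.Dr
import Crest.Agent.N250.Lg.Jac
import Crest.Agent.N250.Ro.Rot
import Crest.Agent.N250.S9.Id
import Crest.Agent.N250.B1.Conj

-- ▼ part N250/Gi/Gd
section

/-!
# Row 250 (helper68): `R0.Glued` from its pieces
-/

set_option autoImplicit false
set_option linter.unusedSectionVars false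
open Set Complex Metric Filter Topology

noncomputable section

namespace Crest.Agent.N250.Gi

open B1 R0
open B2 (ofR)

theorem S_le {N : ℕ} {X V : ℂ} (hN0 : HJ.N0 ≤ N) (h : HJ.Adm N X V) (x0 : 0 < X.re)
    (hi : |X.im| ≤ X.re) : ‖HJ.S N X V‖ ≤ 12 / X.re := by
  have h1 : ‖HJ.EE X V‖ ≤ 1 := by
    rw [HJ.EE, Complex.norm_exp]
    refine Real.exp_le_one_iff.2 ?_
    have : (-X ^ 2 / 4 - V / 2).re = -(X.re ^ 2 - X.im ^ 2) / 4 - V.re / 2 := by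
      simp only [sub_re, div_ofNat_re, neg_re, sq, mul_re]
    rw [this]
    nlinarith [h.hV, sq_abs X.im, abs_nonneg X.im]
  have h2 : ‖HJ.rr V‖ ≤ 3 := by
    rw [HJ.norm_rr]; exact Real.sqrt_le_iff.2 ⟨by norm_num, by linarith [h.hV']⟩
  have h3 : ‖1 - HJ.eN N (HJ.ww X V) - V / X ^ 2‖ ≤ 2 := by
    have k1 := HJ.norm_eN_le h.hw
    have k2 := h.w_small hN0
    have k3 := mul_le_mul h.hV' h.y_le (norm_nonneg _) (by norm_num)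
    rw [← norm_mul, mul_one_div] at k3
    have k4 := norm_sub_le (1 - HJ.eN N (HJ.ww X V)) (V / X ^ 2)
    have k5 := norm_sub_le 1 (HJ.eN N (HJ.ww X V))
    rw [norm_one] at k5
    linarith
  rw [HJ.S, norm_mul, norm_div, norm_mul, norm_mul, norm_neg, Complex.norm_two]
  have h4 := re_le_norm X
  calc _ ≤ 2 * 1 * 3 / X.re * 2 := by gcongr
    _ = _ := by ring

variable {ι κ : Type} [Fintype ι] [Fintype κ] {ℓ : Ell}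

theorem domA_mono {r r' K K' X : ℝ} (hr : r ≤ r') (hK : K' ≤ K) :
    DomA (ι := ι) (κ := κ) r K X ⊆ DomA r' K' X :=
  fun _ h => ⟨fun i => (h.1 i).trans_le hr, fun j => adm_mono hK (h.2 j)⟩

theorem om_mono {r r' K K' X0 X1 θ : ℝ} (hr : r ≤ r') (hK : K' ≤ K) (hX : X1 ≤ X0) :
    Om (ι := ι) (κ := κ) r K X0 θ ⊆ Om r' K' X1 θ :=
  fun _ h => ⟨hX.trans_lt h.1, h.2.1, domA_mono hr hK h.2.2⟩

theorem En.Sj_le {U : Par ℓ → Jt ℓ} {N : ℕ} {b : ℂ × (ι ⊕ κ → ℂ) → Wi (omP 2)}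
    {R K K1 g g' ε ε1 C r' X0 θ : ℝ} (h : En U N b R K K1 g g' ε ε1 C r' X0 θ) (j : κ)
    {q : ℂ × (ι ⊕ κ → ℂ)} (hq : q ∈ Om r' K X0 θ) : ‖Sj N j q‖ ≤ 12 / q.1.re := by
  have h4 : 4 ≤ q.1.re := by linarith [h.big.X4, hq.1]
  exact S_le h.big.N0 (h.hj j hq) (by linarith)
    ((h.ow j hq).2.1.le.trans ((inv_le_one_of_one_le₀ (by linarith)).trans (by linarith)))

/-- the pieces, on the larger domain: `A` = total action, `Z` = pairings, `β` = rotation parameters,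
`b j` = inner datum of the end `j` -/
structure Pc {F : Type*} [NormedAddCommGroup F] [NormedSpace ℂ F] (U : Par ℓ → Jt ℓ) (N : ℕ)
    (b : κ → ℂ × (ι ⊕ κ → ℂ) → Wi (omP 2)) (A : ℂ × (ι ⊕ κ → ℂ) → ℂ)
    (Z cc : ℂ × (ι ⊕ κ → ℂ) → ι ⊕ κ → ℂ) (β : ℂ × (ι ⊕ κ → ℂ) → F)
    (Θ : (ι ⊕ κ → ℂ) → ι ⊕ κ → ℂ) (A0 C0 R K1 g g' ε ε1 C r' X1 θ CB k : ℝ) : Prop where
  r0 : 0 < r'
  θ0 : 0 < θ
  θ1 : θ ≤ 1
  k0 : 0 < k
  CB0 : 0 ≤ CB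
  ex : Ex g g'
  en : ∀ j, En U N (b j) R (KK N - 1 / 4) K1 g g' ε ε1 C r' X1 θ
  hA : DifferentiableOn ℂ A (Om r' (KK N - 1 / 4) X1 θ)
  hZ : DifferentiableOn ℂ Z (Om r' (KK N - 1 / 4) X1 θ)
  hβ : DifferentiableOn ℂ β (Om r' (KK N - 1 / 4) X1 θ)
  bd : ∀ q ∈ Om r' (KK N - 1 / 4) X1 θ, ‖A q‖ ≤ CB ∧ ‖Z q‖ ≤ CB ∧ ‖β q‖ ≤ CB
  inl : ∀ q ∈ Om r' (KK N - 1 / 4) X1 θ, ∀ i, Z q (Sum.inl i) = q.2 (Sum.inl i)
  real : ∀ X : ℝ, X1 < X → ∀ x : ι ⊕ κ → ℝ, ofR x ∈ DomA r' (KK N - 1 / 4) X →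
    (A (X, ofR x)).im = 0 ∧ ∀ l, (Z (X, ofR x) l).im = 0
  var : ∀ X : ℝ, X1 < X → ∀ w ∈ DomA r' (KK N - 1 / 4) X, ∀ (ξ : ℂ) (v : ι ⊕ κ → ℂ), ∃ T : κ → ℂ,
    (∀ j, ‖T j‖ ≤ CB * Real.exp (-X ^ 2 / 4) * X ^ (-(2 * g)) * ‖fderiv ℂ β (X, w) (ξ, v)‖) ∧
    fderiv ℂ A (X, w) (ξ, v) = ∑ l, cc (X, w) l * fderiv ℂ Z (X, w) (ξ, v) l +
      ∑ j, (Far.farI R X (w (Sum.inr j)) (Jq U N j (b j) (X, w)) ξ (v (Sum.inr j))
        (fderiv ℂ (Jq U N j (b j)) (X, w) (ξ, v)) + T j)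
  est : ∀ X : ℝ, X1 < X → ∀ w ∈ DomA r' (KK N - 1 / 4) X,
    ‖Z (X, w) - Θ (hz X w)‖ ≤ (C0 / ((N : ℝ) + 1) + CB * X ^ (-k)) / X ^ 4
  base : Tendsto (fun X : ℝ => A (X, 0)) atTop (𝓝 (A0 : ℂ))

/-- action minus boundary action -/
def FFo (N : ℕ) (A : ℂ × (ι ⊕ κ → ℂ) → ℂ) (q : ℂ × (ι ⊕ κ → ℂ)) : ℂ :=
  A q - 2 * Real.pi * ∑ j, Sj N j q

theorem mk_zero : mk (0 : ι ⊕ κ → ℂ) 0 = 0 := by
  funext l; cases l <;> rfl

theorem Pc.glued {F : Type*} [NormedAddCommGroup F] [NormedSpace ℂ F] {U : Par ℓ → Jt ℓ} {N : ℕ}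
    {b : κ → ℂ × (ι ⊕ κ → ℂ) → Wi (omP 2)} {A : ℂ × (ι ⊕ κ → ℂ) → ℂ}
    {Z cc : ℂ × (ι ⊕ κ → ℂ) → ι ⊕ κ → ℂ} {β : ℂ × (ι ⊕ κ → ℂ) → F}
    {Θ : (ι ⊕ κ → ℂ) → ι ⊕ κ → ℂ} {A0 C0 C1 R K1 g g' ε ε1 C r0 r' X1 θ CB k : ℝ}
    (h : Pc U N b A Z cc β Θ A0 C0 R K1 g g' ε ε1 C r' X1 θ CB k) (hT : Gl.Th Θ r0 C1)
    (hC : C1 ≤ C0) : ∃ r X0 C' k', Glued N C0 (FFo N A) Z cc Θ A0 r X0 θ C' k' := by
  have r0' := h.r0
  have t0 := h.θ0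
  have c0 := h.CB0
  have K0 : 0 < KK N := by unfold KK; positivity
  have p0 : (0 : ℝ) ≤ Fintype.card κ := Nat.cast_nonneg _
  set r := min r0 (r' / 2) with hr
  set X0 := |X1| + 1 + 4 + KK N + 2 / r' with hX0
  set k' := min k (2 * g - 3) with hk'
  set C2 := (5000 + 32 * CB * CB) / θ with hC2
  have C20 : 0 ≤ C2 := by positivity
  have q0 : 0 < 2 / r' := by positivity
  have a1 := le_abs_self X1
  have a0 := abs_nonneg X1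
  have r1 : r ≤ r' := (min_le_right _ _).trans (by linarith)
  have rp : 0 < r := lt_min hT.r_pos (by linarith)
  have sub : Om (ι := ι) (κ := κ) r (KK N) X0 θ ⊆ Om r' (KK N - 1 / 4) X1 θ :=
    om_mono r1 (by linarith) (by linarith)
  have subA : ∀ X, DomA (ι := ι) (κ := κ) r (KK N) X ⊆ DomA r' (KK N - 1 / 4) X := fun X =>
    domA_mono r1 (by linarith)
  have subB : ball (0 : ι ⊕ κ → ℂ) r ⊆ ball 0 r0 := ball_subset_ball (min_le_left _ _)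
  have rm : ∀ X : ℝ, X0 < X → ∀ w ∈ DomA (ι := ι) (κ := κ) r (KK N) X, Rm r r' (KK N) X1 θ X w :=
    fun X hX w hw => ⟨t0, h.θ1, K0.le, by linarith, by nlinarith, by linarith, by
      have : X⁻¹ ≤ r' / 2 := by
        rw [inv_le_comm₀ (by linarith) (by linarith), inv_div]; linarith
      linarith [min_le_right r0 (r' / 2)], hw⟩
  have hS : ∀ q ∈ Om (ι := ι) (κ := κ) r' (KK N - 1 / 4) X1 θ, 0 < q.1.re →
      ‖2 * Real.pi * ∑ j, Sj N j q‖ ≤ 96 * Fintype.card κ / q.1.re := fun q hq x0 => by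
    have k1 := (norm_sum_le _ _).trans (Finset.sum_le_card_nsmul Finset.univ _ _
      fun j _ => (h.en j).Sj_le j hq)
    rw [nsmul_eq_mul, Finset.card_univ] at k1
    rw [norm_mul, norm_mul, Complex.norm_two, norm_real, Real.norm_of_nonneg Real.pi_pos.le]
    calc _ ≤ 2 * 4 * (Fintype.card κ * (12 / q.1.re)) := by gcongr; exact Real.pi_le_four
      _ = _ := by ring
  refine ⟨r, X0, CB + 96 * Fintype.card κ + C2, k', rp, t0, lt_min h.k0 (by linarith [h.ex.1]),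
    (h.hA.mono sub).sub ((DifferentiableOn.fun_sum fun j _ =>
      ((h.en j).diff_Sj j).mono sub).const_mul _), h.hZ.mono sub, fun q hq => ⟨?_, ?_⟩,
    fun q hq => h.inl q (sub hq), fun X hX x hx => ⟨?_, (h.real X (by linarith) x (subA X hx)).2⟩,
    fun X hX w hw ξ v => ?_, hT.hΘ.mono subB, fun z hz => hT.Θ_inl z (subB hz), hT.Θ_zero,
    fun x hx => hT.Θ_real x (hx.trans_le (min_le_left _ _)),
    fun α => (hT.jac α).trans (mul_le_mul_of_nonneg_right hC (norm_nonneg _)),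
    fun X hX w hw => (h.est X (by linarith) w (subA X hw)).trans ?_, fun _ => 0, by simp, ?_⟩
  · have x1 : 1 ≤ q.1.re := by linarith [hq.1]
    have k1 := (hS q (sub hq) (by linarith)).trans (div_le_self (by positivity) x1)
    refine (norm_sub_le _ _).trans ?_
    linarith [(h.bd q (sub hq)).1]
  · linarith [(h.bd q (sub hq)).2.1]
  · have k1 : ∀ j, (Sj N j ((X : ℂ), ofR x)).im = 0 := fun j =>
      Cj.S_im N X ((h.en j).hj j (rm X hX _ hx).self).hV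
    simp [FFo, (h.real X (by linarith) x (subA X hx)).1, im_sum, k1]
  · obtain ⟨T, h1, h2⟩ := h.var X (by linarith) w (subA X hw) ξ v
    have hw' := rm X hX w hw
    refine (form_of h.en hw' (h.hA.differentiableAt hw'.nhds) h.hβ (fun q hq => (h.bd q hq).2.2) c0
      h1 h2).trans ?_
    have x1 : 1 ≤ X := by linarith
    have k1 : X ^ (-(2 + (2 * g - 3))) ≤ X ^ (-(2 + k')) :=
      Real.rpow_le_rpow_of_exponent_le x1 (by linarith [min_le_right k (2 * g - 3)])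
    gcongr
    linarith
  · have x1 : 1 ≤ X := by linarith
    have k1 : X ^ (-k) ≤ X ^ (-k') :=
      Real.rpow_le_rpow_of_exponent_le x1 (by linarith [min_le_left k (2 * g - 3)])
    gcongr
    linarith
  · simp only [mk_zero, FFo]
    have k1 : Tendsto (fun X : ℝ => 2 * Real.pi * ∑ j, Sj N j ((X : ℂ), (0 : ι ⊕ κ → ℂ))) atTop
        (𝓝 0) := by
      refine squeeze_zero_norm' ?_
        (tendsto_const_nhds (x := 96 * (Fintype.card κ : ℝ)).div_atTop tendsto_id)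
      filter_upwards [eventually_gt_atTop X0] with X hX
      refine hS _ (rm X hX 0 ⟨fun _ => by simpa using rp, fun j => ?_⟩).self (by simp; linarith)
      have : 2 * KK N / X ^ 2 < 1 := by rw [div_lt_one (by nlinarith)]; nlinarith
      simp only [Adm, Pi.zero_apply, zero_mul, zero_div, zero_sub, norm_neg]
      rw [show ‖(1 / 8 : ℂ)‖ = 1 / 8 by simp]
      linarith
    simpa using h.base.sub k1

end Crest.Agent.N250.Gi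

end
end

-- ▼ part N250/R0/Leaf

/-!
# Row 250 (helper54): the glued system, leaf statements

Order of the choices: constants `k`, radius `R` (`Ev`), family `F`, scale `σ` (`Sg`), size `ρ1`, order `N`.
-/

set_option autoImplicit false
open MeasureTheory Set Filter Topology
open scoped InnerProductSpace ContDiff ComplexConjugate
open Crest.GeometryTopology.MCF

noncomputable section

namespace Crest.Agent.N250.R0

open WS Wr B1 Gc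
open Crest.Agent.N250.B2 (aa ofR)
open Crest.Agent.N250.Gi (KK)
open Crest.Agent.N250.Gl (HolAt yy)

variable {S : Mv}



theorem Tm_eq (Q : E ≃ₗᵢ[ℝ] E) (β : Fin 2 → ℂ) : Tm Q β = Ro.TT (Cj.fQ Q) β := rfl

/-- for small constants and large radius -/
def Ev (e : Ends S) (P : St S → Prop) : Prop :=
  ∃ e0 K0 c1 : ℝ, 0 < e0 ∧ 0 < c1 ∧ ∀ k : Cst, k.ε ≤ e0 → k.ε1 ≤ e0 → K0 ≤ k.K1 → k.c0 ≤ c1 →
    ∃ R1 : ℝ, ∀ T : St S, T.e = e → T.k = k → R1 ≤ T.R → P T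

theorem Ev.and {e : Ends S} {P Q : St S → Prop} (h : Ev e P) (h' : Ev e Q) :
    Ev e fun T => P T ∧ Q T := by
  obtain ⟨a, b, c, ha, hc, h⟩ := h
  obtain ⟨a', b', c', ha', hc', h'⟩ := h'
  refine ⟨min a a', max b b', min c c', lt_min ha ha', lt_min hc hc', fun k h1 h2 h3 h4 => ?_⟩
  obtain ⟨R, h⟩ := h k (h1.trans (min_le_left _ _)) (h2.trans (min_le_left _ _))
    ((le_max_left _ _).trans h3) (h4.trans (min_le_left _ _))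
  obtain ⟨R', h'⟩ := h' k (h1.trans (min_le_right _ _)) (h2.trans (min_le_right _ _))
    ((le_max_right _ _).trans h3) (h4.trans (min_le_right _ _))
  exact ⟨max R R', fun T e1 e2 e3 => ⟨h T e1 e2 ((le_max_left _ _).trans e3),
    h' T e1 e2 ((le_max_right _ _).trans e3)⟩⟩

theorem Ev.mono {e : Ends S} {P Q : St S → Prop} (h : Ev e P) (i : ∀ T, T.e = e → P T → Q T) :
    Ev e Q := by
  obtain ⟨a, b, c, ha, hc, h⟩ := h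
  exact ⟨a, b, c, ha, hc, fun k h1 h2 h3 h4 =>
    (h k h1 h2 h3 h4).imp fun _ h T e1 e2 e3 => i T e1 (h T e1 e2 e3)⟩

theorem Ev.of_forall {e : Ends S} {P : St S → Prop} (h : ∀ T, T.e = e → P T) : Ev e P :=
  ⟨1, 0, 1, one_pos, one_pos, fun _ _ _ _ _ => ⟨0, fun T e1 _ _ => h T e1⟩⟩

theorem Ev.of_R {e : Ends S} (R1 : ℝ) : Ev e fun T => R1 ≤ T.R :=
  ⟨1, 0, 1, one_pos, one_pos, fun _ _ _ _ _ => ⟨R1, fun _ _ _ h => h⟩⟩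


/-- for all fast decreasing weights -/
def Sg {T : St S} (P : Scale T.G → Prop) : Prop := ∀ᶠ ε in admF, ∀ σ : Scale T.G, σ.ε = ε → P σ

theorem Sg.and {T : St S} {P Q : Scale T.G → Prop} (h : Sg P) (h' : Sg Q) :
    Sg fun σ => P σ ∧ Q σ :=
  (Eventually.and h h').mono fun _ h σ e => ⟨h.1 σ e, h.2 σ e⟩

theorem Sg.mono {T : St S} {P Q : Scale T.G → Prop} (h : Sg P) (i : ∀ σ, P σ → Q σ) : Sg Q :=
  Eventually.mono h fun _ h σ e => i σ (h σ e)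

theorem Sg.of_forall {T : St S} {P : Scale T.G → Prop} (h : ∀ σ, P σ) : Sg P :=
  Eventually.of_forall fun _ σ _ => h σ

namespace St

variable (T : St S)

/-- the domain of the end solver -/
abbrev Dm : Set (Par T.ℓ) := Dom T.R T.k.K1 (13 / 8) (7 / 4) T.k.ε

/-- what is known about the ends -/
structure Good : Prop where
  fm : ∃ c CD C, Em.Fm T.U T.R T.k.K1 T.k.ε T.k.ε1 T.k.C 6015 c CD C (T.k.c0 / T.R)
  e1 : T.k.ε1 ≤ 1 / 100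
  hb0 : ∀ j, T.R ^ (13 / 8 : ℝ) * ‖T.b0 j‖ < T.k.ε / 2
  idn : ∀ j, ∀ t > 0, ∃ δ > 0, ∀ᶠ X : ℝ in atTop, ∀ a h : ℂ, ‖a‖ * X ^ 2 ≤ δ → X * ‖h‖ ≤ δ →
    ((X : ℂ), a, wd (T.b0 j) h) ∈ T.Dm ∧ ∀ s θ i,
      ‖vj T.R X a (T.U ((X : ℂ), a, wd (T.b0 j) h)) s θ i - S9.jS T.e j (xr T.R X s, θ) i‖ ≤ t
  reg : ∀ z ∈ T.Dm, RegJ T.R z.1 z.2.1 (T.U z) ∧
    ∀ s θ, 2 * vj T.R z.1 z.2.1 (T.U z) s θ 0 ∈ Complex.slitPlane

/-- the lift of a variation `d` of `v` -/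
def uL (j : Fin T.p) (d : ℝ × ℝ → ℂ) : T.G.SmC :=
  EC.lift T.G (T.e.Q j) (T.G.oR (T.κ j)) fun q => d q / T.rS j q * T.nu j q

/-- the linearised source -/
def sL (j : Fin T.p) (d : ℝ × ℝ → ℂ) : T.G.SmC :=
  T.G.oR T.G.ρ * (T.G.SC.LL (T.G.oR T.χ * T.uL j d) - T.G.oR T.χ' * T.G.SC.LL (T.uL j d))

/-- the infinitesimal rotations -/
def m0 (β : T.Bt) : Nq.Mt (Fin T.p) := fun j => Ro.m0 (Cj.fQ (T.e.Q j)) fun i => β (j, i)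

/-- the transversal field -/
def Zv (p : S.sl 0) : E := WithLp.toLp 2 fun a => (T.Z a).1 p

/-- conjugation of data -/
def cB (b : T.BB) : T.BB := fun j => Wi.cj (b j)

variable (σ : Scale T.G)

/-- conjugation of values -/
def cW (w : T.WW σ) : T.WW σ := fun j => (σ.cj (w j).1, fun i => conj ((w j).2 i.rev))

/-- the limit `En` of the end maps -/
structure EnD (En : (Fin T.p → ℂ) × T.BB → T.WW σ) (rb C0 : ℝ) : Prop where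
  rb_pos : 0 < rb
  C0_nonneg : 0 ≤ C0
  hol : HolAt En
  zero : En 0 = 0
  cj : ∀ᶠ z in 𝓝 (0 : (Fin T.p → ℂ) × T.BB), En (star z.1, T.cB z.2) = T.cW σ (En z)
  link : ∀ j, ∃ c A c0 c1 c2, El.Exp (fun X a b => T.e1 σ j X a 0 b) (Em.Ub T.R T.k.ε (T.b0 j))
    c c0 c1 c2 A ∧ ∀ a b, En (a, b) j = c0 (b j) + a j • c1 (b j) + a j ^ 2 • c2 (b j)
  ef : ∀ᶠ N : ℕ in atTop, ∃ X0 θ C k, Gl.EF En T.cB (T.cW σ) rb (KK N - 1 / 4) (C0 / ((N : ℝ) + 1))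
    (fun q => T.eM σ N q.1 q.2) X0 θ C k

/-- its derivative consists of Jacobi fields -/
structure JacD (En : (Fin T.p → ℂ) × T.BB → T.WW σ) : Prop where
  jb : ∀ (b : T.BB) j, ∃ d, Lg.J1 (T.vS j) T.R (b j) d ∧
    σ.val (fderiv ℂ En 0 (0, b) j).1 = T.sL j d ∧
    ∀ i : Fin 3, (fderiv ℂ En 0 (0, b) j).2 i = Lg.bc T.R d ((i : ℤ) - 1)
  jc : ∀ j, ∃ d, Lg.J2 (T.vS j) T.R d ∧ ∀ α : Fin T.p → ℂ,
    σ.val (fderiv ℂ En 0 (α, 0) j).1 = α j • T.sL j d ∧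
    ∀ i : Fin 3, (fderiv ℂ En 0 (α, 0) j).2 i = α j * Lg.bc T.R d ((i : ℤ) - 1)

end St

namespace Fa

variable {T : St S} (F : Fa T) (σ : Scale T.G)

/-- the boundary data -/
structure DatD : Prop where
  syn : ∀ (ξ : F.Ξ σ) j θ, Wi.syn (F.dat ξ j) θ = T.vW j (F.w ξ) (T.R, θ) - T.vS j (T.R, θ)
  hol : HolAt (F.dat (σ := σ))
  zero : F.dat (0 : F.Ξ σ) = 0
  fd : ∀ (ξ : F.Ξ σ) j θ, Wi.syn (fderiv ℂ F.dat 0 ξ j) θ =
    T.rS j (T.R, θ) / T.nu j (T.R, θ) * (F.w ξ).1 (T.ψ j (T.R, θ))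
  cj : ∀ ξ : F.Ξ σ, F.dat (F.cj ξ) = T.cB (F.dat ξ)

/-- the pairings -/
structure IID : Prop where
  hol : HolAt (F.II (σ := σ))
  zero : F.II (0 : F.Ξ σ) = 0
  fd : ∀ ξ : F.Ξ σ, fderiv ℂ F.II 0 ξ = ξ.2.1
  cj : ∀ᶠ ξ in 𝓝 (0 : F.Ξ σ), F.II (F.cj ξ) = star (F.II ξ)

/-- the nonlinearity -/
structure NLD : Prop where
  val : ∀ᶠ ξ in 𝓝 (0 : F.Ξ σ), (σ.val (F.NL ξ)).1 = F.nl ξ ∧
    ∀ p, T.G.ζ.1 p = 1 → F.D.Nd (F.w ξ) (T.TT ξ.2.2) (F.c ξ) p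
  hol : HolAt (F.NL (σ := σ))
  zero : F.NL (0 : F.Ξ σ) = 0
  fd : ∀ ξ : F.Ξ σ, σ.val (fderiv ℂ F.NL 0 ξ) =
    -(T.G.oR (T.χ' * T.G.ρ) * T.G.SC.LL (dot (F.D.yy (T.m0 ξ.2.2)) T.G.SC.n))
  cj : ∀ᶠ ξ in 𝓝 (0 : F.Ξ σ), F.NL (F.cj ξ) = σ.cj (F.NL ξ)

/-- the system -/
structure PhiD : Prop where
  dat : F.DatD σ
  ii : F.IID σ
  nl : F.NLD σ
  hol : HolAt (F.Φ (σ := σ))
  zero : F.Φ (σ := σ) 0 = 0
  fd : ∀ (ξ : F.Ξ σ) y w, fderiv ℂ F.Φ 0 (ξ, y, w) =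
    (ξ.1 - fderiv ℂ F.NL 0 ξ - ∑ j, (w j).1, fun k => ξ.2.1 (.inl k) - y k,
      fun q => Wi.co (fderiv ℂ F.dat 0 ξ q.1) ((q.2 : ℤ) - 1) - (w q.1).2 q.2)
  cj : ∀ᶠ ξ in 𝓝 (0 : F.Ξ σ), ∀ y w, F.Φ (ξ, y, w) = 0 → F.Φ (F.cj ξ, star y, T.cW σ w) = 0

/-- the linearised system is invertible and sees the far parameters -/
def LinD (En : (Fin T.p → ℂ) × T.BB → T.WW σ) : Prop :=
  ∃ A : F.Ξ σ ≃L[ℂ] F.HH σ,
    (∀ ξ, A ξ = fderiv ℂ F.Φ 0 (ξ, 0, fderiv ℂ En 0 (0, fderiv ℂ F.dat 0 ξ))) ∧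
    ∀ α ξ, A ξ = -fderiv ℂ F.Φ 0 (0, 0, fderiv ℂ En 0 (α, 0)) → ξ.2.1 = 0 → α = 0

variable {σ}

/-- the core solves the constrained equation and matches the ends -/
structure Mat (N : ℕ) (X : ℂ) (a : Fin T.p → ℂ) (ξ : F.Ξ σ) : Prop where
  mt : ∀ j (q : ℝ × ℝ), T.R < q.1 → q.1 < T.R + 1 / 3 →
    T.rW j (F.w ξ) q = (2 * T.vU (F.zE N X a ξ j) q) ^ (1 / 2 : ℂ)
  eq : ∀ p : S.sl 0, (∀ j, ((p : E), (0 : ℝ)) ∉ tube T.e j (T.R + 1 / 3)) →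
    F.EQ ξ p = 0 ∧ F.D.Nd (F.w ξ) (T.TT ξ.2.2) (F.c ξ) p

/-- the inner datum of the end `j` along a family -/
def bq (ξ : ℂ × (F.I → ℂ) → F.Ξ σ) (j : Fin T.p) (q : ℂ × (F.I → ℂ)) : Wi (omP 2) :=
  T.b0 j + F.dat (ξ q) j

/-- the action along a family -/
def Aq (N : ℕ) (ξ : ℂ × (F.I → ℂ) → F.Ξ σ) (q : ℂ × (F.I → ℂ)) : ℂ := F.AT N q.1 (aa q.2) (ξ q)

/-- a glued family of size `ρ` -/
structure Gf (N : ℕ) (ξ : ℂ × (F.I → ℂ) → F.Ξ σ) (ρ r X1 θ : ℝ) : Prop where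
  r_pos : 0 < r
  θ_pos : 0 < θ
  θ_le : θ ≤ 1
  X1_ge : 2 ≤ X1
  hol : DifferentiableOn ℂ ξ (Om r (KK N - 1 / 4) X1 θ)
  small : ∀ q ∈ Om r (KK N - 1 / 4) X1 θ, ‖ξ q‖ < ρ ∧ ‖F.dat (ξ q)‖ < ρ
  en : ∀ j, Gi.En T.U N (F.bq ξ j) T.R (KK N - 1 / 4) T.k.K1 (13 / 8) (7 / 4) T.k.ε T.k.ε1 T.k.C
    r X1 θ
  sv : ∀ q ∈ Om r (KK N - 1 / 4) X1 θ, F.Sv N q.1 (yy q.2) (aa q.2) (ξ q)
  mat : ∀ q ∈ Om r (KK N - 1 / 4) X1 θ, F.Mat N q.1 (aa q.2) (ξ q)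
  cj : ∀ X : ℝ, X1 < X → ∀ w ∈ DomA r (KK N - 1 / 4) X, ξ (X, star w) = F.cj (ξ (X, w))
  base : ∀ ε, 0 < ε → ∃ δ, 0 < δ ∧ ∀ X : ℝ, δ⁻¹ < X → X1 < X → ∀ w ∈ DomA r (KK N - 1 / 4) X,
    ‖yy w‖ < δ → ‖ξ (X, w)‖ < ε ∧ ‖F.dat (ξ (X, w))‖ < ε

variable (σ)

/-- for all small glued families -/
def AllG (P : ℕ → (ℂ × (F.I → ℂ) → F.Ξ σ) → ℝ → ℝ → ℝ → Prop) : Prop :=
  ∃ ρ : ℝ, 0 < ρ ∧ ∀ N ξ r X1 θ, F.Gf N ξ ρ r X1 θ → P N ξ r X1 θ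

/-- matching -/
def MatD : Prop := ∃ ρ X1 : ℝ, 0 < ρ ∧ ∀ N X y a (ξ : F.Ξ σ), X1 < X.re → ‖ξ‖ < ρ →
  ‖F.dat ξ‖ < ρ → F.Sv N X y a ξ → F.Mat N X a ξ

/-- first variation (`Gi.Pc.var`) -/
def VarD : Prop := F.AllG σ fun N ξ r X1 _ => ∃ CT : ℝ, ∀ X : ℝ, X1 < X →
  ∀ w ∈ DomA r (KK N - 1 / 4) X, ∀ (δ : ℂ) (v : F.I → ℂ), ∃ Tq : Fin T.p → ℂ,
    (∀ j, ‖Tq j‖ ≤ CT * Real.exp (-X ^ 2 / 4) * X ^ (-(2 * (13 / 8 : ℝ))) *
      ‖fderiv ℂ (fun q => (ξ q).2.2) (X, w) (δ, v)‖) ∧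
    fderiv ℂ (F.Aq N ξ) (X, w) (δ, v) =
      ∑ l, F.c (ξ (X, w)) l * fderiv ℂ (fun q => F.II (ξ q)) (X, w) (δ, v) l +
      ∑ j, (Far.farI T.R X (w (Sum.inr j)) (Gi.Jq T.U N j (F.bq ξ j) (X, w)) δ (v (Sum.inr j))
        (fderiv ℂ (Gi.Jq T.U N j (F.bq ξ j)) (X, w) (δ, v)) + Tq j)

/-- the value of the action -/
def ActD : Prop := F.AllG σ fun N ξ r X1 θ =>
  DifferentiableOn ℂ (F.Aq N ξ) (Om r (KK N - 1 / 4) X1 θ) ∧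
  (∃ C : ℝ, ∀ q ∈ Om r (KK N - 1 / 4) X1 θ, ‖F.Aq N ξ q‖ ≤ C) ∧
  (∀ X : ℝ, X1 < X → ∀ x : F.I → ℝ, ofR x ∈ DomA r (KK N - 1 / 4) X →
    (F.Aq N ξ (X, ofR x)).im = 0) ∧
  Tendsto (fun X : ℝ => F.Aq N ξ (X, 0)) atTop (𝓝 ((4 * Real.pi * S.Fs 0 0 1 : ℝ) : ℂ))

/-- the ambient constraint functions -/
def fA (g : F.I → E → ℝ) (i : Fin (F.n + T.p)) (y : E) : ℝ :=
  4 * Real.pi * gau 0 1 y * g (finSumFinEquiv.symm i) y

/-- ambient extensions -/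
structure Am (δ : ℝ) (g : F.I → E → ℝ) : Prop where
  δ_pos : 0 < δ
  sm : ∀ k, ContDiff ℝ ∞ (g k)
  lin : ∀ k (p : S.sl 0) (s : ℝ), |s| ≤ δ * (1 + ‖(p : E)‖) →
    g k ((p : E) + s • T.Zv p) = s * (F.φ k).1 p
  supp : ∀ k, ∀ y ∈ tsupport (g k), ‖y‖ < T.R - 1 / 2 ∧
    ∀ j, xi T.e j y < T.R - 7 / 4 ∨ 6 < r2 T.e j y
  cons : Cons S (F.fA g)

/-- the real points -/
def RealD (g : F.I → E → ℝ) : Prop := F.AllG σ fun N ξ _ _ _ =>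
  RealM S (F.fA g) finSumFinEquiv.symm (Gi.FFo N (F.Aq N ξ)) (fun q => F.II (ξ q))
    fun q => F.c (ξ q)

end Fa

/-! ### the leaves -/

/-- settings exist (75) -/
def ExL : Prop := ∀ (S : Mv) (Λ : ℝ), S.IsShr → S.AR Λ → ∀ (e : Ends S) (P : St S → Prop),
  Ev e P → ∃ T, T.e = e ∧ P T

/-- the ends are good (84) -/
def GoodL : Prop := ∀ (S : Mv) (e : Ends S), Ev e St.Good

/-- the end maps (4) -/
def EndL : Prop := ∀ (S : Mv) (T : St S), T.Good → Sg fun σ => ∃ En rb C0, T.EnD σ En rb C0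

/-- Jacobi fields (29) -/
def JacL : Prop := ∀ (S : Mv) (T : St S), T.Good →
  Sg fun σ => ∀ En rb C0, T.EnD σ En rb C0 → T.JacD σ En

/-- one fast growing Jacobi field on every end (29) -/
def JaL : Prop := ∀ (S : Mv) (Λ : ℝ), S.IsShr → S.AR Λ → ∀ (e : Ends S) (j : Fin e.p),
  ∃ R1 d, e.R < R1 ∧ Lg.Jac (fun q => ((e.r j q : ℝ) : ℂ) ^ 2 / 2) R1 d ∧ Lg.Unb d

/-- boundary data (40) -/
def DatL : Prop := ∀ (S : Mv) (T : St S) (F : Fa T), Sg F.DatD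

/-- pairings (82, 13, 37) -/
def IIL : Prop := ∀ (S : Mv) (T : St S) (F : Fa T), Sg F.IID

/-- nonlinearity (76, 71) -/
def NLL : Prop := ∀ (S : Mv) (T : St S) (F : Fa T), Sg F.NLD

/-- the system (76) -/
def PhiL : Prop := ∀ (S : Mv) (T : St S) (F : Fa T), Sg F.PhiD

/-- the linearised system (28, 73) -/
def LinL : Prop := ∀ (S : Mv) (e : Ends S), Ev e fun T => ∃ F : Fa T,
  Sg fun σ => F.PhiD σ → ∀ En, T.JacD σ En → F.LinD σ En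

/-- matching (66) -/
def MatL : Prop := ∀ (S : Mv) (e : Ends S), Ev e fun T => T.Good → ∀ F : Fa T,
  Sg fun σ => F.PhiD σ → F.MatD σ

/-- first variation (97, 48, 81, 82) -/
def VarL : Prop := ∀ (S : Mv) (T : St S), T.Good → ∀ F : Fa T, Sg fun σ => F.PhiD σ → F.VarD σ

/-- value of the action (26, 82) -/
def ActL : Prop := ∀ (S : Mv) (T : St S), T.Good → ∀ F : Fa T, Sg fun σ => F.PhiD σ → F.ActD σ

/-- constraint functions (52, 13) -/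
def AmL : Prop := ∀ (S : Mv) (T : St S) (F : Fa T), ∃ δ g, F.Am δ g

/-- real points (55, 50) -/
def RealL : Prop := ∀ (S : Mv) (T : St S), T.Good → ∀ (F : Fa T) δ g, F.Am δ g →
  Sg fun σ => F.PhiD σ → F.RealD σ g

end Crest.Agent.N250.R0

end
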