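import Crest.Agent.N250.R0.Core
import Crest.Agent.N250.Wr.Z
import Crest.Agent.N250.Ec.Tube
import Crest.Agent.N250.B1.End5
import Crest.Agent.N250.R0.Leaf
import Crest.Agent.N250.B1.Low1
import Crest.Agent.N250.B1.Lin3
import Crest.Agent.N250.B1.Wt
import Crest.Agent.N250.B1.DrS
import Crest.Agent.N250.B1.Low
import Crest.Agent.N250.B1.Ap_Mg
import Crest.Agent.N250.B1.Nl
import Crest.Agent.N250.B1.Sys
import Crest.Agent.N250.B1.EndCv
import Crest.Agent.N250.B1.End4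
import Crest.Agent.N250.B1.EndHol_Mg
import Crest.Agent.N250.Se.Dic
import Crest.Agent.N250.Em.Rd
import Crest.Agent.N250.S9.Idt

-- ▼ part N250/R0/StEx
section

/-!
# Row 250 (helper75): existence of the setting `St`
-/

set_option autoImplicit false
open MeasureTheory Set Filter Topology
open scoped InnerProductSpace
open Crest.GeometryTopology.MCF

noncomputable section

namespace Crest.Agent.N250

namespace B1

theorem IsEnd.shrink {R K g g' ε ε' ε1 C : ℝ} {ℓ : Ell} {U : Par ℓ → Jt ℓ}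
    (h : IsEnd R K g g' ε ε1 C ℓ U) (hε : ε' ≤ ε) : IsEnd R K g g' ε' ε1 C ℓ U := by
  have hs : Dom (ℓ := ℓ) R K g g' ε' ⊆ Dom R K g g' ε := fun z hz =>
    ⟨hz.1, hz.2.1, hz.2.2.1, hz.2.2.2.1, hz.2.2.2.2.trans_le hε⟩
  exact ⟨h.hol.mono hs, fun z hz => h.sol z (hs hz), fun z hz => h.bd z (hs hz),
    fun z hz => h.uniq z (hs hz)⟩

end B1

namespace R0

open WS Wr B1

theorem ell_sm {c c' R : ℝ} (hc : 0 < c) (h : c ≤ c') (hR : 0 < R) : (ell (c / R)).Sm c' R :=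
  fun m => by
    change |c / R| * |(m : ℝ)| ≤ _
    rw [abs_of_pos (by positivity), div_mul_eq_mul_div]
    gcongr

theorem triv_sm {c R : ℝ} (hc : 0 < c) (hR : 0 < R) : Ell.triv.Sm c R := fun m => by
  change (0 : ℝ) ≤ _
  positivity

/-- the end solver exists for all small symbols and all large `R` -/
def Cst.Ok (k : Cst) (R1 : ℝ) : Prop :=
  1 ≤ R1 ∧ ∀ R, R1 ≤ R → ∀ ℓ : Ell, ℓ.Sm k.c0 R →
    ∃ U, IsEnd R k.K1 (13 / 8) (7 / 4) k.ε k.ε1 k.C ℓ U

theorem exists_cst {e0 c1 : ℝ} (h0 : 0 < e0) (K0 : ℝ) (hc1 : 0 < c1) : ∃ (k : Cst) (R1 : ℝ),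
    k.ε1 ≤ e0 ∧ k.ε ≤ e0 ∧ K0 ≤ k.K1 ∧ k.c0 ≤ c1 ∧ k.Ok R1 := by
  obtain ⟨R1, K1, c0, ε, ε1, C, hR, hK, hc, hε, hC, h1, h2, h⟩ :=
    endS_holds (13 / 8) (7 / 4) (by norm_num [B1.Ex]) e0 h0
  have h3 : C * (3 / max K1 K0 + min ε e0) ≤ ε1 / 4 := by
    refine le_trans ?_ h2
    gcongr
    · exact le_max_left _ _
    · exact min_le_left _ _
  refine ⟨⟨min ε e0, ε1, C, max K1 K0, min c0 c1, lt_min hε h0, hC, hK.trans (le_max_left _ _),
    lt_min hc hc1, h3⟩, R1, h1, min_le_right _ _, le_max_right _ _, min_le_right _ _, hR,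
    fun R hR' ℓ hl => ?_⟩
  obtain ⟨U, hU⟩ := h R (max K1 K0) hR' (le_max_left _ _) ℓ fun m => (hl m).trans (by
    have : 0 < R := by linarith
    gcongr
    exact min_le_left _ _)
  exact ⟨U, hU.shrink (min_le_left _ _)⟩

variable {S : Mv}

theorem Cst.Ok.st {k : Cst} {R1 Λ : ℝ} (hk : k.Ok R1) (hS : S.IsShr) (hΛ : S.AR Λ) (e : Ends S)
    {b : ℕ} (h2 : 2 ≤ b) (hb : ∀ p ∈ S.M, 2 * S.A2 p + 4 ≤ b) :
    ∃ R2 : ℝ, ∀ R, R2 ≤ R → ∃ T : St S, T.P.e = e ∧ T.P.b = b ∧ T.R = R ∧ T.k = k := by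
  obtain ⟨s₀, h₀⟩ := nw_far hS.reg hS.st (e := e) one_pos
  refine ⟨max R1 (max (e.R + 7) (s₀ + 6)), fun R hR => ?_⟩
  have r1 : R1 ≤ R := (le_max_left _ _).trans hR
  have r2' : e.R + 7 ≤ R := ((le_max_left _ _).trans (le_max_right _ _)).trans hR
  have r3 : s₀ + 6 ≤ R := ((le_max_right _ _).trans (le_max_right _ _)).trans hR
  have r0 : 0 < R := by linarith [hk.1]
  obtain ⟨U, hU⟩ := hk.2 R r1 _ (ell_sm k.c0_pos le_rfl r0)
  obtain ⟨U0, hU0⟩ := hk.2 R r1 _ (triv_sm k.c0_pos r0)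
  have ha : e.R < R - 6 := by linarith
  have hab : R - 6 < R - 5 := by linarith
  let P : Prm S := ⟨e, Λ, R - 6, R + 1, R + 2, b, hS, hΛ, ha, by linarith, by linarith,
    hb, h2⟩
  refine ⟨⟨P, R, k, P.Zc ha hab, Ec.psi e, U, U0, r2', rfl, rfl, rfl, fun j q hq => Ec.psi_val hq,
    ?_, P.sy_Zc ha hab, P.sy_dr_Zc ha hab, fun j p hp a => ?_, fun j p hp => ?_, hU, hU0⟩,
    rfl, rfl, rfl, rfl⟩
  · rw [← P.n_Zc ha hab]
    exact Finset.sum_congr rfl fun a _ => mul_comm _ _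
  · rw [P.Zc_apply, Zf_tube hS.st ha hab p.2 hp, div_eq_inv_mul]
    rfl
  · have h1 := h₀ j (p, 0) p.2 (tube_mono (by linarith) hp)
    obtain ⟨q, hq, -, rfl⟩ := Ec.exists_psi hS.st ha.le p hp
    have hq' : e.R < q.1 := ha.trans hq
    have h3 := (e.near j q hq').1
    rw [Ec.r2_psi hq'] at h1
    change 1 / 2 ≤ |nw e j (Ec.psi e j q, 0)|
    refine abs_le_of_sq_le_sq' ?_ (abs_nonneg _) |>.2
    rw [sq_abs]
    nlinarith

theorem exists_st {e0 c1 Λ : ℝ} (hS : S.IsShr) (hΛ : S.AR Λ) (e : Ends S) {b : ℕ} (h2 : 2 ≤ b)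
    (hb : ∀ p ∈ S.M, 2 * S.A2 p + 4 ≤ b) (h0 : 0 < e0) (K0 : ℝ) (hc1 : 0 < c1) :
    ∃ k : Cst, k.ε1 ≤ e0 ∧ k.ε ≤ e0 ∧ K0 ≤ k.K1 ∧ k.c0 ≤ c1 ∧ ∃ R1 : ℝ,
      ∀ R, R1 ≤ R → ∃ T : St S, T.P.e = e ∧ T.P.b = b ∧ T.R = R ∧ T.k = k := by
  obtain ⟨k, R1, h1, h2', h3, h4, h5⟩ := exists_cst h0 K0 hc1
  exact ⟨k, h1, h2', h3, h4, h5.st hS hΛ e h2 hb⟩

end R0

end Crest.Agent.N250

end
end

-- ▼ part N250/R0/LEx
section

/-!
# Row 250 (helper75): the leaf `ExL`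
-/

set_option autoImplicit false

namespace Crest.Agent.N250.R0

theorem exL : ExL := by
  rintro S Λ hS hΛ e P ⟨e0, K0, c1, h0, hc, h⟩
  obtain ⟨b, h2, hb⟩ := Wr.exists_b hS e
  obtain ⟨k, h1, h3, h4, h5, R1, hR⟩ := exists_st hS hΛ e h2 (hb b le_rfl) h0 K0 hc
  obtain ⟨R2, h⟩ := h k h3 h1 h4 h5
  obtain ⟨T, e1, -, e2, e3⟩ := hR (max R1 R2) (le_max_left _ _)
  exact ⟨T, e1, h T e1 e3 (e2 ▸ le_max_right _ _)⟩

end Crest.Agent.N250.R0
end

-- ▼ part N250/B1/M1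
section

/-!
# Row 250, block B1 (helper70): the modes `± 1` are quadratically small
-/

set_option autoImplicit false
open Set Filter Topology

noncomputable section

namespace Crest.Agent.N250.B1

variable {ε R X δ A n x : ℝ} {a : ℂ} {m : ℤ} {G w p : ℝ → ℂ}

theorem W_one (n : ℝ) (a : ℂ) (x : ℝ) : W n 1 a x = x ^ (-n) * ‖et a x‖ := by rw [W, Real.rpow_one]

/-- `(W / |η|)² ≤ 3 x^{-2g} |η|` -/
theorem Pt.th_sq (h : Pt ε a x) {g g' : ℝ} (h1 : 3 / 2 ≤ g') (h2 : g' ≤ 2) :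
    (W g g' a x / ‖et a x‖) ^ 2 ≤ 3 * W (2 * g) 1 a x := by
  have n0 := h.npos
  have x0 := h.xpos
  have e : (W g g' a x / ‖et a x‖) ^ 2 = ‖et a x‖ ^ (2 * g' - 3) * W (2 * g) 1 a x := by
    rw [W_one, W, show -(2 * g) = -g + -g by ring, Real.rpow_add x0, show 2 * g' - 3 = g' + g' - (3 : ℕ) by
      push_cast; ring, Real.rpow_sub_natCast n0.ne', Real.rpow_add n0]
    field_simp
  rw [e]
  refine mul_le_mul_of_nonneg_right ?_ (h.W_pos _ _).le
  refine (Real.rpow_le_rpow n0.le h.norm_le (by linarith)).trans ?_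
  simpa using Real.rpow_le_rpow_of_exponent_le (x := 3) (by norm_num) (show 2 * g' - 3 ≤ 1 by linarith)

theorem Pt.xl1 (h : Pt ε a x) : x * ‖l1 a x‖ ≤ 8 / ‖et a x‖ := by
  have n0 := h.npos
  have x0 : (x : ℂ) ≠ 0 := by exact_mod_cast h.xpos.ne'
  have e : (x : ℂ) * l1 a x = (2 * et a x - 1 + a) / et a x := by
    have := h.ne
    rw [l1]; field_simp; linear_combination et_sub a x
  have := congrArg norm e
  rw [norm_mul, Complex.norm_real, Real.norm_of_nonneg h.xpos.le, norm_div] at this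
  rw [this]
  gcongr
  have a1 := norm_add_le (2 * et a x - 1) a
  have a2 := norm_sub_le (2 * et a x) 1
  rw [norm_mul, Complex.norm_two, norm_one] at a2
  linarith [h.norm_le, h.a_le_three, h.small]

theorem lo1_W (hm : m ^ 2 = 1) (hR : 0 < R) (ok : ∀ x ∈ Icc R X, Pt ε a x) (hn : 1 ≤ n) :
    Lo1 R X 1 (Vx a m) (l1 a) (l1' a) (mu a) (lm a) (W n 1 a) fun x => -n / x + 1 * ln a x := by
  refine ⟨hR, one_pos, fun x hx => (ok x hx).hasDerivAt_l1.hasDerivWithinAt,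
    fun x hx => (ok x hx).hasDerivAt_mu.hasDerivWithinAt,
    fun x hx => ((ok x hx).hasDerivAt_W n 1).hasDerivWithinAt, fun x hx => (ok x hx).mu_pos,
    fun x hx => (ok x hx).W_pos _ _, fun x hx => (abs_le.1 (ok x hx).lm_le').2, fun x hx => ?_, fun x hx => ?_,
    fun x hx => ?_, fun x hx => ?_⟩
  · have := (ok x hx).xpos
    have : -n / x ≤ 0 := div_nonpos_of_nonpos_of_nonneg (by linarith) this.le
    linarith [(abs_le.1 (ok x hx).ln_le').2]
  · have h := ok x hx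
    rw [Pt.l1_eq, Complex.add_re, Complex.ofReal_re, Complex.div_ofNat_re]
    have := (abs_le.1 h.ln_le').2
    have b : 1 / x ≤ 1 := by rw [div_le_one h.xpos]; linarith [h.x_ge]
    rw [ln] at this
    linarith [h.x_ge]
  · have h := ok x hx
    have x0 := h.xpos.ne'
    rw [Pt.l1_eq, Complex.add_re, Complex.ofReal_re, Complex.div_ofNat_re, ln,
      show x * (-n / x + 1 * (a * x / et a x).re - (1 / x + (a * x / et a x).re / 2)) =
        -n - 1 + x * (a * x / et a x).re / 2 by field_simp; ring, h.ee_re]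
    linarith [(abs_le.1 h.abs_re_a_div).2, h.small]
  · have h := ok x hx
    rw [show Vx a m x - (l1' a x + l1 a x * l1 a x - x / 2 * l1 a x) = res a x by
      have e : Vx a m x = Vm a m x := rfl
      linear_combination -h.res_eq hm + e]
    linarith [h.res_le', h.mu_pos]

/-- **bootstrap for the modes `± 1`**, `y₁ = w/η`, `Z₁ = x p`, `V₁ = w''` -/
theorem m1_ode (hm : m ^ 2 = 1) (hR : 0 < R) (hRX : R ≤ X) (ok : ∀ x ∈ Icc R X, Pt ε a x) (hn : 1 ≤ n)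
    (s : Sol2 R X dr (Vx a m) G w p) (hδ0 : 0 ≤ δ) (hδ : δ ≤ 1 / 1000) (hA : 0 ≤ A)
    (hG : ∀ x ∈ Icc R X, ‖G x‖ ≤ δ * ((et a x).re / ‖et a x‖) *
      (‖w x‖ / ‖et a x‖ + x * ‖p x‖ + ‖dr x * p x + Vx a m x * w x + G x‖) + A * W n 1 a x)
    (h0 : ‖w X‖ ≤ A * W n 1 a X) (h1 : X * ‖p X - l1 a X * w X‖ ≤ A * W n 1 a X) :
    ∀ x ∈ Icc R X, ‖w x‖ ≤ 100 * A * W n 1 a x ∧ x * ‖p x‖ ≤ 900 * A * x ^ (-n) := by
  have L := lo1_W hm hR ok hn
  set Ω := W n 1 a with hΩ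
  have c : ContinuousOn (fun x => ‖w x‖ / Ω x + x * ‖p x - l1 a x * w x‖ / (mu a x * Ω x)) (Icc R X) :=
    (s.d0.cont.norm.div L.dΩ.cont fun x hx => (L.Ω0 x hx).ne').add ((continuousOn_id.mul
      (s.d1.cont.sub (L.dl.cont.mul s.d0.cont)).norm).div (L.dμ.cont.mul L.dΩ.cont)
      fun x hx => (mul_pos (L.μ0 x hx) (L.Ω0 x hx)).ne')
  obtain ⟨x0, hx0, hN⟩ := isCompact_Icc.exists_isMaxOn (nonempty_Icc.2 hRX) c
  obtain ⟨N, eN⟩ : ∃ N, N = ‖w x0‖ / Ω x0 + x0 * ‖p x0 - l1 a x0 * w x0‖ / (mu a x0 * Ω x0) := ⟨_, rfl⟩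
  have b : ∀ x ∈ Icc R X, ‖w x‖ ≤ N * Ω x ∧ x * ‖p x - l1 a x * w x‖ ≤ N * (mu a x * Ω x) := fun x hx => by
    have h : ‖w x‖ / Ω x + x * ‖p x - l1 a x * w x‖ / (mu a x * Ω x) ≤ N := eN ▸ hN hx
    have o := L.Ω0 x hx
    have u := L.μ0 x hx
    have x0 := (ok x hx).xpos
    have a1 : 0 ≤ ‖w x‖ / Ω x := by positivity
    have a2 : 0 ≤ x * ‖p x - l1 a x * w x‖ / (mu a x * Ω x) := by positivity
    exact ⟨(div_le_iff₀ o).1 (by linarith), (div_le_iff₀ (mul_pos u o)).1 (by linarith)⟩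
  have N0 : 0 ≤ N := nonneg_of_mul_nonneg_left ((norm_nonneg _).trans (b x0 hx0).1) (L.Ω0 x0 hx0)
  have xp : ∀ x ∈ Icc R X, x * ‖p x‖ ≤ x * ‖p x - l1 a x * w x‖ + 8 * (‖w x‖ / ‖et a x‖) := fun x hx => by
    have h := ok x hx
    have a1 := norm_add_le (p x - l1 a x * w x) (l1 a x * w x)
    rw [sub_add_cancel, norm_mul] at a1
    have a2 := mul_le_mul_of_nonneg_right h.xl1 (norm_nonneg (w x))
    have a3 := mul_le_mul_of_nonneg_left a1 h.xpos.le
    rw [show 8 / ‖et a x‖ * ‖w x‖ = 8 * (‖w x‖ / ‖et a x‖) by ring] at a2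
    nlinarith
  have g : ∀ x ∈ Icc R X, ‖G x‖ ≤ (20 * δ * N + 4 * A) * (mu a x * Ω x) := fun x hx => by
    have h := ok x hx
    have n0 := h.npos
    have o := L.Ω0 x hx
    obtain ⟨b1, b2⟩ := b x hx
    have k1 : (et a x).re / ‖et a x‖ ≤ 1 := (div_le_one n0).2 h.re_le
    have k0 : 0 ≤ (et a x).re / ‖et a x‖ := (div_pos h.repos n0).le
    have k2 : (et a x).re / ‖et a x‖ * (‖w x‖ / ‖et a x‖) ≤ N * (mu a x * Ω x) := by
      rw [show (et a x).re / ‖et a x‖ * (‖w x‖ / ‖et a x‖) = mu a x * ‖w x‖ by rw [mu_eq]; field_simp]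
      nlinarith [h.mu_pos]
    have v : ‖Vx a m x * w x‖ ≤ 4 * (‖w x‖ / ‖et a x‖) := by
      have hm' : (m : ℂ) ^ 2 = 1 := by exact_mod_cast hm
      have := h.ne
      rw [show Vx a m x * w x = (1 / 2 - et a x) * (w x / et a x) by rw [Vx, hm']; field_simp, norm_mul, norm_div]
      have := norm_sub_le (1 / 2 : ℂ) (et a x)
      rw [show ‖(1 / 2 : ℂ)‖ = 1 / 2 by simp] at this
      gcongr; linarith [h.norm_le]
    have q : ‖dr x * p x + Vx a m x * w x + G x‖ ≤ x * ‖p x‖ / 2 + 4 * (‖w x‖ / ‖et a x‖) + ‖G x‖ := by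
      refine norm_add₃_le.trans ?_
      rw [norm_mul, norm_dr h.xpos.le]; linarith
    have t : (et a x).re / ‖et a x‖ * (‖w x‖ / ‖et a x‖ + x * ‖p x‖ + ‖dr x * p x + Vx a m x * w x + G x‖) ≤
        19 * N * (mu a x * Ω x) + ‖G x‖ := by
      have a1 := mul_le_mul_of_nonneg_left (show ‖w x‖ / ‖et a x‖ + x * ‖p x‖ + ‖dr x * p x + Vx a m x * w x + G x‖ ≤
        17 * (‖w x‖ / ‖et a x‖) + (3 / 2 * (x * ‖p x - l1 a x * w x‖) + ‖G x‖) by linarith [xp x hx]) k0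
      have a2 := mul_le_of_le_one_left (show 0 ≤ 3 / 2 * (x * ‖p x - l1 a x * w x‖) + ‖G x‖ by
        have := h.xpos; positivity) k1
      have : 0 ≤ N * (mu a x * Ω x) := by have := h.mu_pos; positivity
      linarith
    have a1 := hG x hx
    have a2 := mul_le_mul_of_nonneg_left t hδ0
    have a3 : A * Ω x ≤ 3 * A * (mu a x * Ω x) := by nlinarith [mul_nonneg hA o.le, h.mu_ge]
    have a4 : 0 ≤ δ * N * (mu a x * Ω x) := by have := h.mu_pos; positivity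
    have a5 : 0 ≤ A * (mu a x * Ω x) := by have := h.mu_pos; positivity
    have a6 := mul_le_mul_of_nonneg_right hδ (norm_nonneg (G x))
    nlinarith
  have hX := right_mem_Icc.2 hRX
  have M0 : 0 ≤ δ * N := mul_nonneg hδ0 N0
  have k := L.le (g := G) (w := w) (w1 := p) (s.congr (fun _ _ => rfl) (fun _ _ => rfl) fun x _ => by simp [dr])
    (M := 20 * δ * N + 4 * A) (by positivity) g
    (h0.trans (mul_le_mul_of_nonneg_right (by linarith) (L.Ω0 X hX).le))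
    (h1.trans (by
      have a1 := mul_nonneg hA (L.Ω0 X hX).le
      have a2 := mul_nonneg M0 (mul_pos (L.μ0 X hX) (L.Ω0 X hX)).le
      nlinarith [(ok X hX).mu_ge])) x0 hx0
  have N1 : N ≤ 100 * A := by
    have a1 := (div_le_iff₀ (L.Ω0 x0 hx0)).2 k.1
    have a2 := (div_le_iff₀ (mul_pos (L.μ0 x0 hx0) (L.Ω0 x0 hx0))).2 k.2
    have := mul_le_mul_of_nonneg_right hδ N0
    linarith
  intro x hx
  have h := ok x hx
  have o := L.Ω0 x hx
  have w1 := (b x hx).1.trans (mul_le_mul_of_nonneg_right N1 o.le)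
  refine ⟨w1, (xp x hx).trans ?_⟩
  have a1 := (b x hx).2.trans (mul_le_mul_of_nonneg_right N1 (mul_pos h.mu_pos o).le)
  have r : 0 < x ^ (-n) := Real.rpow_pos_of_pos h.xpos _
  have a2 : ‖w x‖ / ‖et a x‖ ≤ 100 * A * x ^ (-n) := by
    rw [div_le_iff₀ h.npos]; rw [hΩ, W_one] at w1; linarith
  have a3 : mu a x * Ω x ≤ x ^ (-n) := by rw [hΩ, W_one]; nlinarith [h.mu_norm_le]
  nlinarith [mul_le_mul_of_nonneg_left a3 hA]


end Crest.Agent.N250.B1
end
end

-- ▼ part N250/B1/M1b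
section

/-!
# Row 250, block B1 (helper70): `M1S`
-/

set_option autoImplicit false
open Set Filter Topology

noncomputable section

namespace Crest.Agent.N250.B1

theorem m1S_of (hA : ApS) : M1S := by
  intro g g' hg
  obtain ⟨c, G⟩ := hg.gg
  obtain ⟨C, C0, hC⟩ := hA
  refine ⟨3600 * C, min (1 / 100) (1 / (2000 * C)), by positivity, by positivity, ?_⟩
  intro ℓ R K ε M X a D J hX ok hρ hε hM sol inb hD m hm hH x hx
  have e1 := min_le_left (1 / 100 : ℝ) (1 / (2000 * C))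
  have e2 := min_le_right (1 / 100 : ℝ) (1 / (2000 * C))
  have hR := ok.2 R (left_mem_Icc.2 ok.1.le)
  have ap := hC ℓ R K g g' c ε M X a D J G hX ok hρ (hM.trans e1) sol inb
  have d : C * (max M 0 + ε) ≤ 1 / 1000 := by
    have : max M 0 ≤ 1 / (2000 * C) := max_le (hM.trans e2) (by positivity)
    calc C * (max M 0 + ε) ≤ C * (1 / (2000 * C) + 1 / (2000 * C)) := by gcongr; exact hε.trans e2
      _ = 1 / 1000 := by field_simp; norm_num
  have z0 : mo R X J 0 m X = 0 := by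
    rw [mo, fx_right hX]
    rcases sq_eq_one_iff.1 hm with rfl | rfl
    · rw [sol.bc.farp]; exact congrArg Prod.fst hD
    · rw [sol.bc.farm]; exact congrArg Prod.snd hD
  have z1 : mo R X J 1 m X = 0 := by rw [mo, fx_right hX, sol.bc.slope]; exact hH
  have o : 0 ≤ 3 * C * W (2 * g) 1 a X := by
    have := (ok.2 X (right_mem_Icc.2 ok.1.le)).W_pos (2 * g) 1
    positivity
  have k := m1_ode (n := 2 * g) (A := 3 * C) (w := mo R X J 0 m) (p := mo R X J 1 m)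
    (G := fun x => mo R X J 2 m x - x / 2 * mo R X J 1 m x - Vm a m x * mo R X J 0 m x) hm hR.xpos ok.1.le ok.2
    (by linarith [G.lo]) ⟨(sol.jet.d0 m).dv hX, ((sol.jet.d1 m).dv hX).congr (fun _ _ => rfl) fun x _ => by
      simp only [mo, dr, Vx, Vm]; push_cast; ring⟩ (by have := hR.εpos; positivity) d (by positivity)
    (fun x hx => by
      have h := ok.2 x hx
      rw [show dr x * mo R X J 1 m x + Vx a m x * mo R X J 0 m x + (mo R X J 2 m x - x / 2 * mo R X J 1 m x -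
        Vm a m x * mo R X J 0 m x) = mo R X J 2 m x by simp only [dr, Vx, Vm]; push_cast; ring]
      refine ((ap x hx).2 m hm).trans ?_
      have a1 := mul_le_mul_of_nonneg_left (h.th_sq (g := g) (by linarith [G.lo']) G.hi') C0.le
      have a2 : 0 ≤ (et a x).re / ‖et a x‖ * (‖mo R X J 0 m x‖ / ‖et a x‖ + x * ‖mo R X J 1 m x‖ +
          ‖mo R X J 2 m x‖) := by have := h.repos; have := h.xpos; positivity
      have a3 := mul_le_mul_of_nonneg_right (mul_le_mul_of_nonneg_left (le_max_left M 0) C0.le) a2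
      nlinarith) (by simpa [z0] using o) (by simpa [z0, z1] using o) x hx
  have h := ok.2 x hx
  have r : 0 < x ^ (-(2 * g)) := Real.rpow_pos_of_pos h.xpos _
  rw [W_one] at k
  nlinarith [mul_le_mul_of_nonneg_left h.norm_le (mul_pos C0 r).le, k.1, k.2, mul_pos C0 r]

end Crest.Agent.N250.B1
end
end

-- ▼ part N250/B1/Log
section

/-!
# Row 250, block B1 (helper77): the logarithmic drift of the mode `0`
-/

set_option autoImplicit false
open Set Filter Topology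

noncomputable section

namespace Crest.Agent.N250.B1

namespace Lg

/-- the pointwise bound of the derivative of the almost conserved quantity -/
theorem psi_pt {t u j M rr : ℝ} {α y xy ax p q r iv iq Λ : ℂ} (ht : 0 ≤ t) (hu : 1 ≤ 3 * u)
    (hj0 : 0 ≤ j) (hj : j ≤ 3 * t ^ 2) (hM : 560 ≤ M) (hα : ‖α‖ ≤ 13 * t ^ 2)
    (hy : ‖y‖ ≤ M * t ^ 3 * u) (hxy : ‖xy‖ ≤ M * t ^ 2 * u) (hax : ‖ax‖ ≤ 13 * t)
    (hp : ‖p‖ ≤ 10 * t) (hq : ‖q‖ ≤ M * t ^ 2 * u) (hr : ‖r‖ ≤ rr) (hiv : ‖iv‖ ≤ 2 * u)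
    (hiq : ‖iq‖ ≤ u) :
    ‖2 * (α * y * j * Λ) + (2 * (t * t * j) + 4 * (j * j)) * y - 2 * (α * α * t * j * iv) -
      α * α * (2 * α + xy) * t * iv - 2 * (t * j * (p * p * q * iq)) +
      t * j * (p * p * p * p * iv * iq) - t * j * (y * (p + ax) * iv) - 2 * (t * j * r)‖ ≤
      2000 * M * t ^ 7 * u ^ 2 + 39 * M * t ^ 7 * ‖Λ‖ ^ 2 + 6 * rr * t ^ 3 := by
  have hu0 : 0 ≤ u := by linarith
  have hM0 : 0 ≤ M := by linarith
  have nt : ‖(t : ℂ)‖ ≤ t := by rw [Complex.norm_real, Real.norm_of_nonneg ht]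
  have nj : ‖(j : ℂ)‖ ≤ 3 * t ^ 2 := by rw [Complex.norm_real, Real.norm_of_nonneg hj0]; exact hj
  have n2 : ‖(2 : ℂ)‖ ≤ 2 := by simp
  have n4 : ‖(4 : ℂ)‖ ≤ 4 := by simp
  have m := fun {a b : ℂ} {A B : ℝ} (h : ‖a‖ ≤ A) (k : ‖b‖ ≤ B) => norm_mul_le_of_le h k
  have s := fun {a b : ℂ} {A B : ℝ} (h : ‖a‖ ≤ A) (k : ‖b‖ ≤ B) => norm_add_le_of_le h k
  have d := fun {a b : ℂ} {A B : ℝ} (h : ‖a‖ ≤ A) (k : ‖b‖ ≤ B) => norm_sub_le_of_le h k
  refine (d (d (s (d (d (d (s (m n2 (m (m (m hα hy) nj) le_rfl))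
    (m (s (m n2 (m (m nt nt) nj)) (m n4 (m nj nj))) hy))
    (m n2 (m (m (m (m hα hα) nt) nj) hiv)))
    (m (m (m (m hα hα) (s (m n2 hα) hxy)) nt) hiv))
    (m n2 (m (m nt nj) (m (m (m hp hp) hq) hiq))))
    (m (m nt nj) (m (m (m (m (m hp hp) hp) hp) hiv) hiq)))
    (m (m nt nj) (m (m hy (s hp hax)) hiv))) (m n2 (m (m nt nj) hr))).trans ?_
  have h7 : 0 ≤ t ^ 7 := by positivity
  have a1 : u ≤ 3 * u ^ 2 := by nlinarith
  have a2 : 2 * (u * ‖Λ‖) ≤ u ^ 2 + ‖Λ‖ ^ 2 := by nlinarith [sq_nonneg (u - ‖Λ‖)]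
  have a3 : 560 * u ^ 2 ≤ M * u ^ 2 := by gcongr
  have b1 := mul_le_mul_of_nonneg_left a1 h7
  have b2 := mul_le_mul_of_nonneg_left a2 (mul_nonneg hM0 h7)
  have b3 := mul_le_mul_of_nonneg_left a3 h7
  have b4 := mul_le_mul_of_nonneg_left a1 (mul_nonneg hM0 h7)
  have b5 : 0 ≤ t ^ 7 * u ^ 2 := by positivity
  nlinarith

variable {ε X X' x : ℝ} {a : ℂ}

theorem hasDerivAt_re (a : ℂ) (x : ℝ) : HasDerivAt (fun y : ℝ => (et a y).re) (a.re * x) x := by
  have := Complex.reCLM.hasFDerivAt.comp_hasDerivAt x (hasDerivAt_et a x)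
  exact (show HasDerivAt (fun y : ℝ => (et a y).re) _ x from this).congr_deriv (by simp)

/-- integration of `A₁ x⁻⁷ (Re η)⁻² + A₂ x⁻⁶` -/
theorem int_le (hX : X ≤ X') (hP : ∀ x ∈ Icc X X', Pt ε a x) {f f1 : ℝ → ℂ} (hf : Dv X X' f f1)
    {A1 A2 : ℝ} (h1 : 0 ≤ A1) (h2 : 0 ≤ A2)
    (h : ∀ x ∈ Icc X X', ‖f1 x‖ ≤ A1 * (x⁻¹ ^ 7 * ((et a x).re)⁻¹ ^ 2) + A2 * x⁻¹ ^ 6) :
    ‖f X - f X'‖ ≤ 9 * A1 * (X⁻¹ ^ 6 * ((et a X').re)⁻¹) + A2 * X⁻¹ ^ 5 := by
  have hP' := hP X' (right_mem_Icc.2 hX)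
  have h0 := hP'.repos
  have hΩ : Dv X X' (fun x => A1 * (x⁻¹ ^ 6 * (9 * ((et a X').re)⁻¹ - ((et a x).re)⁻¹)) + A2 * x⁻¹ ^ 5)
      fun x => -(A1 * (x⁻¹ ^ 7 * ((et a x).re)⁻¹ ^ 2 * (54 * ((et a X').re)⁻¹ * (et a x).re ^ 2 -
        6 * (et a x).re - a.re * x ^ 2)) + 5 * (A2 * x⁻¹ ^ 6)) := by
    refine Dv.of_hasDerivAt fun x hx => ?_
    have h1 := (hP x hx).repos.ne'
    have h2 := (hP x hx).xpos.ne'
    refine (((((hasDerivAt_inv h2).fun_pow 6).fun_mul (((hasDerivAt_re a x).fun_inv h1).const_sub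
      (9 * ((et a X').re)⁻¹))).const_mul A1).fun_add
      (((hasDerivAt_inv h2).fun_pow 5).const_mul A2)).congr_deriv ?_
    simp; field_simp; ring
  have := Dv.back (β := fun _ => 0) (G := f1) (y := fun x => f x - f X') (M := 1)
    (γ := fun x => A1 * (x⁻¹ ^ 7 * ((et a x).re)⁻¹ ^ 2) + A2 * x⁻¹ ^ 6) continuousOn_const
    (fun x hx => by simpa using (hf x hx).sub_const (f X')) hΩ zero_le_one
    (fun x hx => ?_) (fun x hx => by rw [one_mul]; exact h x hx) ?_ X (left_mem_Icc.2 hX)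
  · rw [one_mul] at this
    refine this.trans ?_
    have g1 := (hP X (left_mem_Icc.2 hX)).repos
    have g2 := (hP X (left_mem_Icc.2 hX)).xpos
    have : 0 ≤ A1 * (X⁻¹ ^ 6 * ((et a X).re)⁻¹) := by positivity
    linarith
  · have g := hP x hx
    have g1 := g.repos
    have g2 := g.xpos
    have g3 : 1 ≤ 3 * ((et a X').re)⁻¹ := by
      rw [← div_eq_mul_inv, le_div_iff₀ h0]; linarith [hP'.re_le_three]
    have g4 : a.re * x ^ 2 = 2 * ((et a x).re - 1 + a.re) := by rw [et_re]; ring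
    have g5 := (le_abs_self _).trans ((Complex.abs_re_le_norm a).trans g.a_le_three)
    have g6 := g.small
    have g7 : 1 ≤ 54 * ((et a X').re)⁻¹ * (et a x).re ^ 2 - 6 * (et a x).re - a.re * x ^ 2 := by
      have := mul_le_mul_of_nonneg_right g3 (sq_nonneg (et a x).re)
      norm_num at g6
      nlinarith [sq_nonneg ((et a x).re - 2 / 9)]
    have g8 : 0 ≤ A1 * (x⁻¹ ^ 7 * ((et a x).re)⁻¹ ^ 2) := by positivity
    have g9 : 0 ≤ A2 * x⁻¹ ^ 6 := by positivity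
    have := mul_le_mul_of_nonneg_left g7 g8
    simp only [Complex.zero_re, zero_mul]
    linarith
  · have := hP'.xpos
    have e : 9 * ((et a X').re)⁻¹ - ((et a X').re)⁻¹ = 8 * ((et a X').re)⁻¹ := by ring
    simp only [sub_self, norm_zero, e]
    positivity

/-- the hypotheses on the mode `0` -/
structure Md0 (ε X X' rr : ℝ) (a : ℂ) (V p q : ℝ → ℂ) : Prop where
  le : X ≤ X'
  pt : ∀ x ∈ Icc X X', Pt ε a x
  dV : Dv X X' V p
  dp : Dv X X' p q
  v : ∀ x ∈ Icc X X', ‖V x - et a x‖ ≤ (et a x).re / 10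
  p1 : ∀ x ∈ Icc X X', ‖p x‖ ≤ 10 / x
  q1 : ∀ x ∈ Icc X X', ‖q x‖ ≤ 1
  eq : ∀ x ∈ Icc X X', ‖q x - x / 2 * p x + V x - 1 - p x ^ 2 * (1 + q x) / (2 * V x + p x ^ 2)‖ ≤
    rr * x⁻¹ ^ 3
  rr0 : 0 ≤ rr
  far : V X' = et a X'

/-- `α = (V - 1) / J` -/
def al (V : ℝ → ℂ) (x : ℝ) : ℂ := (V x - 1) / (((x : ℂ) ^ 2 - 2) / 2)

/-- `y = J α'` -/
def yy (V p : ℝ → ℂ) (x : ℝ) : ℂ := p x - x * al V x

/-- the right hand side of the equation -/
def GG (V p q : ℝ → ℂ) (x : ℝ) : ℂ := q x - x / 2 * p x + V x - 1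

/-- `log x² - Log V` -/
def LL (V : ℝ → ℂ) (x : ℝ) : ℂ := (Real.log (x ^ 2) : ℝ) - Complex.log (V x)

/-- the almost conserved quantity -/
def Psi (V p : ℝ → ℂ) (x : ℝ) : ℂ :=
  al V x + al V x ^ 2 * LL V x - ((2 * (x⁻¹ * (2 / (x ^ 2 - 2))) : ℝ) : ℂ) * yy V p x

theorem J_ne (h : Pt ε a x) : (x : ℂ) ^ 2 - 2 ≠ 0 := by
  exact_mod_cast h.sq_sub_pos.ne'

theorem j_le (h : Pt ε a x) : 0 ≤ 2 / (x ^ 2 - 2) ∧ 2 / (x ^ 2 - 2) ≤ 3 * x⁻¹ ^ 2 := by
  have h1 := h.sq_sub_pos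
  have h2 := h.x_ge
  refine ⟨by positivity, ?_⟩
  rw [inv_pow, ← div_eq_mul_inv, div_le_div_iff₀ h1 (by positivity)]
  nlinarith

theorem u_ge (h : Pt ε a x) : 1 ≤ 3 * ((et a x).re)⁻¹ := by
  rw [← div_eq_mul_inv, le_div_iff₀ h.repos]; linarith [h.re_le_three]

theorem tu_le (h : Pt ε a x) : x⁻¹ ^ 2 ≤ (et a x).re / 10 ^ 5 := by
  have h1 := h.x_le
  have h2 := h.small
  have h3 := h.xpos
  have h4 := h.repos
  rw [inv_pow, inv_le_iff_one_le_mul₀ (by positivity)]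
  calc _ ≤ _ := h1
    _ ≤ 1 / 10 ^ 5 * x ^ 2 * (et a x).re := by gcongr
    _ = _ := by ring

theorem hx_c (x : ℝ) : HasDerivAt (fun y : ℝ => (y : ℂ)) 1 x := Complex.ofRealCLM.hasDerivAt

namespace Md0
variable {rr M : ℝ} {V p q : ℝ → ℂ}

theorem re_V (h : Md0 ε X X' rr a V p q) (hx : x ∈ Icc X X') : 9 / 10 * (et a x).re ≤ (V x).re := by
  have h1 := (abs_le.1 ((Complex.abs_re_le_norm _).trans (h.v x hx))).1
  rw [Complex.sub_re] at h1
  linarith

theorem V_ge (h : Md0 ε X X' rr a V p q) (hx : x ∈ Icc X X') : (et a x).re / 2 ≤ ‖V x‖ := by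
  linarith [h.re_V hx, Complex.re_le_norm (V x), (h.pt x hx).repos]

theorem V_le (h : Md0 ε X X' rr a V p q) (hx : x ∈ Icc X X') : ‖V x‖ ≤ 33 / 10 := by
  have := norm_le_norm_add_norm_sub' (V x) (et a x)
  linarith [h.v x hx, (h.pt x hx).norm_le, (h.pt x hx).re_le_three]

theorem V_ne (h : Md0 ε X X' rr a V p q) (hx : x ∈ Icc X X') : V x ≠ 0 :=
  norm_pos_iff.1 (by linarith [h.V_ge hx, (h.pt x hx).repos])

theorem p_le (h : Md0 ε X X' rr a V p q) (hx : x ∈ Icc X X') : ‖p x‖ ≤ 10 * x⁻¹ :=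
  (h.p1 x hx).trans_eq (div_eq_mul_inv _ _)

theorem Q_ge (h : Md0 ε X X' rr a V p q) (hx : x ∈ Icc X X') :
    3 / 2 * (et a x).re ≤ ‖2 * V x + p x ^ 2‖ := by
  have h1 : ‖p x ^ 2‖ ≤ (10 * x⁻¹) ^ 2 := by
    rw [norm_pow]; exact pow_le_pow_left₀ (norm_nonneg _) (h.p_le hx) 2
  have h2 := tu_le (h.pt x hx)
  have h3 := norm_sub_le (2 * V x + p x ^ 2) (p x ^ 2)
  rw [add_sub_cancel_right, norm_mul, Complex.norm_two] at h3
  have h4 := (h.pt x hx).repos
  linarith [h.re_V hx, Complex.re_le_norm (V x), mul_pow 10 x⁻¹ 2]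

theorem Q_ne (h : Md0 ε X X' rr a V p q) (hx : x ∈ Icc X X') : 2 * V x + p x ^ 2 ≠ 0 :=
  norm_pos_iff.1 (by linarith [h.Q_ge hx, (h.pt x hx).repos])

theorem iq_le (h : Md0 ε X X' rr a V p q) (hx : x ∈ Icc X X') :
    ‖(2 * V x + p x ^ 2)⁻¹‖ ≤ 2 / 3 * ((et a x).re)⁻¹ := by
  have h4 := (h.pt x hx).repos
  rw [norm_inv]
  refine (inv_anti₀ (by positivity) (h.Q_ge hx)).trans_eq (by field_simp)

theorem iv_le (h : Md0 ε X X' rr a V p q) (hx : x ∈ Icc X X') :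
    ‖(V x)⁻¹‖ ≤ 2 * ((et a x).re)⁻¹ := by
  have h4 := (h.pt x hx).repos
  rw [norm_inv]
  refine (inv_anti₀ (by positivity) (h.V_ge hx)).trans_eq (by field_simp)

theorem al_eq (V : ℝ → ℂ) (x : ℝ) : al V x = (V x - 1) * ((2 / (x ^ 2 - 2) : ℝ) : ℂ) := by
  unfold al; push_cast; rw [div_div_eq_mul_div, mul_div_assoc]

theorem al_le (h : Md0 ε X X' rr a V p q) (hx : x ∈ Icc X X') : ‖al V x‖ ≤ 13 * x⁻¹ ^ 2 := by
  obtain ⟨h1, h2⟩ := j_le (h.pt x hx)
  have h3 : ‖V x - 1‖ ≤ 43 / 10 := (norm_sub_le _ _).trans (by rw [norm_one]; linarith [h.V_le hx])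
  rw [al_eq, norm_mul, Complex.norm_real, Real.norm_of_nonneg h1]
  nlinarith [mul_le_mul h3 h2 h1 (by norm_num), sq_nonneg x⁻¹]

theorem G_le (h : Md0 ε X X' rr a V p q) (hx : x ∈ Icc X X') :
    ‖GG V p q x‖ ≤ (140 + rr) * (x⁻¹ ^ 2 * ((et a x).re)⁻¹) := by
  have hP := h.pt x hx
  have h0 := hP.xpos
  have h1 : ‖p x ^ 2 * (1 + q x) / (2 * V x + p x ^ 2)‖ ≤
      (10 * x⁻¹) ^ 2 * (1 + 1) * (2 / 3 * ((et a x).re)⁻¹) := by
    rw [div_eq_mul_inv]
    refine norm_mul_le_of_le (norm_mul_le_of_le ?_ (norm_add_le_of_le norm_one.le (h.q1 x hx)))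
      (h.iq_le hx)
    rw [norm_pow]; exact pow_le_pow_left₀ (norm_nonneg _) (h.p_le hx) 2
  have h2 : rr * x⁻¹ ^ 3 ≤ rr * (x⁻¹ ^ 2 * ((et a x).re)⁻¹) := by
    refine mul_le_mul_of_nonneg_left ?_ h.rr0
    rw [pow_succ]
    refine mul_le_mul_of_nonneg_left (inv_anti₀ hP.repos ?_) (sq_nonneg _)
    linarith [hP.re_le_three, hP.x_ge]
  have h3 := norm_le_norm_add_norm_sub' (GG V p q x) (p x ^ 2 * (1 + q x) / (2 * V x + p x ^ 2))
  have h4 : ‖GG V p q x - p x ^ 2 * (1 + q x) / (2 * V x + p x ^ 2)‖ ≤ _ := h.eq x hx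
  have h6 : 0 ≤ x⁻¹ ^ 2 * ((et a x).re)⁻¹ := by have := hP.repos; positivity
  nlinarith

theorem d_al (h : Md0 ε X X' rr a V p q) :
    Dv X X' (al V) fun x => yy V p x * ((2 / (x ^ 2 - 2) : ℝ) : ℂ) := fun x hx => by
  have hJ := J_ne (h.pt x hx)
  have := ((h.dV x hx).sub_const 1).fun_div
    (((((hx_c x).fun_pow 2).sub_const 2).div_const 2).hasDerivWithinAt) (div_ne_zero hJ two_ne_zero)
  refine HasDerivWithinAt.congr_deriv this ?_
  unfold yy al; push_cast; field_simp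

theorem d_yy (h : Md0 ε X X' rr a V p q) :
    Dv X X' (yy V p) fun x => ((x / 2 - l0 x : ℝ) : ℂ) * yy V p x + GG V p q x := fun x hx => by
  have hJ := J_ne (h.pt x hx)
  have := (h.dp x hx).fun_sub ((hx_c x).hasDerivWithinAt.fun_mul (h.d_al x hx))
  refine HasDerivWithinAt.congr_deriv this ?_
  unfold yy al GG l0; push_cast; field_simp; ring

theorem al_far (h : Md0 ε X X' rr a V p q) : al V X' = a := by
  have hJ := J_ne (h.pt X' (right_mem_Icc.2 h.le))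
  unfold al; rw [h.far]; unfold et; field_simp; ring

/-- the bootstrap bound -/
theorem yy_le (h : Md0 ε X X' rr a V p q) (hM : 560 + 4 * rr ≤ M)
    (hf : ‖p X' - a * X'‖ ≤ M / (X' ^ 3 * (et a X').re)) :
    ∀ x ∈ Icc X X', ‖yy V p x‖ ≤ M * (x ^ 3 * (et a x).re)⁻¹ := by
  have hΩ : Dv X X' (fun x => (x ^ 3 * (et a x).re)⁻¹)
      fun x => -(3 / x + a.re * x / (et a x).re) * (x ^ 3 * (et a x).re)⁻¹ := by
    refine Dv.of_hasDerivAt fun x hx => ?_
    have h1 := (h.pt x hx).repos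
    have h2 := (h.pt x hx).xpos
    refine ((((hasDerivAt_id' x).fun_pow 3).fun_mul (hasDerivAt_re a x)).fun_inv
      (by positivity)).congr_deriv ?_
    simp; field_simp
  refine Dv.back (γ := fun x => x / 4 * (x ^ 3 * (et a x).re)⁻¹) ?_ h.d_yy hΩ (by linarith [h.rr0])
    (fun x hx => ?_) (fun x hx => (h.G_le hx).trans ?_) ?_
  · refine Complex.continuous_ofReal.comp_continuousOn ((by fun_prop : ContinuousOn
      (fun x : ℝ => x / 2) _).sub fun x hx => ?_)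
    exact (h.pt x hx).hasDerivAt_l0.continuousAt.continuousWithinAt
  · have hP := h.pt x hx
    have h1 := hP.repos
    have h2 := hP.xpos
    rw [Complex.ofReal_re, ← add_mul]
    refine mul_le_mul_of_nonneg_right ?_ (by positivity)
    have h3 : -(ε * x) ≤ a.re * x / (et a x).re := by
      rw [le_div_iff₀ h1]
      have := (abs_le.1 ((Complex.abs_re_le_norm a).trans hP.a_le)).1
      nlinarith
    have h4 := hP.l0_le
    have h5 := mul_le_mul_of_nonneg_right hP.small h2.le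
    linarith
  · have h1 := (h.pt x hx).repos
    have h2 := (h.pt x hx).xpos
    have : x / 4 * (x ^ 3 * (et a x).re)⁻¹ = x⁻¹ ^ 2 * ((et a x).re)⁻¹ / 4 := by field_simp
    rw [this]
    have : 0 ≤ x⁻¹ ^ 2 * ((et a x).re)⁻¹ := by positivity
    nlinarith
  · unfold yy; rw [h.al_far, mul_comm (X' : ℂ)]; exact hf

theorem q_le (h : Md0 ε X X' rr a V p q) (hM : 560 + 4 * rr ≤ M) (hx : x ∈ Icc X X')
    (hy : ‖yy V p x‖ ≤ M * (x ^ 3 * (et a x).re)⁻¹) :
    ‖x * yy V p x‖ ≤ M * x⁻¹ ^ 2 * ((et a x).re)⁻¹ ∧ ‖q x‖ ≤ M * x⁻¹ ^ 2 * ((et a x).re)⁻¹ := by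
  have hP := h.pt x hx
  have h1 := hP.repos
  have h2 := hP.xpos
  have hJ := J_ne hP
  have h3 : ‖x * yy V p x‖ ≤ M * x⁻¹ ^ 2 * ((et a x).re)⁻¹ := by
    rw [norm_mul, Complex.norm_real, Real.norm_of_nonneg h2.le]
    refine (mul_le_mul_of_nonneg_left hy h2.le).trans_eq (by field_simp)
  refine ⟨h3, ?_⟩
  have e : q x = GG V p q x + al V x + x * yy V p x / 2 := by
    unfold GG yy al; field_simp; ring
  have h4 : ‖q x‖ ≤ ‖GG V p q x‖ + ‖al V x‖ + ‖x * yy V p x‖ / 2 := by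
    rw [e]; refine norm_add₃_le.trans_eq ?_; rw [norm_div, Complex.norm_two]
  have h5 := mul_le_mul_of_nonneg_left (u_ge hP) (sq_nonneg x⁻¹)
  have h6 : 0 ≤ x⁻¹ ^ 2 * ((et a x).re)⁻¹ := by positivity
  nlinarith [h.G_le hx, h.al_le hx, h.rr0]

theorem LL_le (h : Md0 ε X X' rr a V p q) (hx : x ∈ Icc X X') : ‖LL V x‖ ^ 2 ≤ 144 * x := by
  have hP := h.pt x hx
  have h1 := hP.repos
  have h2 := hP.x_ge
  have h3 : 0 < ‖V x‖ := norm_pos_iff.2 (h.V_ne hx)
  have h4 : 0 ≤ Real.log (x ^ 2) := Real.log_nonneg (by nlinarith)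
  have h5 : |Real.log ‖V x‖| ≤ Real.log (x ^ 2) := by
    rw [abs_le]
    constructor
    · rw [← Real.log_inv, ← inv_pow]
      exact Real.log_le_log (by positivity) (by linarith [tu_le hP, h.V_ge hx])
    · exact Real.log_le_log h3 (by nlinarith [h.V_le hx])
  have h6 : ‖Complex.log (V x)‖ ≤ Real.log (x ^ 2) + 4 := by
    refine (Complex.norm_le_abs_re_add_abs_im _).trans ?_
    rw [Complex.log_re, Complex.log_im]
    linarith [Complex.abs_arg_le_pi (V x), Real.pi_lt_four]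
  have h7 : 10 ≤ √x := Real.le_sqrt_of_sq_le (by linarith)
  have h8 : Real.log (x ^ 2) ≤ 4 * √x := by
    have := Real.log_le_sub_one_of_pos (show 0 < √x by linarith)
    rw [Real.log_sqrt (by linarith)] at this
    rw [Real.log_pow]; push_cast; linarith
  have h9 : ‖LL V x‖ ≤ 12 * √x := by
    refine (norm_sub_le _ _).trans ?_
    rw [Complex.norm_real, Real.norm_of_nonneg h4]; linarith
  calc _ ≤ (12 * √x) ^ 2 := pow_le_pow_left₀ (norm_nonneg _) h9 2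
    _ = _ := by rw [mul_pow, Real.sq_sqrt (by linarith)]; ring

theorem d_LL (h : Md0 ε X X' rr a V p q) : Dv X X' (LL V) fun x => 2 / x - p x / V x := by
  intro x hx
  have hP := h.pt x hx
  have h2 := hP.xpos
  have h1 : HasDerivAt (fun x : ℝ => ((Real.log (x ^ 2) : ℝ) : ℂ)) (2 / x) x := by
    refine ((((hasDerivAt_id' x).fun_pow 2).log (by positivity)).ofReal_comp).congr_deriv ?_
    have : (x : ℂ) ≠ 0 := by exact_mod_cast h2.ne'
    push_cast; field_simp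
  exact h1.hasDerivWithinAt.fun_sub ((h.dV x hx).clog_real
    (Or.inl (by linarith [h.re_V hx, hP.repos])))

theorem d_Psi (h : Md0 ε X X' rr a V p q) (hM : 560 + 4 * rr ≤ M)
    (hf : ‖p X' - a * X'‖ ≤ M / (X' ^ 3 * (et a X').re)) :
    ∃ f1, Dv X X' (Psi V p) f1 ∧ ∀ x ∈ Icc X X', ‖f1 x‖ ≤
      2000 * M * (x⁻¹ ^ 7 * ((et a x).re)⁻¹ ^ 2) + (5616 * M + 6 * rr) * x⁻¹ ^ 6 := by
  have hk : Dv X X' (fun x => 2 * (x⁻¹ * (2 / (x ^ 2 - 2))))
      fun x => -(2 * (x⁻¹ ^ 2 * (2 / (x ^ 2 - 2))) + 2 * (2 / (x ^ 2 - 2)) ^ 2) := by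
    refine Dv.of_hasDerivAt fun x hx => ?_
    have h1 := (h.pt x hx).sq_sub_pos.ne'
    have h2 := (h.pt x hx).xpos.ne'
    refine (((hasDerivAt_inv h2).fun_mul ((hasDerivAt_const x 2).fun_div
      (((hasDerivAt_id' x).fun_pow 2).sub_const 2) h1)).const_mul 2).congr_deriv ?_
    simp; field_simp; ring
  refine ⟨_, fun x hx => ((h.d_al x hx).fun_add (((h.d_al x hx).fun_pow 2).fun_mul
    (h.d_LL x hx))).fun_sub ((hk.ofReal x hx).fun_mul (h.d_yy x hx)), fun x hx => ?_⟩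
  have hP := h.pt x hx
  have h1 := hP.repos
  have h2 := hP.xpos
  have hJ := J_ne hP
  have hV := h.V_ne hx
  have hQ := h.Q_ne hx
  have hx0 : (x : ℂ) ≠ 0 := by exact_mod_cast h2.ne'
  have hy := h.yy_le hM hf x hx
  obtain ⟨h3, h4⟩ := h.q_le hM hx hy
  have h5 : ‖al V x * x‖ ≤ 13 * x⁻¹ := by
    rw [norm_mul, Complex.norm_real, Real.norm_of_nonneg h2.le]
    exact (mul_le_mul_of_nonneg_right (h.al_le hx) h2.le).trans_eq (by field_simp)
  have h6 := psi_pt (Λ := LL V x) (by positivity) (u_ge hP) (j_le hP).1 (j_le hP).2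
    (by linarith [h.rr0]) (h.al_le hx)
    (hy.trans_eq (by field_simp)) h3 h5 (h.p_le hx) h4 (h.eq x hx) (h.iv_le hx)
    ((h.iq_le hx).trans (by have : 0 < ((et a x).re)⁻¹ := by positivity
                            linarith))
  have hM0 : 0 ≤ M := by linarith [h.rr0]
  have h7 : 39 * M * x⁻¹ ^ 7 * ‖LL V x‖ ^ 2 ≤ 5616 * M * x⁻¹ ^ 6 :=
    (mul_le_mul_of_nonneg_left (h.LL_le hx) (by positivity)).trans_eq (by field_simp; ring)
  refine le_trans (le_of_eq ?_) (h6.trans (by linarith))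
  congr 1
  have hQ' : V x * 2 + p x ^ 2 ≠ 0 := by rwa [mul_comm]
  unfold yy al GG l0
  push_cast
  field_simp
  ring

end Md0

end Lg

open Lg in
/-- **the logarithmic drift**: `τ = Lg.al V X = (V X - 1) / ((X² - 2) / 2)` -/
theorem log_drift {ε X X' rr M : ℝ} {a : ℂ} {V p q : ℝ → ℂ} (h : Md0 ε X X' rr a V p q)
    (hM : 560 + 4 * rr ≤ M) (hX : 1 / 2 ≤ (et a X).re)
    (hf : ‖p X' - a * X'‖ ≤ M / (X' ^ 3 * (et a X').re)) :
    ‖Gi.hat X (al V X) - Gi.hat X' a‖ ≤ 20000 * M * (1 / (X ^ 6 * (et a X').re) + 1 / X ^ 5) ∧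
    ‖yy V p X‖ ≤ 2 * M / X ^ 3 := by
  have hl := left_mem_Icc.2 h.le
  have hr := right_mem_Icc.2 h.le
  have hP := h.pt X hl
  have hP' := h.pt X' hr
  have h1 := hP.xpos
  have h2 := hP'.repos
  have hrr := h.rr0
  have hM0 : 0 < M := by linarith
  have e1 : et (al V X) X = V X := by
    have := J_ne hP
    unfold et al; field_simp; ring
  have k0 : ((et a X).re)⁻¹ ≤ 2 := (inv_anti₀ (by norm_num) hX).trans (by norm_num)
  refine ⟨?_, (h.yy_le hM hf X hl).trans ?_⟩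
  · obtain ⟨f1, hd1, hb⟩ := h.d_Psi hM hf
    have k1 := int_le h.le h.pt hd1 (by positivity) (by positivity) hb
    have k2 : ∀ x ∈ Icc X X', ‖((2 * (x⁻¹ * (2 / (x ^ 2 - 2))) : ℝ) : ℂ) * yy V p x‖ ≤
        6 * M * X⁻¹ ^ 6 * ((et a x).re)⁻¹ := fun x hx => by
      have g1 := (h.pt x hx).xpos
      have g2 := (h.pt x hx).repos
      have g3 : x⁻¹ ≤ X⁻¹ := inv_anti₀ h1 hx.1
      obtain ⟨g4, g5⟩ := j_le (h.pt x hx)
      have g6 := h.yy_le hM hf x hx
      rw [norm_mul, Complex.norm_real, Real.norm_of_nonneg (by positivity)]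
      calc _ ≤ 2 * (x⁻¹ * (3 * x⁻¹ ^ 2)) * (M * (x ^ 3 * (et a x).re)⁻¹) := by gcongr
        _ = 6 * M * x⁻¹ ^ 6 * ((et a x).re)⁻¹ := by field_simp; ring
        _ ≤ _ := by gcongr
    have e2 : Gi.hat X (al V X) - Gi.hat X' a = Psi V p X - Psi V p X' +
        ((2 * (X⁻¹ * (2 / (X ^ 2 - 2))) : ℝ) : ℂ) * yy V p X -
        ((2 * (X'⁻¹ * (2 / (X' ^ 2 - 2))) : ℝ) : ℂ) * yy V p X' := by
      unfold Gi.hat Gi.Lam Psi LL
      rw [e1, h.al_far, h.far]; ring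
    rw [e2]
    refine (norm_sub_le_of_le (norm_add_le_of_le k1 (k2 X hl)) (k2 X' hr)).trans ?_
    have k3 : ((et a X).re)⁻¹ ≤ 6 * ((et a X').re)⁻¹ := by linarith [u_ge hP']
    have k4 := mul_le_mul_of_nonneg_left k3 (show 0 ≤ 6 * M * X⁻¹ ^ 6 by positivity)
    have e3 : 1 / (X ^ 6 * (et a X').re) = X⁻¹ ^ 6 * ((et a X').re)⁻¹ := by field_simp
    have e4 : 1 / X ^ 5 = X⁻¹ ^ 5 := by field_simp
    have k5 : 0 ≤ M * (X⁻¹ ^ 6 * ((et a X').re)⁻¹) := by positivity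
    have k6 : 0 ≤ X⁻¹ ^ 5 := by positivity
    rw [e3, e4]
    nlinarith
  · rw [mul_inv]
    calc _ ≤ M * ((X ^ 3)⁻¹ * 2) := by gcongr
      _ = _ := by ring

open Lg in
theorem logS_holds : LogS := by
  intro Ch Cn hCh hCn
  refine ⟨20000 * (560 + 4 * Cn + Ch), by positivity,
    fun ε X X' a w p q hX hP ha hw hp hw0 hp0 hb => ?_⟩
  have hl := left_mem_Icc.2 hX
  have hr := right_mem_Icc.2 hX
  have h : Md0 ε X X' Cn a (fun x => et a x + w x) (fun x => a * x + p x) fun x => a + q x := by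
    refine ⟨hX, hP, (Dv.of_hasDerivAt fun x _ => hasDerivAt_et a x).add hw,
      (Dv.of_hasDerivAt fun x _ => by simpa using (hx_c x).const_mul a).add hp, fun x hx => ?_,
      fun x hx => ?_, fun x hx => ?_, fun x hx => ?_, hCn, by simp [hw0]⟩
    · rw [add_sub_cancel_left]; linarith [(hb x hx).1, (hP x hx).repos]
    · have g1 := (hP x hx).xpos
      have g2 := mul_le_mul_of_nonneg_right (norm_add_le (a * x) (p x)) g1.le
      rw [norm_mul, Complex.norm_real, Real.norm_of_nonneg g1.le] at g2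
      rw [le_div_iff₀ g1]
      nlinarith [(hb x hx).2.1, (hP x hx).a_sq_le]
    · have g1 := (hP x hx).small
      norm_num at g1
      linarith [norm_add_le a (q x), (hb x hx).2.2.1, (hP x hx).a_le_three]
    · refine le_trans (le_of_eq ?_) ((hb x hx).2.2.2.trans_eq (by rw [inv_pow, div_eq_mul_inv]))
      congr 1
      unfold g0
      rw [← add_assoc 1 a]
      unfold et; ring
  have h1 := (hP X hl).xpos
  have h2 : 1 / 2 ≤ (et a X).re := by
    have g1 := (abs_le.1 (Complex.abs_re_le_norm a)).1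
    have g2 := (hP X hl).sq_sub_pos
    rw [et_re]
    nlinarith [norm_nonneg a]
  have h3 := (hP X' hr).repos
  have h4 := (hP X' hr).xpos
  obtain ⟨k1, k2⟩ := log_drift h (M := 560 + 4 * Cn + Ch) (by linarith) h2 (by
    rw [add_sub_cancel_left]
    refine hp0.trans ?_
    gcongr
    · linarith
    · exact (hP X' hr).re_le)
  have hJ := J_ne (hP X hl)
  have e1 : al (fun x => et a x + w x) X = a + w X / ((X ^ 2 - 2) / 2) := by
    unfold al et; field_simp; ring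
  rw [e1] at k1
  refine ⟨k1, le_trans (le_of_eq ?_) (k2.trans ?_)⟩
  · unfold yy; rw [e1]; congr 1; ring
  · gcongr; norm_num

end Crest.Agent.N250.B1

end
end

-- ▼ part N250/B1/Drift1
section

/-! # Row 250, block B1, S10 (helper53): the drift statement from the weak Lipschitz bound -/

set_option autoImplicit false

namespace Crest.Agent.N250.B1

theorem driftS_of_wk (hW : WkS) : DriftS := driftS_of apS_holds logS_holds (m1S_of apS_holds) hW

end Crest.Agent.N250.B1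
end

-- ▼ part N250/B1/Wk0
section

/-!
# Row 250, B1 (helper15): Lipschitz bound of the nonlinearity in a weaker norm `‖k * ·‖`
-/

set_option autoImplicit false
set_option linter.unusedSectionVars false

noncomputable section

namespace Crest.Agent.N250.Nl

variable {R : Type*} [NormedCommRing R] [NormOneClass R] [NormedAlgebra ℂ R] [CompleteSpace R]

/-- two elements of size `A` whose difference has weighted size `δ` -/
structure Lp (k a a' : R) (A δ : ℝ) : Prop where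
  l : ‖a‖ ≤ A
  r : ‖a'‖ ≤ A
  d : ‖k * (a - a')‖ ≤ δ

namespace Lp

variable {k a a' b b' : R} {A B δ ε : ℝ}

lemma mono (h : Lp k a a' A δ) (h1 : A ≤ B) (h2 : δ ≤ ε) : Lp k a a' B ε :=
  ⟨h.l.trans h1, h.r.trans h1, h.d.trans h2⟩

lemma const (k : R) (h : ‖a‖ ≤ A) : Lp k a a A 0 := ⟨h, h, by simp⟩

lemma add (h : Lp k a a' A δ) (g : Lp k b b' B ε) : Lp k (a + b) (a' + b') (A + B) (δ + ε) :=
  ⟨add_le h.l g.l, add_le h.r g.r, by
    rw [show k * (a + b - (a' + b')) = k * (a - a') + k * (b - b') by ring]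
    exact add_le h.d g.d⟩

lemma sub (h : Lp k a a' A δ) (g : Lp k b b' B ε) : Lp k (a - b) (a' - b') (A + B) (δ + ε) :=
  ⟨sub_le h.l g.l, sub_le h.r g.r, by
    rw [show k * (a - b - (a' - b')) = k * (a - a') - k * (b - b') by ring]
    exact sub_le h.d g.d⟩

lemma mul (h : Lp k a a' A δ) (g : Lp k b b' B ε) :
    Lp k (a * b) (a' * b') (A * B) (A * ε + B * δ) :=
  ⟨mul_le h.l g.l, mul_le h.r g.r, by
    rw [show k * (a * b - a' * b') = a * (k * (b - b')) + b' * (k * (a - a')) by ring]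
    exact add_le (mul_le h.l g.d) (mul_le g.r h.d)⟩

lemma sq (h : Lp k a a' A δ) : Lp k (a ^ 2) (a' ^ 2) (A ^ 2) (2 * A * δ) := by
  simpa only [pow_two] using (h.mul h).mono le_rfl (le_of_eq (by ring))

lemma inv (h : Lp k a a' (1 / 2) δ) :
    Lp k (Ring.inverse (1 + a)) (Ring.inverse (1 + a')) 2 (4 * δ) := by
  refine ⟨inv_le h.l, inv_le h.r, ?_⟩
  have e1 := Ring.inverse_mul_cancel _ (unit_of h.l)
  have e2 := Ring.inverse_mul_cancel _ (unit_of h.r)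
  have e : k * (Ring.inverse (1 + a) - Ring.inverse (1 + a')) =
      -(Ring.inverse (1 + a) * Ring.inverse (1 + a') * (k * (a - a'))) := by
    linear_combination (-k * Ring.inverse (1 + a)) * e2 + (k * Ring.inverse (1 + a')) * e1
  rw [e, norm_neg]
  exact (mul_le (mul_le (inv_le h.l) (inv_le h.r)) h.d).trans (le_of_eq (by ring))

lemma shift {ξ : R} (h : Lp (k * ξ ^ 2) a a' A δ) (hξ : ‖ξ‖ ≤ 1) :
    Lp k (ξ ^ 2 * a) (ξ ^ 2 * a') A δ :=
  ⟨(mul_le (pow_le hξ 2) h.l).trans (le_of_eq (by ring)),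
    (mul_le (pow_le hξ 2) h.r).trans (le_of_eq (by ring)), by
    rw [show k * (ξ ^ 2 * a - ξ ^ 2 * a') = k * ξ ^ 2 * (a - a') by ring]; exact h.d⟩

end Lp

/-- **weak Lipschitz bound**, anisotropic: `Z` and `V` are measured against `k ξ²`, `ξ = 1/x` -/
theorem G_lip {k x ξ e y T TT Z S V y' T' TT' Z' S' V' : R} {ε δ : ℝ} (hx : x * ξ = 1)
    (hξ : ‖ξ‖ ≤ 1) (he : ‖e‖ ≤ 2) (hε : ε ≤ 1 / 64) (hy : Lp k y y' ε δ) (hT : Lp k T T' ε δ)
    (hTT : Lp k TT TT' ε δ) (hS : Lp k S S' ε δ) (hZ : Lp (k * ξ ^ 2) Z Z' ε δ)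
    (hV : Lp (k * ξ ^ 2) V V' 1 δ) (hxT : ‖x * T‖ ≤ ε) (hxS : ‖x * S‖ ≤ ε) :
    ‖k * (G y T TT Z S V (e * ξ ^ 2) - G y' T' TT' Z' S' V' (e * ξ ^ 2))‖ ≤ 200 * ε * δ := by
  have h0 : 0 ≤ ε := (norm_nonneg _).trans hy.l
  have hδ : 0 ≤ δ := (norm_nonneg _).trans hy.d
  have hεδ : 0 ≤ ε * δ := mul_nonneg h0 hδ
  have hle : ε * δ ≤ δ / 64 := by nlinarith
  have hee : ε * ε ≤ ε / 64 := by nlinarith
  have he3 : ε * ε * δ ≤ ε * δ / 64 := by nlinarith
  have hh := Lp.const k (hf_le (R := R))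
  have hh2 := Lp.const k (pow_le (hf_le (R := R)) 2)
  have hh3 := Lp.const k (pow_le (hf_le (R := R)) 3)
  have hh4 := Lp.const k (pow_le (hf_le (R := R)) 4)
  have hE := Lp.const k he
  have hu : Lp k (uu y) (uu y') 2 (4 * δ) := (hy.mono (by linarith) le_rfl).inv
  have hu2 : Lp k (uu y ^ 2) (uu y' ^ 2) 4 (16 * δ) := hu.sq.mono (by norm_num) (by linarith)
  have hu3 : Lp k (uu y ^ 3) (uu y' ^ 3) 8 (48 * δ) := by
    simpa only [← pow_succ] using (hu2.mul hu).mono (B := 8) (ε := 48 * δ) (by norm_num)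
      (by linarith)
  have hZ2 : Lp (k * ξ ^ 2) (Z ^ 2) (Z' ^ 2) (ε / 64) (2 * (ε * δ)) :=
    hZ.sq.mono (by nlinarith) (by linarith)
  have hV1 : Lp (k * ξ ^ 2) (1 + V) (1 + V') 2 δ :=
    ((Lp.const _ (norm_one (α := R)).le).add hV).mono (by norm_num) (by linarith)
  have P1 : Lp k (e * (ξ ^ 2 * Z ^ 2)) (e * (ξ ^ 2 * Z' ^ 2)) ε (4 * (ε * δ)) :=
    (hE.mul (hZ2.shift hξ)).mono (by linarith) (by linarith)
  have P2 : Lp k (e * (ξ ^ 2 * (Z ^ 2 * (1 + V)))) (e * (ξ ^ 2 * (Z' ^ 2 * (1 + V')))) ε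
      (9 * (ε * δ)) := (hE.mul ((hZ2.mul hV1).shift hξ)).mono (by linarith) (by linarith)
  have sm : ∀ {a a' b b' : R}, Lp k a a' ε δ → Lp k b b' ε δ →
      Lp k (a * b) (a' * b') (ε / 64) (2 * (ε * δ)) := fun ha hb =>
    (ha.mul hb).mono hee (by linarith)
  have p1 := sm hy hTT
  have p2 := sm hT hT
  have p3 := sm hT hS
  have P3 : Lp k (Z * (T * S)) (Z' * (T' * S')) ε (ε * δ) := by
    refine ⟨(mul_le hZ.l p3.l).trans (by linarith), (mul_le hZ.r p3.r).trans (by linarith), ?_⟩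
    have e1 : k * (Z * (T * S) - Z' * (T' * S')) =
        x * T * (x * S) * (k * ξ ^ 2 * (Z - Z')) + Z' * (k * (T * S - T' * S')) := by
      linear_combination (-(k * T * S * (Z - Z')) * (x * ξ + 1)) * hx
    rw [e1]
    exact (add_le (mul_le (mul_le hxT hxS) hZ.d) (mul_le hZ.r p3.d)).trans (by linarith)
  have hT2 : Lp k (T ^ 2) (T' ^ 2) (1 / 4) δ := by
    simpa only [pow_two] using p2.mono (B := 1 / 4) (ε := δ) (by linarith) (by linarith)
  have hTT1 : Lp k TT TT' 1 δ := hTT.mono (by linarith) le_rfl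
  have eQ : ∀ y T Z : R, Qm y T Z (e * ξ ^ 2) =
      y + hf R * (e * (ξ ^ 2 * Z ^ 2)) + hf R ^ 2 * uu y * T ^ 2 := fun y T Z => by
    rw [Qm, Qp]; ring
  have hQ : Lp k (Qm y T Z (e * ξ ^ 2)) (Qm y' T' Z' (e * ξ ^ 2)) (1 / 2) (2 * δ) := by
    rw [eQ, eQ]
    exact ((hy.add (hh.mul P1)).add ((hh2.mul hu).mul hT2)).mono (by linarith) (by linarith)
  have hj : Lp k (jj y T Z (e * ξ ^ 2)) (jj y' T' Z' (e * ξ ^ 2)) 2 (8 * δ) :=
    hQ.inv.mono le_rfl (by linarith)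
  have P1' := P1.mono (B := 1) (ε := δ) (by linarith) (by linarith)
  have q : Lp k _ _ (2 * ε) (12 * (ε * δ)) :=
    ((((((hh.mul P2).add ((hh.mul hu).mul P3)).sub (((hh3.mul hu2).mul P1').mul p2)).add
      ((hh2.mul hu).mul p2)).add (((hh3.mul hu2).mul hTT1).mul p2)).sub
      (((hh4.mul hu3).mul hT2).mul p2)).mono (by linarith) (by linarith)
  have := ((((hh.mul hu).mul p1).add ((hh2.mul hu2).mul p2)).add (hj.mul q)).d
  have eG : ∀ y T TT Z S V : R, G y T TT Z S V (e * ξ ^ 2) =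
      hf R * uu y * (y * TT) + hf R ^ 2 * uu y ^ 2 * (T * T) + jj y T Z (e * ξ ^ 2) *
        (hf R * (e * (ξ ^ 2 * (Z ^ 2 * (1 + V)))) + hf R * uu y * (Z * (T * S)) -
          hf R ^ 3 * uu y ^ 2 * (e * (ξ ^ 2 * Z ^ 2)) * (T * T) + hf R ^ 2 * uu y * (T * T) +
          hf R ^ 3 * uu y ^ 2 * TT * (T * T) - hf R ^ 4 * uu y ^ 3 * T ^ 2 * (T * T)) :=
    fun y T TT Z S V => by rw [G, Gp]; ring
  rw [eG, eG]
  exact this.trans (by linarith)

end Crest.Agent.N250.Nl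

end
end

-- ▼ part N250/B1/Neu
section

/-! # Row 250, block B1 (S1): Neumann far end with a decreasing barrier; the Gaussian barrier -/

set_option autoImplicit false

open Set Filter Topology

namespace Crest.Agent.N250.B1

variable {a b : ℝ}

/-- the layer factor `exp(-k (X² - x²))` -/
noncomputable def lay (k X x : ℝ) : ℝ := Real.exp (-k * (X ^ 2 - x ^ 2))

lemma lay_pos (k X x : ℝ) : 0 < lay k X x := Real.exp_pos _

@[simp] lemma lay_self (k X : ℝ) : lay k X X = 1 := by simp [lay]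

lemma lay_le_one {k X x : ℝ} (hk : 0 ≤ k) (h : x ^ 2 ≤ X ^ 2) : lay k X x ≤ 1 :=
  Real.exp_le_one_iff.2 (by nlinarith)

lemma Dv.lay {x c : ℝ → ℝ} (hx : Dv a b x c) (k X : ℝ) :
    Dv a b (fun s => lay k X (x s)) fun s => c s * (2 * k * x s * lay k X (x s)) := fun s hs => by
  have h := ((((hx s hs).fun_pow 2).const_sub (X ^ 2)).const_mul (-k)).exp
  refine h.congr_deriv ?_
  simp only [B1.lay]
  norm_num
  ring

lemma Dv.rmul {w w1 u u1 : ℝ → ℝ} (h : Dv a b w w1) (k : Dv a b u u1) :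
    Dv a b (fun x => w x * u x) (fun x => w1 x * u x + w x * u1 x) :=
  fun x hx => (h x hx).mul (k x hx)




end Crest.Agent.N250.B1
end

-- ▼ part N250/B1/Wk1
section

/-!
# Row 250, B1 (helper15): one mode in the weak weight `x^γ`, far from the tip
-/

set_option autoImplicit false

open Set Filter Topology

noncomputable section

namespace Crest.Agent.N250.B1

/-- the weak weight of a mode with symbol value `t` -/
def Ww (γ R t x : ℝ) : ℝ := x ^ γ * Real.exp (-(sig (x - R) * t))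

namespace Wk

theorem ld_rpow {R X : ℝ} (γ : ℝ) (hR : 0 < R) : LD R X (fun x => x ^ γ) fun x => γ / x :=
  ⟨fun x hx => Real.rpow_pos_of_pos (hR.trans_le hx.1) _, fun x hx => by
    have h0 := hR.trans_le hx.1
    refine (Real.hasDerivAt_rpow_const (p := γ) (Or.inl h0.ne')).hasDerivWithinAt.congr_deriv ?_
    rw [Real.rpow_sub_one h0.ne']
    field_simp⟩

theorem hd_max (n : ℕ) (R x : ℝ) : HasDerivAt (fun x => max (1 - (x - R)) 0 ^ (n + 2))
    (-((n + 2 : ℕ) * max (1 - (x - R)) 0 ^ (n + 1))) x := by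
  have h1 : HasDerivAt (fun x : ℝ => 1 - (x - R)) (-1) x := by
    simpa using ((hasDerivAt_id x).sub_const R).const_sub 1
  exact ((hasDerivAt_posPow n _).comp x h1).congr_deriv (by ring)

theorem ld_Ww {R X : ℝ} (γ t : ℝ) (hR : 0 < R) :
    LD R X (Ww γ R t) fun x => γ / x - 3 * max (1 - (x - R)) 0 ^ 2 * t := by
  have h : LD R X (fun x => Real.exp (-(sig (x - R) * t)))
      fun x => -(3 * max (1 - (x - R)) 0 ^ 2 * t) :=
    ⟨fun _ _ => Real.exp_pos _, fun x _ => by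
      refine ((((hd_max 1 R x).const_sub 1).mul_const t).fun_neg.exp).hasDerivWithinAt.congr_deriv ?_
      simp only [sig]
      push_cast
      ring⟩
  exact (ld_rpow γ hR).mul h

theorem et_near {R X x : ℝ} {a : ℂ} (hR : 23 ≤ R) (hx : x ∈ Icc R X) (ha : ‖a‖ * X ^ 2 ≤ 1 / 100) :
    ‖et a x - 1‖ ≤ 1 / 200 := by
  have e : et a x - 1 = a * (((x ^ 2 - 2) / 2 : ℝ) : ℂ) := by rw [et]; push_cast; ring
  have h1 : x ^ 2 ≤ X ^ 2 := pow_le_pow_left₀ (by linarith [hx.1]) hx.2 2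
  rw [e, norm_mul, Complex.norm_real, Real.norm_of_nonneg (by nlinarith [hx.1])]
  nlinarith [norm_nonneg a]

theorem inv_near {z : ℂ} (h : ‖z - 1‖ ≤ 1 / 200) : z ≠ 0 ∧ ‖z⁻¹ - 1‖ ≤ 1 / 128 := by
  have h1 : 199 / 200 ≤ ‖z‖ := by
    have := norm_sub_norm_le (1 : ℂ) z
    rw [norm_one, norm_sub_rev] at this
    linarith
  have h0 : z ≠ 0 := norm_pos_iff.1 (by linarith)
  refine ⟨h0, ?_⟩
  rw [show z⁻¹ - 1 = -(z - 1) / z by field_simp; ring, norm_div, norm_neg,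
    div_le_iff₀ (by linarith)]
  linarith

/-- high modes -/
theorem high {R X γ t k M : ℝ} {V G w p : ℝ → ℂ} (hR : 23 ≤ R) (hX : R + 2 ≤ X) (h0 : 0 ≤ γ)
    (h1 : γ ≤ 1) (hk : 2 ≤ k) (ht0 : 0 ≤ t) (ht : t ≤ k / (100 * R)) (hM : 0 ≤ M)
    (hV : ∀ x ∈ Icc R X, 9 / 20 * k ^ 2 - 1 ≤ (V x).re ∧ ‖V x‖ ≤ k ^ 2 + 1)
    (s : Sol2 R X dr V G w p) (hG : ∀ x ∈ Icc R X, ‖G x‖ ≤ M * Ww γ R t x)
    (hw : k ^ 2 * ‖w R‖ ≤ M * Ww γ R t R) (hp : k ^ 2 * ‖p X‖ ≤ M * ((X + k) * Ww γ R t X)) :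
    ∀ x ∈ Icc R X, k ^ 2 * ‖w x‖ ≤ 12 * (M * Ww γ R t x) ∧
      k * ‖p x‖ ≤ 37 * (M * (x * Ww γ R t x)) ∧ ‖V x * w x + G x‖ ≤ 16 * (M * Ww γ R t x) := by
  have hR0 : 0 < R := by linarith
  have hk0 : 0 < k := by linarith
  have hRX : R ≤ X := by linarith
  have hW := ld_Ww (X := X) γ t hR0
  set W := Ww γ R t with hWd
  set u : ℝ → ℝ := fun x => max (1 - (x - R)) 0 with hu
  set l : ℝ → ℝ := fun x => γ / x - 3 * u x ^ 2 * t with hl
  set l1 : ℝ → ℝ := fun x => -γ / x ^ 2 + 6 * u x * t with hl1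
  have dl : Dv R X l l1 := fun x hx => by
    have hx0 : x ≠ 0 := by linarith [hx.1]
    refine (((hasDerivAt_const x γ).fun_div (hasDerivAt_id' x) hx0).fun_sub
      (((hd_max 0 R x).const_mul 3).mul_const t)).hasDerivWithinAt.congr_deriv ?_
    simp only [hl1, hu]
    push_cast
    ring
  have tR : t * R ≤ k / 100 := by
    rw [le_div_iff₀ (by positivity)] at ht
    linarith
  have bl : ∀ x ∈ Icc R X, l x ≤ k / 40 ∧ -(k / 100) ≤ l x ∧ l1 x ≤ k / 100 ∧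
      -(x / 2 * l x) ≤ 3 * k / 100 := by
    intro x hx
    have hx0 : 0 < x := by linarith [hx.1]
    have u0 : 0 ≤ u x := le_max_right _ _
    have u1 : u x ≤ 1 := max_le (by linarith [hx.1]) zero_le_one
    have u2 : u x ^ 2 ≤ 1 := pow_le_one₀ u0 u1
    have g0 : 0 ≤ γ / x := by positivity
    have g1 : γ / x ≤ 1 / 20 := by rw [div_le_iff₀ hx0]; linarith [hx.1]
    have t1 : 23 * t ≤ k / 100 := by nlinarith
    have a1 : 0 ≤ u x ^ 2 * t := by positivity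
    have a2 : u x ^ 2 * t ≤ t := mul_le_of_le_one_left ht0 u2
    have a3 : u x * t ≤ t := mul_le_of_le_one_left ht0 u1
    have a4 : -γ / x ^ 2 ≤ 0 := div_nonpos_of_nonpos_of_nonneg (by linarith) (sq_nonneg _)
    have a5 : x * (u x ^ 2 * t) ≤ 2 * (t * R) := by
      rcases le_total x (R + 1) with h | h
      · nlinarith [mul_le_mul h a2 a1 (by linarith : 0 ≤ R + 1)]
      · have : u x = 0 := max_eq_right (by linarith)
        rw [this]
        nlinarith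
    have a6 : x / 2 * l x = γ / 2 - 3 / 2 * (x * (u x ^ 2 * t)) := by
      simp only [hl]; field_simp
    refine ⟨?_, ?_, ?_, ?_⟩
    · simp only [hl]; linarith
    · simp only [hl]; linarith
    · simp only [hl1]; linarith
    · rw [a6]; linarith
  set φ : ℝ → ℝ := fun x => Real.exp (-(X ^ 2 - x ^ 2) / 8 - k * (X - x) / 4) with hφ
  have hφ1 : ∀ x ∈ Icc R X, φ x ≤ 1 := fun x hx => Real.exp_le_one_iff.2 (by
    have := pow_le_pow_left₀ (by linarith [hx.1]) hx.2 2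
    have := mul_nonneg hk0.le (sub_nonneg.2 hx.2)
    linarith)
  have lφ : LD R X φ fun x => x / 4 + k / 4 := ⟨fun _ _ => Real.exp_pos _, fun x _ => by
    refine ((((hasDerivAt_pow 2 x).const_sub (X ^ 2)).fun_neg.div_const 8).fun_sub
      ((((hasDerivAt_id' x).const_sub X).const_mul k).div_const 4)).exp.hasDerivWithinAt.congr_deriv ?_
    simp only [hφ]
    push_cast
    ring⟩
  have lWφ := hW.mul lφ
  have dν : Dv R X (fun x => l x + (x / 4 + k / 4)) fun x => l1 x + 1 / 4 :=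
    dl.add fun x _ => (((hasDerivAt_id' x).div_const 4).add_const (k / 4)).hasDerivWithinAt
  have hXm : X ∈ Icc R X := right_mem_Icc.2 hRX
  have hRm : R ∈ Icc R X := left_mem_Icc.2 hRX
  have bar : Bar R X (fun x => x / 2) V 0 (fun x => W x + W x * φ x)
      (fun x => l x * W x + (l x + (x / 4 + k / 4)) * (W x * φ x))
      (fun x => (l1 x * W x + l x * (l x * W x)) + ((l1 x + 1 / 4) * (W x * φ x) +
        (l x + (x / 4 + k / 4)) * ((l x + (x / 4 + k / 4)) * (W x * φ x))))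
      (fun x => k ^ 2 / 6 * W x) ((X + k) * W X / 4) :=
    { lt := by linarith
      d0 := hW.dv.add lWφ.dv
      d1 := (dl.rmul hW.dv).add (dν.rmul lWφ.dv)
      pos := fun x hx => add_pos (hW.pos x hx) (lWφ.pos x hx)
      γpos := fun x hx => mul_pos (by positivity) (hW.pos x (Ioo_subset_Icc_self hx))
      sup := fun x hx => by
        have hx := Ioo_subset_Icc_self hx
        obtain ⟨b1, b2, b3, b4⟩ := bl x hx
        have b5 := (hV x hx).1
        have k4 : 2 * k ≤ k ^ 2 := by nlinarith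
        have c1 : l1 x + l x ^ 2 - x / 2 * l x - (V x).re ≤ -(k ^ 2 / 6) := by
          have : l x ^ 2 ≤ (k / 40) ^ 2 := sq_le_sq' (by linarith) b1
          nlinarith
        have c2 : l1 x + 1 / 4 + (l x + k / 4) ^ 2 - x ^ 2 / 16 - (V x).re ≤ 0 := by
          have : (l x + k / 4) ^ 2 ≤ (k / 40 + k / 4) ^ 2 := sq_le_sq' (by linarith) (by linarith)
          nlinarith [sq_nonneg x]
        have d1 := mul_le_mul_of_nonneg_right c1 (hW.pos x hx).le
        have d2 := mul_le_mul_of_nonneg_right c2 (lWφ.pos x hx).le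
        linarith
      δpos := by have := hW.pos X hXm; have : 0 < X + k := by linarith
                 positivity
      rob := by
        have e1 : φ X = 1 := by simp [hφ]
        have e2 : u X = 0 := max_eq_right (by linarith)
        have e3 : 0 ≤ l X := by
          simp only [hl, e2]
          have : 0 ≤ γ / X := div_nonneg h0 (by linarith)
          linarith
        have := mul_nonneg e3 (hW.pos X hXm).le
        simp only [e1, Complex.zero_re]
        linarith }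
  have k2 : 0 < k ^ 2 := by positivity
  have key := bar.le (M := 6 * M / k ^ 2) s
    (fun x hx => (hG x (Ioo_subset_Icc_self hx)).trans (le_of_eq (by field_simp)))
    (by
      rw [div_mul_eq_mul_div, le_div_iff₀' k2]
      have := mul_nonneg hM (hW.pos R hRm).le
      have := mul_nonneg hM (lWφ.pos R hRm).le
      linarith)
    (by
      rw [zero_mul, sub_zero, div_mul_eq_mul_div, le_div_iff₀' k2]
      have := mul_nonneg hM (mul_nonneg (by linarith : 0 ≤ X + k) (hW.pos X hXm).le)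
      linarith)
  have hw' : ∀ x ∈ Icc R X, k ^ 2 * ‖w x‖ ≤ 12 * (M * W x) := fun x hx => by
    have a1 := key x hx
    rw [div_mul_eq_mul_div, le_div_iff₀' k2] at a1
    have := mul_le_mul_of_nonneg_left (hφ1 x hx) (mul_nonneg hM (hW.pos x hx).le)
    linarith
  have hS : ∀ x ∈ Icc R X, ‖V x * w x + G x‖ ≤ 16 * (M * W x) := fun x hx => by
    refine (norm_add_le _ _).trans ?_
    rw [norm_mul]
    have a1 := mul_le_mul_of_nonneg_right (hV x hx).2 (norm_nonneg (w x))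
    have a2 := mul_le_mul_of_nonneg_right (show 4 ≤ k ^ 2 by nlinarith) (norm_nonneg (w x))
    have := hw' x hx
    have := hG x hx
    linarith
  have dπ : Dv R X (fun x => p x + (k : ℂ) * ((x : ℂ) * w x)) fun x =>
      (dr x + ((k * x : ℝ) : ℂ)) * (p x + (k : ℂ) * ((x : ℂ) * w x)) +
        (V x * w x + G x + ((k - k * x * (x / 2 + k * x) : ℝ) : ℂ) * w x) := by
    have hi : Dv R X (fun x => (x : ℂ)) fun _ => ((1 : ℝ) : ℂ) :=
      Dv.ofReal (w := fun x => x) fun x _ => hasDerivWithinAt_id x _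
    exact (s.d1.add ((hi.mul s.d0).cmul k)).congr (fun _ _ => rfl) fun x _ => by
      simp only [dr]; push_cast; ring
  have nπ : ∀ x ∈ Icc R X, ‖(k : ℂ) * ((x : ℂ) * w x)‖ = k * (x * ‖w x‖) := fun x hx => by
    simp [abs_of_pos hk0, abs_of_pos (hR0.trans_le hx.1)]
  have hπ := ((LD.id hR0).mul hW).back (r := fun x => k * x) (M := 25 * M / k) hRX dπ
    (fun x h => mul_pos hk0 (hR0.trans_le h.1))
    (fun x h => by
      have a1 : γ / x ≤ 1 := by rw [div_le_iff₀ (hR0.trans_le h.1)]; linarith [h.1]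
      have a2 : x⁻¹ ≤ 1 := inv_le_one_of_one_le₀ (by linarith [h.1])
      have a3 : 0 ≤ max (1 - (x - R)) 0 ^ 2 * t := by positivity
      rw [Complex.add_re, dr_re, Complex.ofReal_re]
      linarith [h.1])
    (fun x h => by
      have hx0 := hR0.trans_le h.1
      have e : 25 * M / k * (k * x * (x * W x)) = 25 * (x ^ 2 * (M * W x)) := by field_simp
      rw [e]
      refine (norm_add_le _ _).trans ?_
      have x16 : 16 ≤ x ^ 2 := by nlinarith [h.1]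
      have h3 : |k - k * x * (x / 2 + k * x)| ≤ 2 * (x ^ 2 * k ^ 2) := by
        have : k * 2 ≤ k ^ 2 := by nlinarith
        have : 0 ≤ k * x ^ 2 := by positivity
        have : k * 2 * x ^ 2 ≤ k ^ 2 * x ^ 2 := by gcongr
        have : k * 16 ≤ k * x ^ 2 := by gcongr
        rw [abs_le]; constructor <;> nlinarith
      rw [norm_mul, Complex.norm_real, Real.norm_eq_abs]
      have h4 := mul_le_mul_of_nonneg_right h3 (norm_nonneg (w x))
      have h5 := mul_le_mul_of_nonneg_left (hw' x h) (sq_nonneg x)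
      have h6 := mul_le_mul_of_nonneg_right x16 (mul_nonneg hM (hW.pos x h).le)
      linarith [hS x h])
    (by
      rw [div_mul_eq_mul_div, le_div_iff₀' hk0]
      have h2 := mul_le_mul_of_nonneg_left ((norm_add_le (p X) _).trans_eq
        (congrArg _ (nπ X hXm))) hk0.le
      have h4 := mul_le_mul_of_nonneg_left (hw' X hXm) (by linarith : 0 ≤ X)
      have h5 := mul_nonneg hM (hW.pos X hXm).le
      have h6 : k * ‖p X‖ ≤ 2 * (X * (M * W X)) := by
        refine le_of_mul_le_mul_left ?_ hk0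
        have : X + k ≤ k * (2 * X) := by nlinarith
        have := mul_le_mul_of_nonneg_right this h5
        linarith
      have h7 := mul_nonneg (by linarith : 0 ≤ X) h5
      linarith)
  refine fun x hx => ⟨hw' x hx, ?_, hS x hx⟩
  have h2 := hπ x hx
  rw [div_mul_eq_mul_div, le_div_iff₀' hk0] at h2
  have h3 := mul_le_mul_of_nonneg_left ((norm_le_add_norm_add (p x) _).trans_eq
    (congrArg _ (nπ x hx))) hk0.le
  have h5 := mul_le_mul_of_nonneg_left (hw' x hx) (hR0.trans_le hx.1).le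
  linarith

/-- low modes -/
theorem low {R X γ c M : ℝ} {V G w p : ℝ → ℂ} (hR : 23 ≤ R) (hX : R ≤ X) (h0 : 0 ≤ γ)
    (h1 : γ ≤ 7 / 8) (hc1 : 1 ≤ c) (hc2 : c ≤ 2) (hM : 0 ≤ M)
    (hV : ∀ x ∈ Icc R X, ‖V x + (c / 2 : ℝ)‖ ≤ 1 / 256)
    (s : Sol2 R X dr V G w p) (hG : ∀ x ∈ Icc R X, ‖G x‖ ≤ M * x ^ γ)
    (hw : ‖w X‖ ≤ M * X ^ γ) (hp : ‖p X‖ ≤ M * (2 * X * X ^ γ)) :
    ∀ x ∈ Icc R X, ‖w x‖ ≤ 128 * (M * x ^ γ) ∧ ‖p x‖ ≤ 33 * (M * (x * x ^ γ)) := by
  have hR0 : 0 < R := by linarith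
  have hW := ld_rpow (X := X) γ hR0
  have hid := LD.id (b := X) hR0
  have lφ : LD R X (lay (1 / 8) X) fun x => x / 4 := ⟨fun _ _ => lay_pos _ _ _,
    (Dv.lay (x := fun x => x) (c := fun _ => 1) (fun x _ => hasDerivWithinAt_id x _) (1 / 8) X).congr
      (fun _ _ => rfl) fun x _ => by ring⟩
  have hφ1 : ∀ x ∈ Icc R X, lay (1 / 8) X x ≤ 1 := fun x hx =>
    lay_le_one (by norm_num) (pow_le_pow_left₀ (by linarith [hx.1]) hx.2 2)
  have l1 := hW.mul hid.inv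
  have l2 := (hW.mul hid).mul lφ
  have l3 := hW.mul lφ
  have hXm : X ∈ Icc R X := right_mem_Icc.2 hX
  have lob : LoB R X dr V (fun x => ((c * x⁻¹ : ℝ) : ℂ)) (fun x => ((-(c * x⁻¹ ^ 2) : ℝ) : ℂ))
      (fun x => x ^ γ / 32) (fun x => x ^ γ * x⁻¹ / 8 + x ^ γ * x * lay (1 / 8) X x / 4)
      (fun x => (γ / x + -x⁻¹) * (x ^ γ * x⁻¹) / 8 +
        (γ / x + x⁻¹ + x / 4) * (x ^ γ * x * lay (1 / 8) X x) / 4)
      (fun x => 2 * x ^ γ - x ^ γ * lay (1 / 8) X x)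
      (fun x => 2 * (γ / x * x ^ γ) - (γ / x + x / 4) * (x ^ γ * lay (1 / 8) X x)) :=
    { cB := dr_cont.continuousOn
      dl := Dv.ofReal fun x hx => ((hid.inv.dv x hx).const_mul c).congr_deriv (by ring)
      dΘ := fun x hx => ((l1.dv x hx).div_const 8).add ((l2.dv x hx).div_const 4)
      dΩ := fun x hx => ((hW.dv x hx).const_mul 2).sub (l3.dv x hx)
      pos := fun x hx => by
        have := mul_le_mul_of_nonneg_left (hφ1 x hx) (hW.pos x hx).le
        have := hW.pos x hx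
        linarith
      nn := by have := l1.pos X hXm; have := l2.pos X hXm; positivity
      bq := fun x hx => by
        have hx0 := hR0.trans_le hx.1
        have i0 : 0 < x⁻¹ := inv_pos.2 hx0
        have i1 : x⁻¹ ≤ 1 := inv_le_one_of_one_le₀ (by linarith [hx.1])
        have a1 : γ / x + -x⁻¹ + x / 4 ≤ x / 2 - c * x⁻¹ := by
          rw [div_eq_mul_inv γ]; nlinarith [hx.1]
        have a2 : γ / x + x⁻¹ + x / 4 ≤ x / 2 - c * x⁻¹ := by
          rw [div_eq_mul_inv γ]; nlinarith [hx.1]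
        have b1 := mul_le_mul_of_nonneg_right a1 (l1.pos x hx).le
        have b2 := mul_le_mul_of_nonneg_right a2 (l2.pos x hx).le
        have e : x / 4 * (x ^ γ * x⁻¹) = x ^ γ / 4 := by field_simp
        rw [Complex.sub_re, dr_re, Complex.ofReal_re]
        linarith
      bw := fun x hx => by
        have hx0 := hR0.trans_le hx.1
        have a1 := mul_le_mul_of_nonneg_left (hφ1 x hx) (l1.pos x hx).le
        have a2 : 0 ≤ (c - γ - 1 / 8) * (2 * (x ^ γ * x⁻¹) - x ^ γ * x⁻¹ * lay (1 / 8) X x) :=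
          mul_nonneg (by linarith) (by linarith [l1.pos x hx])
        rw [Complex.ofReal_re, div_eq_mul_inv γ]
        linarith
      res := fun x hx => by
        have hx0 := hR0.trans_le hx.1
        have e : V x - (((-(c * x⁻¹ ^ 2) : ℝ) : ℂ) + ((c * x⁻¹ : ℝ) : ℂ) * ((c * x⁻¹ : ℝ) : ℂ) -
            dr x * ((c * x⁻¹ : ℝ) : ℂ)) =
            V x + (c / 2 : ℝ) - (((c ^ 2 - c) * x⁻¹ ^ 2 : ℝ) : ℂ) := by
          have : (x : ℂ) ≠ 0 := by exact_mod_cast hx0.ne'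
          simp only [dr]; push_cast; field_simp; ring
        have i1 : x⁻¹ ≤ 1 / 23 := by
          rw [inv_eq_one_div]; exact one_div_le_one_div_of_le (by norm_num) (by linarith [hx.1])
        have i2 : x⁻¹ ^ 2 ≤ (1 / 23) ^ 2 := pow_le_pow_left₀ (inv_pos.2 hx0).le i1 2
        have a1 : ‖(((c ^ 2 - c) * x⁻¹ ^ 2 : ℝ) : ℂ)‖ ≤ 1 / 256 := by
          rw [Complex.norm_real, Real.norm_of_nonneg (mul_nonneg (by nlinarith) (sq_nonneg _))]
          nlinarith [mul_le_mul (show c ^ 2 - c ≤ 2 by nlinarith) i2 (sq_nonneg _) zero_le_two]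
        have a2 := (norm_sub_le _ _).trans (add_le_add (hV x hx) a1)
        rw [e]
        have a3 := l3.pos x hx
        have a4 := mul_le_mul a2 (show 2 * x ^ γ - x ^ γ * lay (1 / 8) X x ≤ 2 * x ^ γ by linarith)
          (by nlinarith [mul_le_mul_of_nonneg_left (hφ1 x hx) (hW.pos x hx).le, hW.pos x hx])
          (by norm_num)
        linarith }
  have nl : ∀ x ∈ Icc R X, ‖((c * x⁻¹ : ℝ) : ℂ) * w x‖ ≤ x / 8 * ‖w x‖ := fun x hx => by
    have hx0 := hR0.trans_le hx.1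
    rw [norm_mul, Complex.norm_real, Real.norm_of_nonneg (by positivity)]
    have i1 : x⁻¹ ≤ 1 := inv_le_one_of_one_le₀ (by linarith [hx.1])
    refine mul_le_mul_of_nonneg_right ?_ (norm_nonneg _)
    nlinarith [hx.1, inv_pos.2 hx0]
  have hMX := mul_nonneg hM (hW.pos X hXm).le
  have key := lob.le s (M := 32 * M) (by positivity)
    (fun x hx => (hG x hx).trans (le_of_eq (by ring)))
    (by simp only [lay_self]; linarith)
    (by
      have a1 := (norm_sub_le _ _).trans (add_le_add hp (nl X hXm))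
      have a2 := mul_le_mul_of_nonneg_left hw (by linarith : 0 ≤ X / 8)
      have a3 := mul_nonneg hM (l1.pos X hXm).le
      have a4 := mul_nonneg (by linarith : 0 ≤ X) hMX
      simp only [lay_self]
      linarith)
  intro x hx
  obtain ⟨a1, a2⟩ := key x hx
  have hx0 := hR0.trans_le hx.1
  have b0 := mul_nonneg hM (hW.pos x hx).le
  have b1 := mul_nonneg hM (l3.pos x hx).le
  have r0 : ‖w x‖ ≤ 128 * (M * x ^ γ) := by linarith
  refine ⟨r0, ?_⟩
  have b2 := norm_le_norm_sub_add (p x) (((c * x⁻¹ : ℝ) : ℂ) * w x)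
  have b3 := mul_le_mul_of_nonneg_left r0 (by linarith : 0 ≤ x / 8)
  have b4 := mul_le_mul_of_nonneg_left (hφ1 x hx) (mul_nonneg b0 hx0.le)
  have b5 : x⁻¹ ≤ x / 8 := (inv_le_one_of_one_le₀ (by linarith [hx.1])).trans (by linarith [hx.1])
  have b6 := mul_le_mul_of_nonneg_left b5 b0
  linarith [nl x hx]

end Wk

/-- the jet weights of the weak class -/
def wF (f : ℝ → ℝ) : Fin 6 → ℝ → ℝ :=
  ![f, fun x => x * f x, fun x => x ^ 2 * f x, f, fun x => x * f x, f]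

/-- **all modes in the weak weight** -/
theorem mestW {R X γ t : ℝ} {a : ℂ} (hR : 23 ≤ R) (hX : R + 2 ≤ X) (h0 : 0 ≤ γ) (h1 : γ ≤ 7 / 8)
    (ha : ‖a‖ * X ^ 2 ≤ 1 / 100) (m : ℤ) (ht0 : 0 ≤ t) (ht : t ≤ |(m : ℝ)| / (100 * R)) :
    MEst R X a m (Ww γ R t) (Ww γ R t (pt R X m) / (1 + (m : ℝ) ^ 2))
      ((X + |(m : ℝ)|) * Ww γ R t X / (1 + (m : ℝ) ^ 2)) fun i x => 400 * wF (Ww γ R t) i x := by
  intro G w p M hM s hG hw hp x hx
  have hR0 : 0 < R := by linarith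
  have hx0 := hR0.trans_le hx.1
  have hW := (Wk.ld_Ww (X := X) γ t hR0).pos
  have hi := fun x hx => Wk.inv_near (Wk.et_near (X := X) (x := x) hR hx ha)
  have m1 : 0 < 1 + (m : ℝ) ^ 2 := by positivity
  rw [← mul_div_assoc, le_div_iff₀' m1] at hw hp
  have eV : ∀ x : ℝ, Vx a m x = (((m : ℝ) ^ 2 / 2 : ℝ) : ℂ) * ((et a x)⁻¹ - 1) +
      (((m : ℝ) ^ 2 / 2 - 1 : ℝ) : ℂ) := fun x => by
    rw [Vx]; push_cast; ring
  have nV : ∀ x ∈ Icc R X, ‖(((m : ℝ) ^ 2 / 2 : ℝ) : ℂ) * ((et a x)⁻¹ - 1)‖ ≤ (m : ℝ) ^ 2 / 256 :=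
    fun x hx => by
      rw [norm_mul, Complex.norm_real, Real.norm_of_nonneg (by positivity)]
      nlinarith [(hi x hx).2, sq_nonneg (m : ℝ)]
  have b0 := mul_nonneg hM (hW x hx).le
  have b1 := mul_nonneg hx0.le b0
  have x16 := mul_le_mul_of_nonneg_right (show 16 ≤ x ^ 2 by nlinarith [hx.1]) b0
  have nq : ‖dr x * p x + Vx a m x * w x + G x‖ ≤ x / 2 * ‖p x‖ + ‖Vx a m x * w x + G x‖ := by
    rw [add_assoc]
    exact (norm_add_le _ _).trans (le_of_eq (by rw [norm_mul, norm_dr hx0.le]))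
  simp only [wF, Matrix.cons_val]
  by_cases hm : 2 ≤ |m|
  · have hk : (2 : ℝ) ≤ |(m : ℝ)| := by exact_mod_cast hm
    rw [pt, if_pos hm] at hw
    obtain ⟨r0, r1, r2⟩ := Wk.high hR hX h0 (by linarith) hk ht0 ht hM (fun x hx => by
        have a1 := nV x hx
        have a2 := (Complex.abs_re_le_norm _).trans a1
        have a3 : 4 ≤ (m : ℝ) ^ 2 := by rw [← sq_abs]; nlinarith
        rw [sq_abs, eV, Complex.add_re, Complex.ofReal_re]
        refine ⟨by linarith [(abs_le.1 a2).1], (norm_add_le _ _).trans ?_⟩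
        rw [Complex.norm_real ((m : ℝ) ^ 2 / 2 - 1), Real.norm_of_nonneg (by linarith)]
        linarith) s hG
      (by rw [sq_abs]; linarith [norm_nonneg (w R)]) (by rw [sq_abs]; linarith [norm_nonneg (p X)])
      x hx
    have c1 := mul_le_mul_of_nonneg_right hk (norm_nonneg (w x))
    have c2 := mul_le_mul_of_nonneg_right hk (norm_nonneg (p x))
    have c3 := mul_le_mul_of_nonneg_right (show 2 * |(m : ℝ)| ≤ |(m : ℝ)| ^ 2 by nlinarith)
      (norm_nonneg (w x))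
    have c4 := mul_le_mul_of_nonneg_left (c2.trans r1) hx0.le
    refine ⟨by linarith, by linarith, by linarith, by linarith, by linarith, ?_⟩
    rw [← sq_abs]
    linarith
  · have hk : |(m : ℝ)| ≤ 1 := by exact_mod_cast (by omega : |m| ≤ 1)
    have hk2 : (m : ℝ) ^ 2 = |(m : ℝ)| := by
      rcases small_cases hm with rfl | rfl | rfl <;> simp
    have k0 := abs_nonneg (m : ℝ)
    rw [pt, if_neg hm] at hw
    have up : ∀ y ∈ Icc R X, Ww γ R t y ≤ y ^ γ := fun y hy =>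
      mul_le_of_le_one_right (Real.rpow_nonneg (by linarith [hy.1]) _) (Real.exp_le_one_iff.2
        (neg_nonpos.2 (mul_nonneg (sig_nonneg (by linarith [hy.1])) ht0)))
    have dn : x ^ γ ≤ 3 * Ww γ R t x := by
      have a1 : t ≤ 1 / 2 := ht.trans (by rw [div_le_iff₀ (by positivity)]; linarith)
      have a2 : sig (x - R) ≤ 1 := sub_le_self _ (pow_nonneg (le_max_right _ _) _)
      have a3 := Real.add_one_le_exp (-(sig (x - R) * t))
      have a4 := mul_le_of_le_one_left ht0 a2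
      have a5 := Real.rpow_nonneg hx0.le γ
      rw [Ww]
      nlinarith
    have hXm : X ∈ Icc R X := right_mem_Icc.2 (by linarith)
    have hV : ∀ x ∈ Icc R X, ‖Vx a m x + ((2 - (m : ℝ) ^ 2) / 2 : ℝ)‖ ≤ 1 / 256 := fun x hx => by
      rw [eV, add_assoc, ← Complex.ofReal_add, show (m : ℝ) ^ 2 / 2 - 1 + (2 - (m : ℝ) ^ 2) / 2 = 0
        by ring, Complex.ofReal_zero, add_zero]
      linarith [nV x hx]
    obtain ⟨r0, r1⟩ := Wk.low (c := 2 - (m : ℝ) ^ 2) hR (by linarith) h0 h1 (by linarith)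
      (by linarith) hM hV s (fun y hy => (hG y hy).trans (mul_le_mul_of_nonneg_left (up y hy) hM))
      (by
        have := mul_le_mul_of_nonneg_left (up X hXm) hM
        nlinarith [norm_nonneg (w X)])
      (by
        have a1 := mul_le_mul (show X + |(m : ℝ)| ≤ 2 * X by linarith) (up X hXm) (hW X hXm).le
          (by linarith)
        have := mul_le_mul_of_nonneg_left a1 hM
        nlinarith [norm_nonneg (p X)]) x hx
    have c0 := mul_le_mul_of_nonneg_left dn hM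
    have c1 := mul_le_mul_of_nonneg_left c0 hx0.le
    have q0 : ‖w x‖ ≤ 384 * (M * Ww γ R t x) := by linarith
    have q1 : ‖p x‖ ≤ 99 * (x * (M * Ww γ R t x)) := by linarith
    have c2 := mul_le_mul_of_nonneg_right hk (norm_nonneg (w x))
    have c3 := mul_le_mul_of_nonneg_right hk (norm_nonneg (p x))
    have c4 := mul_le_mul_of_nonneg_left q1 hx0.le
    have c5 : ‖Vx a m x‖ ≤ 2 := by
      have := norm_le_add_norm_add (Vx a m x) (((2 - (m : ℝ) ^ 2) / 2 : ℝ) : ℂ)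
      rw [Complex.norm_real, Real.norm_of_nonneg (by linarith)] at this
      linarith [hV x hx]
    have c6 := (norm_add_le (Vx a m x * w x) (G x)).trans (add_le_add
      ((norm_mul_le _ _).trans (mul_le_mul_of_nonneg_right c5 (norm_nonneg _))) (hG x hx))
    refine ⟨by linarith, by linarith, by linarith, by linarith, by linarith, ?_⟩
    rw [hk2]
    linarith

end Crest.Agent.N250.B1

end
end

-- ▼ part N250/B1/Wk2
section

/-!
# Row 250, B1 (helper15): `WkS`, the weak a-priori estimate for two solutions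
-/

set_option autoImplicit false

open Set Complex Filter Topology

noncomputable section

namespace Crest.Agent.N250.B1

namespace Wk

variable {ℓ : Ell} {R K g g' X γ M : ℝ} {a : ℂ} {J J' : Jt ℓ}

/-- half of a symbol -/
def half (ℓ : Ell) : Ell where
  l m := ℓ.l m / 2
  zero := by rw [ℓ.zero, zero_div]
  nonneg m := by linarith [ℓ.nonneg m]
  sub j k := by linarith [ℓ.sub j k]
  neg m := by rw [ℓ.neg]

theorem half_w (ℓ : Ell) (m : ℤ) : ‖(om (half ℓ)).w m * (om ℓ).wi m‖ ≤ 1 := by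
  change ‖eW (ℓ.l m / 2) * eW (-ℓ.l m)‖ ≤ 1
  rw [eW_mul]
  exact norm_eW_le (by linarith [ℓ.nonneg m])

/-- passage to the half symbol -/
abbrev tH (ℓ : Ell) : Wi (om ℓ) →A[ℂ] Wi (om (half ℓ)) := Nl.tr (half_w ℓ)

theorem norm_tH {u : Wi (om ℓ)} {c : ℝ} (h : ‖u‖ ≤ c) : ‖tH ℓ u‖ ≤ c :=
  (Nl.norm_tr_le _ u).trans (by rwa [one_mul])

theorem IsJet.sub {c : CI} (h : IsJet c J) (h' : IsJet c J') : IsJet c (J - J') :=
  ⟨fun m => by simpa [mul_sub] using (h.d0 m).sub (h'.d0 m),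
    fun m => by simpa [mul_sub] using (h.d1 m).sub (h'.d1 m),
    fun m => by simp [h.t0, h'.t0, smul_sub], fun m => by simp [h.t1, h'.t1, smul_sub],
    fun m => by simp only [Pi.sub_apply, Wi.co_sub, h.t2, h'.t2, smul_sub]⟩

theorem Lin.sub {G G' : Wi (om ℓ)} (h : Lin R X a J G) (h' : Lin R X a J' G') :
    Lin R X a (J - J') (G - G') :=
  ⟨IsJet.sub h.1 h'.1, fun m s => by
    simp only [Pi.sub_apply, Wi.co_sub, ContinuousMap.sub_apply, ← h.2 m s, ← h'.2 m s]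
    ring⟩

theorem BC.sub {D D' : Dat ℓ} (h : BC D J) (h' : BC D' J') : BC (D - D') (J - J') :=
  ⟨fun m hm => by simp [h.inner m hm, h'.inner m hm], fun m => by simp [h.slope, h'.slope],
    by simp [h.far0, h'.far0], by simp [h.farp, h'.farp], by simp [h.farm, h'.farm]⟩

/-- the easy regime -/
structure Ez (R K g g' X : ℝ) (a : ℂ) : Prop where
  hR : 23 ≤ R
  hX : R + 2 ≤ X
  K0 : 0 ≤ K
  KX : 4 * K ≤ X ^ 2
  g1 : 1 ≤ g
  g0 : 0 ≤ g'
  g2 : g' ≤ 2
  ha : ‖a‖ * X ^ 2 ≤ 1 / 100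

namespace Ez

variable (h : Ez R K g g' X a)
include h

theorem x_ge (s : II) : 23 ≤ xr R X s := h.hR.trans (xr_mem' h.hX s).1

theorem x_pos (s : II) : 0 < xr R X s := by linarith [h.x_ge s]

theorem et_bd (s : II) : 1 / 2 ≤ ‖et a (xr R X s)‖ ∧ ‖et a (xr R X s)‖ ≤ 2 := by
  have h1 := et_near h.hR (xr_mem' h.hX s) h.ha
  have h2 := abs_le.1 ((abs_norm_sub_norm_le _ _).trans h1)
  rw [norm_one] at h2
  constructor <;> linarith [h2.1, h2.2]

theorem et_pos (s : II) : 0 < ‖et a (xr R X s)‖ := by linarith [(h.et_bd s).1]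

theorem gam_ne (s : II) : gam R X s ≠ 0 := by
  rw [gam_xr]; exact_mod_cast (h.x_pos s).ne'

theorem etC_ne (s : II) : etC R X a s ≠ 0 := by
  rw [etC_apply, gam_xr]; exact norm_pos_iff.1 (h.et_pos s)

theorem norm_gam (s : II) : ‖gam R X s‖ = xr R X s := by
  rw [gam_xr, norm_real, Real.norm_of_nonneg (h.x_pos s).le]

theorem norm_xi (s : II) : ‖iv (gam R X) s‖ = (xr R X s)⁻¹ := by
  rw [iv_apply h.gam_ne, norm_inv, h.norm_gam]

theorem xi_le (s : II) : ‖iv (gam R X) s‖ ≤ 1 := by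
  rw [h.norm_xi]; exact inv_le_one_of_one_le₀ (by linarith [h.x_ge s])

theorem e_le (s : II) : ‖iv (etC R X a) s‖ ≤ 2 := by
  rw [iv_apply h.etC_ne, norm_inv, etC_apply, gam_xr, inv_le_comm₀ (h.et_pos s) two_pos]
  linarith [(h.et_bd s).1]

theorem iv_xe : iv (gam R X * etC R X a) = iv (etC R X a) * iv (gam R X) := by
  ext s
  rw [iv_apply fun s => mul_ne_zero (h.gam_ne s) (h.etC_ne s), ContinuousMap.mul_apply,
    ContinuousMap.mul_apply, iv_apply h.gam_ne, iv_apply h.etC_ne, mul_inv, mul_comm]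

theorem iv_xxe : iv (gam R X ^ 2 * etC R X a) = iv (etC R X a) * iv (gam R X) ^ 2 := by
  ext s
  rw [iv_apply fun s => mul_ne_zero (pow_ne_zero 2 (h.gam_ne s)) (h.etC_ne s),
    ContinuousMap.mul_apply, ContinuousMap.mul_apply, ContinuousMap.pow_apply,
    ContinuousMap.pow_apply, iv_apply h.gam_ne, iv_apply h.etC_ne, mul_inv, mul_comm, inv_pow]

theorem rho_bd (s : II) : 0 < rho K X (xr R X s) ∧ rho K X (xr R X s) ≤ 1 := by
  have hx := h.x_ge s
  have hX : 0 < X ^ 2 := pow_pos (by linarith [h.hR, h.hX]) 2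
  have h1 : xr R X s ^ 2 ≤ X ^ 2 := pow_le_pow_left₀ (by linarith) (xr_mem' h.hX s).2 2
  have t0 : 0 ≤ (xr R X s ^ 2 - 2) / X ^ 2 := div_nonneg (by nlinarith) hX.le
  have t1 : (xr R X s ^ 2 - 2) / X ^ 2 < 1 := (div_lt_one hX).2 (by linarith)
  have k0 : 0 ≤ 2 * K / X ^ 2 := div_nonneg (by linarith [h.K0]) hX.le
  have k1 : 2 * K / X ^ 2 ≤ 1 := (div_le_one hX).2 (by linarith [h.KX, h.K0])
  unfold rho
  constructor <;> nlinarith

theorem W_pos (s : II) : 0 < W g g' a (xr R X s) :=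
  mul_pos (Real.rpow_pos_of_pos (h.x_pos s) _) (Real.rpow_pos_of_pos (h.et_pos s) _)

theorem xW_le (s : II) : xr R X s * W g g' a (xr R X s) ≤ 4 := by
  have h1 : xr R X s ^ (-g) ≤ (xr R X s)⁻¹ := by
    rw [← Real.rpow_neg_one]
    exact Real.rpow_le_rpow_of_exponent_le (by linarith [h.x_ge s]) (by linarith [h.g1])
  have h2 : ‖et a (xr R X s)‖ ^ g' ≤ 4 :=
    (Real.rpow_le_rpow (norm_nonneg _) (h.et_bd s).2 h.g0).trans
      ((Real.rpow_le_rpow_of_exponent_le one_le_two h.g2).trans (by norm_num))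
  have h3 := mul_le_mul h1 h2 (Real.rpow_nonneg (norm_nonneg _) _) (inv_pos.2 (h.x_pos s)).le
  have h4 := mul_le_mul_of_nonneg_left h3 (h.x_pos s).le
  rw [← mul_assoc (xr R X s) _ 4, mul_inv_cancel₀ (h.x_pos s).ne', one_mul] at h4
  exact h4

theorem W_le (s : II) : W g g' a (xr R X s) ≤ 1 := by
  nlinarith [h.xW_le s, h.x_ge s, h.W_pos s]

theorem Wd_le (s : II) : W g g' a (xr R X s) / ‖et a (xr R X s)‖ ≤ 2 := by
  rw [div_le_iff₀ (h.et_pos s)]; linarith [h.W_le s, (h.et_bd s).1]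

/-- sizes of the arguments of the nonlinearity -/
theorem small {c : CI} (hj : IsJet c J) (hJ : InB R K g g' X a M J) :
    ‖cm (iv (etC R X a)) (J 0)‖ ≤ 8 * M ∧ ‖cm (iv (etC R X a)) (J 3)‖ ≤ 8 * M ∧
    ‖cm (iv (etC R X a)) (J 5)‖ ≤ 8 * M ∧ ‖cm (iv (etC R X a) * iv (gam R X)) (J 4)‖ ≤ 8 * M ∧
    ‖Wi.cst (om ℓ) (a • gam R X ^ 2) + cm (gam R X) (J 1)‖ ≤ ‖a‖ * X ^ 2 + 8 * M ∧
    ‖Wi.cst (om ℓ) (cst a) + J 2‖ ≤ 1 / 100 + 8 * M ∧
    ‖cm (gam R X * iv (etC R X a)) (J 3)‖ ≤ 8 * M ∧ ‖cm (iv (etC R X a)) (J 4)‖ ≤ 8 * M := by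
  have one : ∀ s : II, (0 : ℝ) < (fun _ : ℝ => (1 : ℝ)) (xr R X s) := fun _ => one_pos
  have nb : ∀ {f0 f : ℝ → ℝ} {u : Wi (om ℓ)} {φ : CI}, WB R X f0 f u M →
      (∀ s : II, 0 < f0 (xr R X s)) → (∀ s : II, 0 < f (xr R X s)) →
      (Wi.co u 0 = 0 ∨ ∀ s : II, ‖φ s‖ * f0 (xr R X s) ≤ 8) →
      (∀ s : II, ‖φ s‖ * f (xr R X s) ≤ 8) → ‖cm φ u‖ ≤ 8 * M := fun hu p0 p1 e0 e1 =>
    (wb_one_iff (R := R) (X := X)).1 (hu.cm p0 p1 (by norm_num)
      (e0.imp (fun e => ⟨e, fun _ => zero_le_one⟩) fun e s => by simpa using e s)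
      fun s => by simpa using e1 s)
  have eW : ∀ s : II, ‖iv (etC R X a) s‖ * W g g' a (xr R X s) ≤ 8 := fun s => by
    nlinarith [h.e_le s, h.W_le s, h.W_pos s, norm_nonneg (iv (etC R X a) s)]
  have exW : ∀ s : II, ‖iv (etC R X a) s‖ * (xr R X s * W g g' a (xr R X s)) ≤ 8 := fun s => by
    nlinarith [h.e_le s, h.xW_le s, mul_pos (h.x_pos s) (h.W_pos s), norm_nonneg (iv (etC R X a) s)]
  have pxW : ∀ s : II, 0 < xr R X s * W g g' a (xr R X s) := fun s => mul_pos (h.x_pos s) (h.W_pos s)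
  refine ⟨nb hJ.b0 (fun s => (h.rho_bd s).1) h.W_pos (Or.inr fun s => ?_) eW,
    nb hJ.b3 one h.W_pos (Or.inl hj.co3) eW, nb hJ.b5 one h.W_pos (Or.inl hj.co5) eW,
    nb hJ.b4 one pxW (Or.inl hj.co4) fun s => ?_, Nl.add_le ?_ ?_, Nl.add_le ?_ ?_,
    nb hJ.b3 one h.W_pos (Or.inl hj.co3) fun s => ?_, nb hJ.b4 one pxW (Or.inl hj.co4) exW⟩
  · nlinarith [h.e_le s, h.rho_bd s, norm_nonneg (iv (etC R X a) s)]
  · rw [ContinuousMap.mul_apply, norm_mul, mul_right_comm]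
    exact (mul_le_of_le_one_right (mul_nonneg (norm_nonneg _) (pxW s).le) (h.xi_le s)).trans (exW s)
  · refine (Wi.norm_cst _).le.trans (norm_le_pt fun s => ?_)
    rw [ContinuousMap.smul_apply, norm_smul, ContinuousMap.pow_apply, norm_pow, h.norm_gam]
    exact mul_le_mul_of_nonneg_left (pow_le_pow_left₀ (h.x_pos s).le (xr_mem' h.hX s).2 2)
      (norm_nonneg _)
  · refine nb hJ.b1 (fun s => inv_pos.2 (h.x_pos s))
      (fun s => div_pos (h.W_pos s) (mul_pos (h.x_pos s) (h.et_pos s))) (Or.inr fun s => ?_)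
      fun s => ?_
    · rw [h.norm_gam, mul_inv_cancel₀ (h.x_pos s).ne']; norm_num
    · rw [h.norm_gam, ← mul_div_assoc, mul_div_mul_left _ _ (h.x_pos s).ne']
      linarith [h.Wd_le s]
  · refine (Wi.norm_cst _).le.trans (norm_le_pt fun s => ?_)
    have h1 : ‖cst a s‖ = ‖a‖ := by simp [cst]
    have h2 : 1 ≤ X ^ 2 := by nlinarith [h.hR, h.hX]
    rw [h1]
    nlinarith [h.ha, norm_nonneg a]
  · have := nb (φ := 1) hJ.b2 one (fun s => div_pos (h.W_pos s) (h.et_pos s))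
      (Or.inr fun s => by simp) fun s => by simpa using (h.Wd_le s).trans (by norm_num)
    rwa [cm, map_one, one_mul] at this
  · rw [ContinuousMap.mul_apply, norm_mul, h.norm_gam]
    linarith [exW s]

theorem units {c : CI} (hj : IsJet c J) (hJ : InB R K g g' X a M J) (hM : M ≤ 1 / 100) :
    IsUnit (1 + cm (iv (etC R X a)) (J 0)) ∧
    IsUnit (1 + Nl.Qm (cm (iv (etC R X a)) (J 0)) (cm (iv (etC R X a)) (J 3))
      (Wi.cst _ (a • gam R X ^ 2) + cm (gam R X) (J 1))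
      (Wi.cst _ (iv (gam R X ^ 2 * etC R X a)))) := by
  obtain ⟨b0, b3, -, -, bZ, -⟩ := h.small hj hJ
  refine ⟨Nl.unit_of (b0.trans (by linarith)), Nl.unit_of (Nl.Qm_le4 (b0.trans (by linarith))
    (b3.trans (by linarith)) (bZ.trans (by linarith [h.ha])) ?_)⟩
  refine (Wi.norm_cst _).le.trans (norm_le_pt fun s => ?_)
  rw [h.iv_xxe, ContinuousMap.mul_apply, ContinuousMap.pow_apply, norm_mul, norm_pow, h.norm_xi]
  have h1 : (xr R X s)⁻¹ ≤ 1 / 23 := by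
    rw [inv_eq_one_div]; exact one_div_le_one_div_of_le (by norm_num) (h.x_ge s)
  have h2 := pow_le_pow_left₀ (inv_pos.2 (h.x_pos s)).le h1 2
  nlinarith [h.e_le s, norm_nonneg (iv (etC R X a) s), sq_nonneg (xr R X s)⁻¹]

theorem lin {D : Dat ℓ} (hs : Sol R ((X : ℂ), a, D) J) (hJ : InB R K g g' X a M J)
    (hM : M ≤ 1 / 100) : Lin R X a J (GJ R X a J) :=
  (lin_iff h.etC_ne _).2 ⟨hs.jet, (eq_iff h.gam_ne h.etC_ne (h.units hs.jet hJ hM).1
    (h.units hs.jet hJ hM).2).1 hs.eq⟩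

/-- `x^{-γ}` -/
def kx (γ : ℝ) : CI := cx h.hX (fun x => ((x ^ (-γ) : ℝ) : ℂ))
  (continuous_ofReal.comp_continuousOn (continuousOn_id.rpow_const fun x hx =>
    Or.inl (by have := h.hR.trans hx.1; simp only [id]; linarith)))

/-- normalised by the weak weight `x^{γ + n}` -/
def nz (γ : ℝ) (n : ℕ) (u : Wi (om ℓ)) : Wi (om (half ℓ)) :=
  Wi.cst _ (h.kx γ) * Wi.cst _ (iv (gam R X)) ^ n * tH ℓ u

theorem nz_pt (n : ℕ) (u : Wi (om ℓ)) (m : ℤ) (s : II) :
    ‖((om (half ℓ)).w m * Wi.co (h.nz γ n u) m) s‖ *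
      (xr R X s ^ n * Ww γ R (ℓ.l m / 2) (xr R X s)) = ‖Wi.co u m s‖ := by
  have hx := h.x_pos s
  rw [norm_w_mul, nz, ← map_pow, ← map_mul, Wi.co_cst_mul, Nl.co_tr, ContinuousMap.mul_apply,
    ContinuousMap.mul_apply, ContinuousMap.pow_apply, norm_mul, norm_mul, norm_pow, h.norm_xi, kx,
    cx_apply, norm_real, Real.norm_of_nonneg (Real.rpow_nonneg hx.le _), Ww, sig_xr h.hX,
    Real.rpow_neg hx.le, Real.exp_neg, inv_pow]
  have := (Real.rpow_pos_of_pos hx γ).ne'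
  change Real.exp (sig (2 * s) * (ℓ.l m / 2)) * _ * _ = _
  field_simp

/-- the nonlinear estimate -/
theorem G_le {c : CI} {ε μ : ℝ} (hj : IsJet c J) (hJ : InB R K g g' X a M J) (hj' : IsJet c J')
    (hJ' : InB R K g g' X a M J') (hε : ‖a‖ * X ^ 2 + 8 * M ≤ ε) (hε1 : ε ≤ 1 / 64)
    (hμ : ∀ i, ‖h.nz γ (![0, 1, 2, 0, 1, 0] i) (J i - J' i)‖ ≤ μ) :
    ‖h.nz γ 0 (GJ R X a J - GJ R X a J')‖ ≤ 400 * ε * μ := by
  have h8 : 8 * M ≤ ε := by nlinarith [norm_nonneg a, sq_nonneg X]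
  have hM : M ≤ 1 / 100 := by linarith
  obtain ⟨b0, b3, b5, b4, bZ, bV, bT, bS⟩ := h.small hj hJ
  obtain ⟨c0, c3, c5, c4, cZ, cV, -, -⟩ := h.small hj' hJ'
  have hμ0 : 0 ≤ μ := (norm_nonneg _).trans (hμ 0)
  have hx : Wi.cst (om (half ℓ)) (gam R X) * Wi.cst _ (iv (gam R X)) = 1 := by
    rw [← map_mul, mul_iv h.gam_ne, map_one]
  have he : ‖Wi.cst (om (half ℓ)) (iv (etC R X a))‖ ≤ 2 :=
    (Wi.norm_cst _).le.trans (norm_le_pt h.e_le)
  have L : ∀ {u u' : Wi (om ℓ)}, ‖cm (iv (etC R X a)) u‖ ≤ 8 * M →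
      ‖cm (iv (etC R X a)) u'‖ ≤ 8 * M → ‖h.nz γ 0 (u - u')‖ ≤ μ →
      Nl.Lp (Wi.cst _ (h.kx γ)) (tH ℓ (cm (iv (etC R X a)) u)) (tH ℓ (cm (iv (etC R X a)) u')) ε
        (2 * μ) := fun {u u'} p q r => ⟨norm_tH (p.trans h8), norm_tH (q.trans h8), by
    refine le_of_eq_of_le (congrArg _ ?_) (Nl.mul_le he r)
    simp only [nz, map_mul, map_sub, Nl.tr_cst]
    ring⟩
  have key := Nl.G_lip (k := Wi.cst _ (h.kx γ)) hx
    ((Wi.norm_cst _).le.trans (norm_le_pt h.xi_le)) he hε1 (L b0 c0 (hμ 0)) (L b3 c3 (hμ 3))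
    (L b5 c5 (hμ 5)) (S := tH ℓ (cm (iv (etC R X a) * iv (gam R X)) (J 4)))
    (S' := tH ℓ (cm (iv (etC R X a) * iv (gam R X)) (J' 4)))
    ⟨norm_tH (b4.trans h8), norm_tH (c4.trans h8), by
      refine le_of_eq_of_le (congrArg _ ?_) (Nl.mul_le he (hμ 4))
      simp only [nz, map_mul, map_sub, Nl.tr_cst, Matrix.cons_val]
      ring⟩
    ⟨norm_tH (bZ.trans hε), norm_tH (cZ.trans hε), by
      refine le_of_eq_of_le (congrArg _ ?_) ((hμ 1).trans (by linarith))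
      simp only [nz, map_mul, map_sub, map_add, Nl.tr_cst, Matrix.cons_val]
      linear_combination (Wi.cst _ (h.kx γ) * Wi.cst _ (iv (gam R X)) *
        (tH ℓ (J 1) - tH ℓ (J' 1))) * hx⟩
    ⟨norm_tH (bV.trans (by linarith)), norm_tH (cV.trans (by linarith)), by
      refine le_of_eq_of_le (congrArg _ ?_) ((hμ 2).trans (by linarith))
      simp only [nz, map_sub, map_add, Matrix.cons_val]
      ring⟩
    (le_of_eq_of_le (congrArg _ (by simp only [map_mul, Nl.tr_cst]; ring)) (norm_tH (bT.trans h8)))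
    (le_of_eq_of_le (congrArg _ (by
      simp only [map_mul, Nl.tr_cst]
      linear_combination (Wi.cst _ (iv (etC R X a)) * tH ℓ (J 4)) * hx)) (norm_tH (bS.trans h8)))
  refine le_of_eq_of_le (congrArg _ ?_) (key.trans (le_of_eq (by ring)))
  rw [nz, pow_zero, mul_one, map_sub, GJ, GJ,
    Nl.map_G _ _ _ _ (h.units hj hJ hM).1 (h.units hj hJ hM).2,
    Nl.map_G _ _ _ _ (h.units hj' hJ' hM).1 (h.units hj' hJ' hM).2, h.iv_xe, h.iv_xxe, Nl.tr_cst,
    map_mul (Wi.cst (om (half ℓ))), map_pow]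

/-- **the weak estimate**; `d m` majorises the data of the mode `m` -/
theorem core {D D' : Dat ℓ} {d : ℤ → ℝ} (h0 : 0 ≤ γ) (h1 : γ ≤ 7 / 8) (hℓ : ℓ.Sm (1 / 50) R)
    (hs : Sol R ((X : ℂ), a, D) J) (hJ : InB R K g g' X a M J) (hs' : Sol R ((X : ℂ), a, D') J')
    (hJ' : InB R K g g' X a M J') (hε : ‖a‖ * X ^ 2 + 8 * M ≤ 1 / 320000) (hd : Summable d)
    (d0 : ∀ m, 0 ≤ d m)
    (d1 : ∀ m : ℤ, (1 + (m : ℝ) ^ 2) * ‖dw (D - D') m‖ ≤ d m * Ww γ R (ℓ.l m / 2) (pt R X m))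
    (d2 : ∀ m : ℤ, (1 + (m : ℝ) ^ 2) * ‖Wi.co (D.2.1 - D'.2.1) m‖ ≤
      d m * ((X + |(m : ℝ)|) * Ww γ R (ℓ.l m / 2) X)) (i : Fin 6) :
    ‖h.nz γ (![0, 1, 2, 0, 1, 0] i) (J i - J' i)‖ ≤ 800 * ∑' m, d m := by
  have hM : M ≤ 1 / 100 := by nlinarith [norm_nonneg a, sq_nonneg X]
  have hR0 : 0 < R := by linarith [h.hR]
  have hL := Lin.sub (h.lin hs hJ hM) (h.lin hs' hJ' hM)
  set G := GJ R X a J - GJ R X a J' with hG
  set N : Fin 6 → Wi (om (half ℓ)) := fun i => h.nz γ (![0, 1, 2, 0, 1, 0] i) (J i - J' i) with hN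
  have hW := fun m : ℤ => (ld_Ww (X := X) γ (ℓ.l m / 2) hR0).pos
  have b1 : ∀ i, ‖N i‖ ≤ 400 * (‖h.nz γ 0 G‖ + ∑' m, d m) := by
    intro i
    refine Wi.norm_le_of (((Wi.hasSum_norm (h.nz γ 0 G)).add hd.hasSum).mul_left 400) fun m => ?_
    set β := ‖(om (half ℓ)).w m * Wi.co (h.nz γ 0 G) m‖ with hβ
    have β0 : 0 ≤ β := norm_nonneg _
    have m1 : 0 < 1 + (m : ℝ) ^ 2 := by positivity
    have hpt : pt R X m ∈ Icc R X := by
      have := h.hX
      unfold pt; split_ifs <;> constructor <;> linarith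
    have hXm : X ∈ Icc R X := ⟨by linarith [h.hX], le_rfl⟩
    refine norm_le_pt fun s => ?_
    have a1 := hL.mode (M := β + d m) (BC.sub hs.bc hs'.bc) h.hX
      (mestW h.hR h.hX h0 h1 h.ha m (t := ℓ.l m / 2) (by linarith [ℓ.nonneg m]) (by
        have := hℓ m
        rw [div_le_iff₀ two_pos]
        exact this.trans (le_of_eq (by field_simp; ring))))
      (add_nonneg β0 (d0 m)) (fun s => by
        rw [← h.nz_pt (γ := γ) 0 G m s, pow_zero, one_mul]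
        exact mul_le_mul_of_nonneg_right ((ContinuousMap.norm_coe_le_norm _ s).trans
          (le_add_of_nonneg_right (d0 m))) (hW m _ (xr_mem' h.hX s)).le)
      (by
        rw [← mul_div_assoc, le_div_iff₀' m1]
        exact (d1 m).trans (mul_le_mul_of_nonneg_right (le_add_of_nonneg_left β0) (hW m _ hpt).le))
      (by
        rw [← mul_div_assoc, le_div_iff₀' m1]
        exact (d2 m).trans (mul_le_mul_of_nonneg_right (le_add_of_nonneg_left β0)
          (mul_nonneg (by linarith [abs_nonneg (m : ℝ), h.hX]) (hW m _ hXm).le))) i s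
    have e : wF (Ww γ R (ℓ.l m / 2)) i (xr R X s) =
        xr R X s ^ (![0, 1, 2, 0, 1, 0] i : ℕ) * Ww γ R (ℓ.l m / 2) (xr R X s) := by
      fin_cases i <;> simp [wF]
    rw [e, Pi.sub_apply, ← h.nz_pt (γ := γ) (![0, 1, 2, 0, 1, 0] i)] at a1
    refine le_of_mul_le_mul_right (a1.trans (le_of_eq (by ring)))
      (mul_pos (pow_pos (h.x_pos s) _) (hW m _ (xr_mem' h.hX s)))
  have b2 := h.G_le (γ := γ) hs.jet hJ hs'.jet hJ' hε (by norm_num) (norm_le_pi_norm N)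
  have b0 : 0 ≤ ∑' m, d m := tsum_nonneg d0
  have b3 : ‖N‖ ≤ 400 * (‖h.nz γ 0 G‖ + ∑' m, d m) :=
    (pi_norm_le_iff_of_nonneg (by positivity)).2 b1
  exact (norm_le_pi_norm N i).trans (by linarith)

theorem wc {N : ℝ} (hN : ∀ i, ‖h.nz (7 / 8) (![0, 1, 2, 0, 1, 0] i) (J i - J' i)‖ ≤ N) :
    Wc R X J J' N := fun i =>
  ⟨_, Wi.summable_w (h.nz (7 / 8) (![0, 1, 2, 0, 1, 0] i) (J i - J' i)),
    (Wi.norm_eq _).symm.trans_le (hN i), fun m s => by
      rw [← h.nz_pt (γ := 7 / 8) (![0, 1, 2, 0, 1, 0] i) (J i - J' i) m s, Ww, sig_xr h.hX,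
        Real.exp_neg, mul_div_assoc]
      refine le_of_eq_of_le ?_ (mul_le_mul_of_nonneg_right (ContinuousMap.norm_coe_le_norm _ s)
        (by have := h.x_pos s; positivity))
      field_simp⟩

end Ez

end Wk

open Wk in
theorem wkS_holds : WkS := by
  intro g g' hg
  refine ⟨23, 1 / 50, 1 / 5120000, 1 / 640000, 10000, by norm_num, by norm_num, by norm_num,
    by norm_num, fun ℓ R K X a D D' J J' γ hR hℓ hX hK hKX ha hs hJ hs' hJ' hb hγ hH => ?_⟩
  have h : Ez R K g g' X a := ⟨hR, by linarith, hK, hKX, by linarith [hg.1],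
    by linarith [hg.1, hg.2.2], hg.2.1.le, by linarith⟩
  have hX0 : 0 < X := by linarith
  have γ0 : ∀ m, 0 ≤ γ m := fun m => le_trans (by positivity) (hH m)
  set A := X ^ (-7 / 8 : ℝ) with hA
  set B := X ^ (-15 / 8 : ℝ) with hB
  have A0 : 0 < A := Real.rpow_pos_of_pos hX0 _
  have B0 : 0 < B := Real.rpow_pos_of_pos hX0 _
  have eA : A * X ^ (7 / 8 : ℝ) = 1 := by
    rw [hA, ← Real.rpow_add hX0]; norm_num
  have eB : B * (X * X ^ (7 / 8 : ℝ)) = 1 := by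
    rw [hB, ← Real.rpow_one_add' hX0.le (by norm_num), ← Real.rpow_add hX0]; norm_num
  set p := ‖D.2.2.1 - D'.2.2.1‖ with hp
  set q := ‖D.2.2.2 - D'.2.2.2‖ with hq
  have p0 : 0 ≤ p := norm_nonneg _
  have q0 : 0 ≤ q := norm_nonneg _
  have hsum : HasSum (fun m : ℤ => B * γ m + ((if m = 1 then 6 * A * p else 0) +
      if m = -1 then 6 * A * q else 0)) (B * ∑' m, γ m + (6 * A * p + 6 * A * q)) :=
    (hγ.hasSum.mul_left B).add ((hasSum_ite_eq 1 _).add (hasSum_ite_eq (-1) _))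
  have i0 : ∀ m : ℤ, 0 ≤ (if m = 1 then 6 * A * p else 0) + if m = -1 then 6 * A * q else 0 :=
    fun m => add_nonneg (by split_ifs <;> positivity) (by split_ifs <;> positivity)
  have hW : ∀ m : ℤ, X ^ (7 / 8 : ℝ) * Real.exp (-(ℓ.l m / 2)) ≤ Ww (7 / 8) R (ℓ.l m / 2) X :=
    fun m => mul_le_mul_of_nonneg_left (Real.exp_le_exp.2 (neg_le_neg (mul_le_of_le_one_left
      (by linarith [ℓ.nonneg m]) (sub_le_self _ (pow_nonneg (le_max_right _ _) _)))))
      (by positivity)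
  have hW1 : ∀ m : ℤ, |(m : ℝ)| = 1 → 1 ≤ 3 * A * Ww (7 / 8) R (ℓ.l m / 2) X := fun m hm => by
    have a1 := hℓ m
    rw [hm, le_div_iff₀ (by linarith)] at a1
    have a2 := Real.add_one_le_exp (-(ℓ.l m / 2))
    have a3 : ℓ.l m ≤ 1 := by nlinarith [ℓ.nonneg m]
    have a4 := mul_le_mul_of_nonneg_left (hW m) A0.le
    rw [← mul_assoc, eA] at a4
    linarith
  refine h.wc fun i => (h.core (by norm_num) le_rfl hℓ hs hJ hs' hJ' (by linarith) hsum.summable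
    (fun m => add_nonneg (mul_nonneg B0.le (γ0 m)) (i0 m)) (fun m => ?_) (fun m => ?_) i).trans ?_
  · have W0 : 0 ≤ Ww (7 / 8) R (ℓ.l m / 2) (pt R X m) := by
      have : 0 ≤ pt R X m := by unfold pt; split_ifs <;> linarith
      unfold Ww; positivity
    have Bγ := mul_nonneg (mul_nonneg B0.le (γ0 m)) W0
    by_cases hm : 2 ≤ |m|
    · have : dw (D - D') m = 0 := by simp [dw, hm, hb]
      rw [this, norm_zero, mul_zero]
      exact mul_nonneg (add_nonneg (mul_nonneg B0.le (γ0 m)) (i0 m)) W0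
    · rw [pt, if_neg hm] at Bγ ⊢
      rcases small_cases hm with rfl | rfl | rfl
      · simpa [dw] using Bγ
      · have := mul_le_mul_of_nonneg_left (hW1 1 (by simp)) p0
        have e : dw (D - D') 1 = D.2.2.1 - D'.2.2.1 := by simp [dw]
        rw [e, if_pos rfl, if_neg (by decide)]
        push_cast
        linarith
      · have := mul_le_mul_of_nonneg_left (hW1 (-1) (by simp)) q0
        have e : dw (D - D') (-1) = D.2.2.2 - D'.2.2.2 := by simp [dw]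
        rw [e, if_neg (by decide), if_pos rfl]
        push_cast
        linarith
  · have a1 := mul_le_mul_of_nonneg_right (hH m) (Real.exp_pos (-(ℓ.l m / 2))).le
    rw [mul_right_comm, mul_assoc ((1 + |(m : ℝ)|) ^ 2), ← Real.exp_add, add_neg_cancel,
      Real.exp_zero, mul_one] at a1
    have a2 : 1 + (m : ℝ) ^ 2 ≤ (1 + |(m : ℝ)|) ^ 2 := by
      rw [← sq_abs]; nlinarith [abs_nonneg (m : ℝ)]
    refine (mul_le_mul_of_nonneg_right a2 (norm_nonneg _)).trans (a1.trans ?_)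
    calc γ m * Real.exp (-(ℓ.l m / 2))
        = B * γ m * (X * (X ^ (7 / 8 : ℝ) * Real.exp (-(ℓ.l m / 2)))) := by
          linear_combination (-(γ m * Real.exp (-(ℓ.l m / 2)))) * eB
      _ ≤ _ := mul_le_mul (le_add_of_nonneg_right (i0 m)) (mul_le_mul
          (le_add_of_nonneg_right (abs_nonneg _)) (hW m) (by positivity) (by positivity))
          (by positivity) (add_nonneg (mul_nonneg B0.le (γ0 m)) (i0 m))
  · rw [hsum.tsum_eq]
    have : 0 ≤ B * ∑' m, γ m := mul_nonneg B0.le (tsum_nonneg γ0)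
    have := mul_nonneg A0.le p0
    have := mul_nonneg A0.le q0
    linarith

end Crest.Agent.N250.B1

end
end

-- ▼ part N250/B1/Drift2
section

/-! # Row 250, block B1, S10 (helper53): the drift statement -/

set_option autoImplicit false

namespace Crest.Agent.N250.B1

theorem driftS_holds : DriftS := driftS_of_wk wkS_holds

end Crest.Agent.N250.B1
end

-- ▼ part N250/R0/LGood

/-!
# Row 250 (helper84): the ends are good
-/

set_option autoImplicit false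
open Set Filter Topology
open Crest.GeometryTopology.MCF

noncomputable section

namespace Crest.Agent.N250.R0

open B1

variable {S : Mv}

theorem St.b0_eq' (T : St S) (j : Fin T.p) : T.b0 j = S9.b0 T.e j T.R := by
  rw [S9.b0_eq_four, St.b0]
  simp only [T.vS_real, S9.vS]

theorem goodL : GoodL := by
  intro S e
  by_cases hS : S.IsShr
  swap
  · exact Ev.of_forall fun T _ => absurd T.shr hS
  obtain ⟨R1, K1, c1, e0, hc1, he0, hf⟩ := Em.fm_of driftS_holds (Ch := 6015) (by norm_num)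
  refine ⟨min e0 (1 / 100), K1, c1, by positivity, hc1, fun k _ h2 h3 h4 => ?_⟩
  have hi := eventually_all.2 fun j => S9.ident hS e j Em.ex_138 k.ε_pos k.ε1_pos k.C_pos.le
  obtain ⟨R2, hR2⟩ := eventually_atTop.1 hi
  refine ⟨max R1 R2, fun T e1 e2 e3 => ?_⟩
  subst e1 e2
  have hi := hR2 T.R ((le_max_right _ _).trans e3)
  obtain ⟨c, CD, C, hF⟩ := hf T.ℓ T.R T.k.K1 T.k.c0 T.k.ε T.k.ε1 T.k.C T.U ((le_max_left _ _).trans e3)
    h3 T.k.c0_pos h4 (h2.trans (min_le_left _ _)) T.k.ε_pos T.k.C_pos.le T.k.small (fun _ => rfl) T.hU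
  refine ⟨⟨c, CD, C, hF⟩, h2.trans (min_le_right _ _), fun j => ?_, fun j => ?_, fun z hz => ?_⟩
  · rw [T.b0_eq']; exact (hi j).1
  · rw [T.b0_eq']; exact (hi j).2 _ T.k.K1_ge T.k.small' _ _ _ T.hU T.hU0
  · have h3 := Rg.IsJet.co3 (T.hU.sol z hz).jet
    have hB := Cj.inB_of' T.hU hF.K_pos hF.C0_nonneg hF.sm' hz
    refine ⟨Rg.regJ Em.ex_138 hF.sz.hR hF.sz.hK hF.sz.he hz h3 hB, fun s θ => Or.inl ?_⟩
    have h1 := (Rg.reg_q Em.ex_138 hF.sz.hR hF.sz.hK hF.sz.he hz h3 hB s θ).1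
    have h2 := (Rg.pt_of_dom hF.sz.hR T.k.K1_ge hz s).re_pos
    simp only [Complex.mul_re, Complex.re_ofNat, Complex.im_ofNat, zero_mul, sub_zero]
    linarith

end Crest.Agent.N250.R0

end
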