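import Crest.Agent.N250.Min.Stm2
import Crest.Agent.N250.Min.Stm
import Crest.Agent.N250.Cv.Jet
import Crest.Agent.N250.SL.Stm
import Crest.Agent.N250.T.CFl
import Crest.Agent.N250.T.Same
import Crest.Agent.N250.FV.Hu0
import Crest.Agent.N250.T.FsC
import Crest.Agent.N250.FV.Main
import Crest.Agent.N250.T.SelfSim
import Crest.Agent.N250.Cv.Api
import Crest.Agent.N250.A.Stm
import Crest.Agent.N250.Tr.Inst2
import Crest.Agent.N250.A.CS0
import Crest.Agent.N250.E.Law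
import Crest.Agent.N250.Min.Bl_Mg
import Crest.Agent.N250.A.Cost_Mg
import Crest.Agent.N250.A.AltII_Mg
import Crest.Agent.N250.A.A1
import Crest.Agent.N250.A.KAt_Mg
import Crest.Agent.N250.A.CS
import Crest.Agent.N250.A.W1_Mg
import Crest.Agent.N250.Tb.GR
import Crest.Agent.N250.A.Good
import Crest.Agent.N250.R.Stm
import Crest.Agent.N250.T.Reach
import Crest.Agent.N250.R.Step
import Crest.Agent.N250.Sg.Sup
import Crest.Agent.N250.T.CMu_Mg
import Crest.Agent.N250.R0.Stm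

-- ▼ part N250/Min/Fl
section

/-!
# Row 250 (helper32): flat rigidity `FlS`
-/

set_option autoImplicit false
open MeasureTheory Set Filter Topology Metric
open scoped ContDiff InnerProductSpace
open Crest.GeometryTopology.MCF

noncomputable section

namespace Crest.Agent.N250.Min

namespace FlP

variable {F : Mv} {t : ℝ}

/-- a flat slice contains the small tangent discs -/
theorem disc (hF : F.Reg) (hP : F.Proper ({(0 : E)}ᶜ ×ˢ {t})) (hA : ∀ x ∈ F.sl t, F.A2 (x, t) = 0)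
    {x z : E} (hx : x ∈ F.sl t) (hz : ⟪F.n (x, t), z⟫_ℝ = 0) (hs : 2 * ‖z‖ < ‖x‖) :
    x + z ∈ F.sl t ∧ F.n (x + z, t) = F.n (x, t) := by
  have hK : IsCompact (F.sl t ∩ closedBall x (2 * ‖z‖)) :=
    cpt hP (isCompact_closedBall _ _) fun y hy => ⟨fun e : y = 0 => by
      rw [e, mem_closedBall, dist_zero_left] at hy; linarith, rfl⟩
  have h1 : ∀ k : ℝ, ∃ y, 0 < k → 4 * k * ‖z‖ ≤ 1 → y ∈ F.sl t ∩ closedBall x (2 * ‖z‖) ∧
      ‖y - (x + z)‖ ≤ 3 * k * ‖z‖ ^ 2 * ‖F.n (x, t)‖ ∧ ‖F.n (y, t) - F.n (x, t)‖ ≤ 2 * k * ‖z‖ := fun k => by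
    by_cases h : 0 < k ∧ 4 * k * ‖z‖ ≤ 1
    · obtain ⟨y, y1, y2, y3, y4, y5⟩ := lift hF hx hz le_rfl h.1 h.2 hK fun y hy => by
        rw [hA y hy.1]; norm_num
      refine ⟨y, fun _ _ => ⟨⟨y1, mem_closedBall_iff_norm.2 y2⟩, ?_, y4⟩⟩
      have e : y - (x + z) = ⟪F.n (x, t), y - x⟫_ℝ • F.n (x, t) := by
        rw [← y3, Mv.PL]; abel
      rw [e, norm_smul, Real.norm_eq_abs]
      exact mul_le_mul_of_nonneg_right y5 (norm_nonneg _)
    · exact ⟨0, fun a b => (h ⟨a, b⟩).elim⟩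
  choose y hy using h1
  have e0 : ∀ᶠ k in 𝓝[>] (0 : ℝ), 0 < k ∧ 4 * k * ‖z‖ ≤ 1 := by
    refine Filter.Eventually.and self_mem_nhdsWithin (mem_nhdsWithin_of_mem_nhds ?_)
    exact (by fun_prop : Continuous fun k : ℝ => 4 * k * ‖z‖).continuousAt.eventually_le_const (by simp)
  have e1 := e0.mono fun k hk => hy k hk.1 hk.2
  have z0 : ∀ a b : ℝ, Tendsto (fun k : ℝ => a * k * b) (𝓝[>] 0) (𝓝 0) := fun a b =>
    ((by fun_prop : Continuous fun k : ℝ => a * k * b).tendsto' 0 0 (by simp)).mono_left nhdsWithin_le_nhds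
  have t1 : Tendsto y (𝓝[>] 0) (𝓝 (x + z)) :=
    tendsto_iff_norm_sub_tendsto_zero.2 (squeeze_zero' (Eventually.of_forall fun _ => norm_nonneg _)
      (e1.mono fun k hk => hk.2.1.trans_eq (mul_assoc _ _ _)) (z0 3 _))
  have t2 : Tendsto (fun k => F.n (y k, t)) (𝓝[>] 0) (𝓝 (F.n (x, t))) :=
    tendsto_iff_norm_sub_tendsto_zero.2 (squeeze_zero' (Eventually.of_forall fun _ => norm_nonneg _)
      (e1.mono fun k hk => hk.2.2) (z0 2 _))
  have hm := (hK.isClosed.mem_of_tendsto t1 (e1.mono fun k hk => hk.1)).1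
  exact ⟨hm, tendsto_nhds_unique ((cont_n hF _ hm).tendsto.comp
    (tendsto_nhdsWithin_iff.2 ⟨t1, e1.mono fun k hk => hk.1.1⟩)) t2⟩

/-- a flat slice contains the tangent rays that miss the origin -/
theorem ray (hF : F.Reg) (hP : F.Proper ({(0 : E)}ᶜ ×ˢ {t})) (hA : ∀ x ∈ F.sl t, F.A2 (x, t) = 0)
    {x v : E} (hx : x ∈ F.sl t) (hv : ⟪F.n (x, t), v⟫_ℝ = 0) (h0 : ∀ s : ℝ, 0 ≤ s → x + s • v ≠ 0)
    {s : ℝ} (hs : 0 ≤ s) : x + s • v ∈ F.sl t ∧ F.n (x + s • v, t) = F.n (x, t) := by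
  have st : ∀ a b : ℝ, 2 * ‖(b - a) • v‖ < ‖x + a • v‖ →
      (x + a • v ∈ F.sl t ∧ F.n (x + a • v, t) = F.n (x, t)) →
      (x + b • v ∈ F.sl t ∧ F.n (x + b • v, t) = F.n (x, t)) := fun a b h ha => by
    have := disc hF hP hA ha.1 (z := (b - a) • v) (by rw [ha.2, inner_smul_right, hv, mul_zero]) h
    rwa [ha.2, add_assoc, ← add_smul, add_sub_cancel] at this
  refine isPreconnected_Ici.induction₂' (fun a b : ℝ =>
    (x + a • v ∈ F.sl t ∧ F.n (x + a • v, t) = F.n (x, t)) →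
      (x + b • v ∈ F.sl t ∧ F.n (x + b • v, t) = F.n (x, t))) (fun a ha => ?_)
    (fun _ _ _ _ _ _ h h' => h' ∘ h) (self_mem_Ici (a := (0 : ℝ))) hs (by simpa using hx)
  have p := norm_pos_iff.2 (h0 a ha)
  refine mem_nhdsWithin_of_mem_nhds (Filter.Eventually.and ?_ ?_)
  · exact (ContinuousAt.eventually_lt (f := fun b : ℝ => 2 * ‖(b - a) • v‖) (g := fun _ => ‖x + a • v‖)
      (by fun_prop) (by fun_prop) (by simpa using p)).mono fun b hb => st a b hb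
  · exact (ContinuousAt.eventually_lt (f := fun b : ℝ => 2 * ‖(a - b) • v‖) (g := fun b => ‖x + b • v‖)
      (by fun_prop) (by fun_prop) (by simpa using p)).mono fun b hb => st b a hb

theorem exists_perp (a b : E) : ∃ v : E, v ≠ 0 ∧ ⟪a, v⟫_ℝ = 0 ∧ ⟪b, v⟫_ℝ = 0 := by
  obtain ⟨v, hv, h0⟩ := Submodule.exists_mem_ne_zero_of_ne_bot (LinearMap.ker_ne_bot_of_finrank_lt
    (f := (innerₛₗ ℝ a).prod (innerₛₗ ℝ b)) (by simp))
  exact ⟨v, h0, congrArg Prod.fst hv, congrArg Prod.snd hv⟩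

end FlP

open FlP in
theorem flS_holds : FlS := by
  intro F t c hF hc hP h0 h x hx y hy
  have hA : ∀ x ∈ F.sl t, F.A2 (x, t) = 0 := fun x hx => (h x hx).1
  have key : ∀ v : E, v ≠ 0 → ⟪F.n (x, t), v⟫_ℝ = 0 → ⟪F.n (y, t), v⟫_ℝ = 0 →
      (∀ s : ℝ, 0 ≤ s → x + s • v ≠ 0) → (∀ s : ℝ, 0 ≤ s → y + s • v ≠ 0) →
      ⟪y - x, F.n (x, t)⟫_ℝ = 0 := fun v v0 h1 h2 h3 h4 => by
    by_contra hn
    have d0 := abs_pos.2 hn
    have v1 := norm_pos_iff.2 v0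
    obtain ⟨s, s0, hs⟩ : ∃ s : ℝ, 0 ≤ s ∧
        s * ‖v‖ = ‖x‖ + (‖y - x‖ ^ 2 + 1) / (2 * c * |⟪y - x, F.n (x, t)⟫_ℝ|) :=
      ⟨_ / ‖v‖, by positivity, div_mul_cancel₀ _ v1.ne'⟩
    obtain ⟨a1, a2⟩ := ray hF hP hA hx h1 h3 s0
    have a3 := (reach_iff hF (p := (x + s • v, t)) a1 (by positivity)).1 (h _ a1).2 _
      (ray hF hP hA hy h2 h4 s0).1
    rw [a2, add_sub_add_right_eq_sub] at a3
    have a4 : s * ‖v‖ ≤ ‖x + s • v‖ + ‖x‖ := by
      rw [← norm_smul_of_nonneg s0]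
      simpa only [add_sub_cancel_left] using norm_sub_le (x + s • v) x
    have a5 : (‖y - x‖ ^ 2 + 1) / (2 * c * |⟪y - x, F.n (x, t)⟫_ℝ|) ≤ ‖x + s • v‖ := by linarith
    rw [div_le_iff₀ (by positivity)] at a5
    linarith
  obtain ⟨v, v0, h1, h2⟩ := exists_perp (F.n (x, t)) (F.n (y, t))
  have x0 : x ≠ 0 := fun e => h0 (e ▸ hx)
  have y0 : y ≠ 0 := fun e => h0 (e ▸ hy)
  have two : ∀ {w : E} {a b : ℝ}, 0 ≤ a → 0 ≤ b → w + a • v = 0 → w + b • -v = 0 → w = 0 :=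
    fun {w a b} a0 b0 e1 e2 => by
      have e3 : (a + b) • v = 0 := by
        rw [smul_neg, ← sub_eq_add_neg, sub_eq_zero] at e2
        rw [add_smul, add_comm, ← e2, e1]
      have e4 := (smul_eq_zero.1 e3).resolve_right v0
      rwa [show a = 0 by linarith, zero_smul, add_zero] at e1
  have on : ∀ {w u : E} {a : ℝ}, ⟪F.n (x, t), u⟫_ℝ = 0 → w + a • u = 0 → ⟪w, F.n (x, t)⟫_ℝ = 0 :=
    fun {w u a} hu e => by
      rw [eq_neg_of_add_eq_zero_left e, real_inner_comm, inner_neg_right, inner_smul_right, hu, mul_zero,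
        neg_zero]
  have h1' : ⟪F.n (x, t), -v⟫_ℝ = 0 := by rw [inner_neg_right, h1, neg_zero]
  have h2' : ⟪F.n (y, t), -v⟫_ℝ = 0 := by rw [inner_neg_right, h2, neg_zero]
  by_contra hn
  have k1 := mt (fun k : _ ∧ _ => key v v0 h1 h2 k.1 k.2) hn
  have k2 := mt (fun k : _ ∧ _ => key (-v) (neg_ne_zero.2 v0) h1' h2' k.1 k.2) hn
  simp only [not_and_or, not_forall, not_not, exists_prop] at k1 k2
  rcases k1 with ⟨a, a0, e1⟩ | ⟨a, a0, e1⟩ <;> rcases k2 with ⟨b, b0, e2⟩ | ⟨b, b0, e2⟩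
  · exact x0 (two a0 b0 e1 e2)
  · exact hn (by rw [inner_sub_left, on h1 e1, on h1' e2, sub_zero])
  · exact hn (by rw [inner_sub_left, on h1 e1, on h1' e2, sub_zero])
  · exact y0 (two a0 b0 e1 e2)

end Crest.Agent.N250.Min

end
end

-- ▼ part N250/Min/Sph
section

/-!
# Row 250 (helper95): `SphS`, points of converging surfaces on converging spheres
-/

set_option autoImplicit false
open MeasureTheory Set Filter Topology Metric
open scoped ContDiff InnerProductSpace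
open Crest.GeometryTopology.MCF

noncomputable section

namespace Crest.Agent.N250.Min

open Cv Tr

namespace Sph

theorem dir {g u : E} (hg : g ≠ 0) (h : u - ⟪‖g‖⁻¹ • g, u⟫_ℝ • ‖g‖⁻¹ • g ≠ 0) :
    ∃ v : E, ‖v‖ = ‖u‖ ∧ ⟪u, v⟫_ℝ = 0 ∧ 0 < ⟪g, v⟫_ℝ := by
  have hu : 0 < ‖u‖ := norm_pos_iff.2 (by rintro rfl; simp at h)
  have g0 := norm_pos_iff.2 hg
  set τ := g - (⟪u, g⟫_ℝ / ‖u‖ ^ 2) • u with hτ
  have h1 : ⟪u, τ⟫_ℝ = 0 := by
    rw [hτ, inner_sub_right, inner_smul_right, real_inner_self_eq_norm_sq]; field_simp; ring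
  have h2 : ⟪g, τ⟫_ℝ = ‖τ‖ ^ 2 := by
    rw [← real_inner_self_eq_norm_sq]
    conv_rhs => rw [hτ, inner_sub_left, ← hτ, real_inner_smul_left, h1, mul_zero, sub_zero]
  have h3 : 0 < ‖τ‖ := norm_pos_iff.2 fun e => h (by
    obtain ⟨c, hc⟩ : ∃ c : ℝ, g = c • u := ⟨_, sub_eq_zero.1 e⟩
    have c0 : c ≠ 0 := by rintro rfl; simp at hc; exact hg hc
    have n : ‖g‖ ^ 2 = c ^ 2 * ‖u‖ ^ 2 := by rw [hc, norm_smul, mul_pow, Real.norm_eq_abs, sq_abs]
    have i : ⟪g, u⟫_ℝ = c * ‖u‖ ^ 2 := by rw [hc, real_inner_smul_left, real_inner_self_eq_norm_sq]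
    rw [real_inner_smul_left, smul_smul, i]
    conv_lhs => rw [hc, smul_smul, ← hc]
    rw [show ‖g‖⁻¹ * (c * ‖u‖ ^ 2) * ‖g‖⁻¹ * c = 1 by field_simp; linarith, one_smul, sub_self])
  refine ⟨(‖u‖ / ‖τ‖) • τ, ?_, by rw [inner_smul_right, h1, mul_zero], ?_⟩
  · rw [norm_smul, Real.norm_of_nonneg (by positivity)]; field_simp
  · rw [inner_smul_right, h2]; positivity

/-- great circles on the spheres about `p` -/
def gc (p u v : E) (ρ s : ℝ) : E := p + (ρ / ‖u‖) • (Real.cos s • u + Real.sin s • v)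

theorem gc_dist {p u v : E} (hu : 0 < ‖u‖) (hv : ‖v‖ = ‖u‖) (huv : ⟪u, v⟫_ℝ = 0) {ρ : ℝ} (hρ : 0 ≤ ρ) (s : ℝ) :
    dist (gc p u v ρ s) p = ρ := by
  have : ‖Real.cos s • u + Real.sin s • v‖ = ‖u‖ := by
    rw [← sq_eq_sq₀ (norm_nonneg _) hu.le, norm_add_sq_real, real_inner_smul_left, real_inner_smul_right, huv,
      norm_smul, norm_smul, mul_pow, mul_pow, Real.norm_eq_abs, Real.norm_eq_abs, sq_abs, sq_abs, hv]
    linear_combination ‖u‖ ^ 2 * Real.cos_sq_add_sin_sq s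
  rw [gc, dist_eq_norm, add_sub_cancel_left, norm_smul, this, Real.norm_of_nonneg (by positivity)]
  field_simp

theorem gc_cont (p u v : E) : Continuous fun q : ℝ × ℝ => gc p u v q.1 q.2 := by unfold gc; fun_prop

end Sph

open Sph in
theorem sphS_holds : SphS := by
  intro α l Fk F Ω H x p t tk ρk hΩ hM hPL htk hρ
  obtain ⟨W, φ, φk, hp, h, hk, ht⟩ := H.near _ hΩ hM
  rw [Mv.PL, h.n_eq _ hp hM] at hPL
  have hu : 0 < ‖x - p‖ := norm_pos_iff.2 fun e => hPL (by simp [e])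
  obtain ⟨v, hv, huv, hgv⟩ := dir (h.ne _ hp) hPL
  rw [dist_eq_norm] at hρ
  have g0 : gc p (x - p) v ‖x - p‖ 0 = x := by simp [gc, hu.ne']
  obtain ⟨δ, hδ, hW⟩ := Metric.nhds_basis_closedBall.mem_iff.1 (h.isOpen.mem_nhds hp)
  have hin : ∀ᶠ k in l, ∀ y ∈ closedBall x δ, (y, tk k) ∈ W := by
    filter_upwards [htk.eventually (closedBall_mem_nhds _ hδ)] with k a y hy
    exact hW (by rw [← closedBall_prod_same]; exact ⟨hy, a⟩)
  have hJ : ∀ s, gc p (x - p) v ‖x - p‖ s ∈ closedBall x δ →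
      Tendsto (fun k => φk k (gc p (x - p) v (ρk k) s, tk k)) l (𝓝 (φ (gc p (x - p) v ‖x - p‖ s, t))) :=
    fun s hs => (jc_of_tlu h.isOpen h.sm (hk.mono fun _ a => a.sm) ht
      (hW (by rw [← closedBall_prod_same]; exact ⟨hs, mem_closedBall_self hδ.le⟩))
      ((((gc_cont p (x - p) v).tendsto (_, s)).comp (hρ.prodMk_nhds tendsto_const_nhds)).prodMk_nhds htk)).val
  obtain ⟨xk, h1, h2⟩ := exists_tendsto_of_closed (l := l) (x := x)
    (S := fun k => (closedBall x δ ∩ (fun y => φk k (y, tk k)) ⁻¹' {0}) ∩ sphere p (ρk k)) (by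
      filter_upwards [hk, hin] with k a b
      exact ((a.sm.continuousOn.comp (Continuous.prodMk_left _).continuousOn b
        ).preimage_isClosed_of_isClosed isClosed_closedBall isClosed_singleton).inter isClosed_sphere) (by
      intro ε hε
      have hd : HasDerivAt (fun s : ℝ => φ (gc p (x - p) v ‖x - p‖ s, t)) ⟪gradX φ x t, v⟫_ℝ 0 := by
        have e1 : HasDerivAt (fun s : ℝ => ((gc p (x - p) v ‖x - p‖ s, t) : ST)) (v, 0) 0 := by
          simpa [gc, hu.ne'] using ((((Real.hasDerivAt_cos 0).smul_const (x - p)).add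
            ((Real.hasDerivAt_sin 0).smul_const v)).const_add p).prodMk (hasDerivAt_const (0 : ℝ) t)
        have e2 := (loc_diff h hp).hasFDerivAt.comp_hasDerivAt_of_eq (0 : ℝ) e1 (by rw [g0])
        rwa [fd_sp (loc_diff h hp)] at e2
      have h0 : φ (gc p (x - p) v ‖x - p‖ 0, t) = 0 := by rw [g0]; exact (h.mem _ hp).1 hM
      have hs : ∀ᶠ s in 𝓝[≠] (0 : ℝ), 0 < slope (fun s : ℝ => φ (gc p (x - p) v ‖x - p‖ s, t)) 0 s :=
        (hasDerivAt_iff_tendsto_slope.1 hd).eventually (lt_mem_nhds hgv)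
      have hsm : ∀ᶠ q : ℝ × ℝ in 𝓝 (‖x - p‖, 0), dist (gc p (x - p) v q.1 q.2) x < min ε δ := by
        have := (gc_cont p (x - p) v).tendsto (‖x - p‖, 0)
        rw [g0] at this
        exact this.eventually (ball_mem_nhds _ (lt_min hε hδ))
      obtain ⟨η, hη, hb'⟩ := Metric.nhds_basis_closedBall.eventually_iff.1 hsm
      rw [eventually_nhdsWithin_iff] at hs
      obtain ⟨r, hr, hb⟩ := Metric.nhds_basis_closedBall.eventually_iff.1 (hs.and (closedBall_mem_nhds _ hη))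
      have hdist : ∀ ρ ∈ closedBall ‖x - p‖ η, ∀ s ∈ Icc (-r) r, dist (gc p (x - p) v ρ s) x < min ε δ :=
        fun ρ hρ s hs => hb' (x := (ρ, s)) (by
          rw [← closedBall_prod_same]
          exact ⟨hρ, (hb (by simpa [Real.dist_eq, abs_le] using hs)).2⟩)
      have hball : ∀ ρ ∈ closedBall ‖x - p‖ η, ∀ s ∈ Icc (-r) r, gc p (x - p) v ρ s ∈ closedBall x δ :=
        fun ρ hρ s hs => ((hdist ρ hρ s hs).trans_le (min_le_right _ _)).le
      have hpos : 0 < φ (gc p (x - p) v ‖x - p‖ r, t) := by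
        have := (hb (x := r) (by simp [abs_of_pos hr])).1 hr.ne'
        rw [slope_def_field, h0, sub_zero, sub_zero] at this
        exact (div_pos_iff_of_pos_right hr).1 this
      have hneg : φ (gc p (x - p) v ‖x - p‖ (-r), t) < 0 := by
        have := (hb (x := -r) (by simp [abs_of_pos hr])).1 (neg_ne_zero.2 hr.ne')
        rw [slope_def_field, h0, sub_zero, sub_zero, div_neg, neg_pos] at this
        by_contra hc
        exact absurd this (not_lt.2 (div_nonneg (not_lt.1 hc) hr.le))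
      filter_upwards [hk, hin, hρ.eventually (closedBall_mem_nhds _ hη), hρ.eventually (lt_mem_nhds hu),
        (hJ _ (hball _ (mem_closedBall_self hη.le) r ⟨by linarith, le_rfl⟩)).eventually (lt_mem_nhds hpos),
        (hJ _ (hball _ (mem_closedBall_self hη.le) (-r) ⟨le_rfl, by linarith⟩)).eventually
          (gt_mem_nhds hneg)] with k a b b1 b2 c d
      have hc : ContinuousOn (fun s : ℝ => φk k (gc p (x - p) v (ρk k) s, tk k)) (Icc (-r) r) :=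
        a.sm.continuousOn.comp (by unfold gc; fun_prop) fun s hs => b _ (hball _ b1 s hs)
      obtain ⟨s, hs, e⟩ := intermediate_value_Icc (by linarith) hc ⟨d.le, c.le⟩
      exact ⟨_, ⟨⟨hball _ b1 s hs, e⟩, gc_dist hu hv huv b2.le s⟩,
        (hdist _ b1 s hs).trans_le (min_le_left _ _)⟩)
  refine ⟨xk, h1, ?_⟩
  filter_upwards [h2, hk, hin] with k a b c using ⟨(b.mem _ (c _ a.1.1)).2 a.1.2, a.2⟩

end Crest.Agent.N250.Min

end
end

-- ▼ part N250/SL/Ms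
section

/-!
# Row 250 (helper16): measure tools for the static limit
-/

set_option autoImplicit false
open MeasureTheory Set Filter Topology Metric
open scoped ContDiff InnerProductSpace
open Crest.GeometryTopology.MCF

noncomputable section

namespace Crest.Agent.N250.SL



/-- cutting off far away and near finitely many points -/
lemma tail_gen {μ : Measure E} {Λ : ℝ} (hΛ : 0 ≤ Λ) (h : Gau.Rat μ Λ) {y : E} {s R ρ : ℝ}
    (hs : 0 < s) (hR : 0 ≤ R) (hρ : 0 < ρ) (T : Finset E) {χ : E → ℝ} (hc : Continuous χ)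
    (h0 : ∀ x, 0 ≤ χ x) (h1 : ∀ x, χ x ≤ 1)
    (h2 : ∀ x ∈ ball y (R * √s), (∀ z ∈ T, x ∉ ball z ρ) → χ x = 1) :
    |∫ x, gau y s x ∂μ - ∫ x, χ x * gau y s x ∂μ| ≤
      Gau.C0 * Λ * Real.exp (-R ^ 2 / 8) + T.card * (s⁻¹ * (Λ * ρ ^ 2)) := by
  have hpi := Real.pi_gt_three
  have i1 := Gau.int_gau hΛ h y hs
  have i2 : Integrable (fun x => χ x * gau y s x) μ :=
    i1.bdd_mul (c := 1) hc.aestronglyMeasurable
      (.of_forall fun x => by rw [Real.norm_of_nonneg (h0 _)]; exact h1 _)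
  have i3 : ∀ z : E, Integrable ((ball z ρ).indicator fun _ => s⁻¹) μ := fun z =>
    (integrableOn_const ((h z ρ hρ).trans_lt ENNReal.ofReal_lt_top).ne).integrable_indicator
      measurableSet_ball
  have i4 := i1.indicator (s := (ball y (R * √s))ᶜ) measurableSet_ball.compl
  have i5 := integrable_finsetSum T fun z _ => i3 z
  rw [← integral_sub i1 i2, ← Real.norm_eq_abs]
  refine (norm_integral_le_of_norm_le (i4.add i5) (.of_forall fun x => ?_)).trans ?_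
  · have g0 := (Gau.gau_pos y hs x).le
    have g1 : gau y s x ≤ s⁻¹ := by
      unfold gau
      refine (mul_le_of_le_one_right (by positivity) (Real.exp_le_one_iff.2 ?_)).trans
        (inv_anti₀ hs (by nlinarith))
      rw [neg_div]; exact neg_nonpos.2 (by positivity)
    have n0 : ∀ z ∈ T, 0 ≤ (ball z ρ).indicator (fun _ => s⁻¹) x := fun z _ =>
      indicator_nonneg (fun _ _ => by positivity) _
    have n1 : 0 ≤ (ball y (R * √s))ᶜ.indicator (gau y s) x :=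
      indicator_nonneg (fun _ _ => (Gau.gau_pos y hs _).le) _
    have n2 := Finset.sum_nonneg n0
    rw [Real.norm_of_nonneg (sub_nonneg.2 (mul_le_of_le_one_left g0 (h1 _))), Pi.add_apply]
    have g2 : gau y s x - χ x * gau y s x ≤ gau y s x := sub_le_self _ (mul_nonneg (h0 _) g0)
    by_cases hx : x ∈ ball y (R * √s)
    · by_cases hz : ∀ z ∈ T, x ∉ ball z ρ
      · rw [h2 x hx hz]; linarith
      · push Not at hz
        obtain ⟨z, z1, z2⟩ := hz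
        have := Finset.single_le_sum n0 z1
        rw [indicator_of_mem z2] at this
        linarith
    · rw [indicator_of_mem hx]; linarith
  · simp only [Pi.add_apply]
    rw [integral_add i4 i5, integral_indicator measurableSet_ball.compl,
      integral_finsetSum T fun z _ => i3 z]
    refine add_le_add (Gau.tail hΛ h y hs hR) ?_
    rw [← nsmul_eq_mul]
    refine Finset.sum_le_card_nsmul _ _ _ fun z _ => ?_
    rw [integral_indicator measurableSet_ball, setIntegral_const, smul_eq_mul, mul_comm]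
    gcongr
    exact ENNReal.toReal_le_of_le_ofReal (by positivity) (h z ρ hρ)

lemma exists_R (C : ℝ) {ε : ℝ} (hε : 0 < ε) : ∃ R : ℝ, 0 ≤ R ∧ C * Real.exp (-R ^ 2 / 8) < ε := by
  have t0 : Tendsto (fun R : ℝ => C * Real.exp (-R ^ 2 / 8)) atTop (𝓝 0) := by
    simpa using (Real.tendsto_exp_atBot.comp ((tendsto_neg_atTop_atBot.comp
      (tendsto_pow_atTop two_ne_zero)).atBot_div_const (by norm_num : (0 : ℝ) < 8))).const_mul C
  obtain ⟨R, r1, hR⟩ := ((t0.eventually (gt_mem_nhds hε)).and (eventually_ge_atTop 0)).exists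
  exact ⟨R, hR, r1⟩

/-- the fundamental theorem of calculus as an inequality with a lower integral -/
lemma ftc_le {f : ℝ → ℝ} {a b : ℝ} (hab : a ≤ b) (h : ∀ s ∈ Icc a b, DifferentiableAt ℝ f s) :
    ENNReal.ofReal |f b - f a| ≤ ∫⁻ s in Ioo a b, ENNReal.ofReal |deriv f s| := by
  by_cases ht : ∫⁻ s in Ioo a b, ENNReal.ofReal |deriv f s| = ⊤
  · rw [ht]; exact le_top
  have i1 : IntegrableOn (deriv f) (Ioo a b) := by
    refine ⟨(measurable_deriv f).aestronglyMeasurable, ?_⟩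
    rw [hasFiniteIntegral_iff_norm]
    exact lt_top_iff_ne_top.2 ht
  have i2 : IntervalIntegrable (deriv f) volume a b :=
    (intervalIntegrable_iff_integrableOn_Ioo_of_le hab).2 i1
  rw [← intervalIntegral.integral_eq_sub_of_hasDerivAt
    (fun s hs => (h s (by rwa [uIcc_of_le hab] at hs)).hasDerivAt) i2,
    intervalIntegral.integral_of_le hab, integral_Ioc_eq_integral_Ioo,
    ← ofReal_integral_eq_lintegral_ofReal i1.abs (.of_forall fun _ => abs_nonneg _)]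
  exact ENNReal.ofReal_le_ofReal abs_integral_le_integral_abs

/-- a positive value gives a positive integral -/
lemma int_pos {F : Mv} (hF : F.Reg) {t : ℝ} {u : E → ℝ} (hc : ContinuousOn u (F.sl t))
    (h0 : ∀ x, 0 ≤ u x) (hi : Integrable u (F.mu t)) {x : E} (hx : x ∈ F.sl t) (hu : 0 < u x) :
    0 < ∫ y, u y ∂F.mu t := by
  rw [integral_pos_iff_support_of_nonneg h0 hi]
  obtain ⟨U, hU, h1⟩ := mem_nhdsWithin_iff_exists_mem_nhds_inter.1
    ((hc x hx).eventually (lt_mem_nhds hu))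
  refine (hF.mu_pos hx hU).trans_le (measure_mono_ae ?_)
  filter_upwards [Hu.ae_sl hF t] with y hy h2
  exact (h1 ⟨h2, hy⟩ : 0 < u y).ne'

/-- exhaustion of an open set by compact sets -/
lemma open_sup {μ : Measure E} {f : E → ENNReal} {O : Set E} {c : ENNReal} (hO : IsOpen O)
    (h : ∀ K, IsCompact K → K ⊆ O → ∫⁻ x in K, f x ∂μ ≤ c) : ∫⁻ x in O, f x ∂μ ≤ c := by
  obtain ⟨C, c1, c2, c3, c4⟩ := hO.exists_iUnion_isClosed
  have e : O = ⋃ n : ℕ, C n ∩ closedBall 0 n := by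
    refine Subset.antisymm (fun x hx => ?_) (iUnion_subset fun n => inter_subset_left.trans (c2 n))
    obtain ⟨n, hn⟩ := mem_iUnion.1 (c3.symm ▸ hx : x ∈ ⋃ n, C n)
    obtain ⟨m, hm⟩ := exists_nat_ge (dist x 0)
    exact mem_iUnion.2 ⟨max n m, c4 (le_max_left n m) hn,
      hm.trans (Nat.cast_le.2 (le_max_right n m))⟩
  rw [e, setLIntegral_iUnion_of_directed _ (Monotone.directed_le fun i j hij =>
    inter_subset_inter (c4 hij) (closedBall_subset_closedBall (Nat.cast_le.2 hij)))]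
  exact iSup_le fun n => h _ ((isCompact_closedBall _ _).inter_left (c1 n))
    (inter_subset_left.trans (c2 n))

/-- a continuous cut-off between a compact and an open set -/
lemma exists_cut {K O : Set E} (hK : IsCompact K) (hO : IsOpen O) (h : K ⊆ O) :
    ∃ (χ : E → ℝ) (K' : Set E), Continuous χ ∧ IsCompact K' ∧ K' ⊆ O ∧ (∀ x, 0 ≤ χ x) ∧
      (∀ x, χ x ≤ 1) ∧ (∀ x ∈ K, χ x = 1) ∧ ∀ x ∉ K', χ x = 0 := by
  obtain ⟨K', k1, k2, k3⟩ := exists_compact_between hK hO h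
  obtain ⟨f, f1, f2, -, f3⟩ := exists_continuous_one_zero_of_isCompact hK
    isOpen_interior.isClosed_compl (disjoint_compl_right_iff_subset.2 k2)
  exact ⟨f, K', f.continuous, k1, k3, fun x => (f3 x).1, fun x => (f3 x).2, fun x hx => f1 hx,
    fun x hx => f2 fun h => hx (interior_subset h)⟩

/-- times with small `∫ H²` -/
lemma pick {α : Type} {l : Ultrafilter α} {Fk : α → Mv} (h : H2Van l Fk) (R : ℝ) {t₁ t₂ ε : ℝ}
    (h1 : t₁ < t₂) (h2 : t₂ < 0) (hε : 0 < ε) : ∃ (tk : α → ℝ) (t : ℝ), t ∈ Icc t₁ t₂ ∧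
      Tendsto tk l (𝓝 t) ∧ ∀ᶠ k in (l : Filter α),
        ∫⁻ x in ball 0 R, ENNReal.ofReal ((Fk k).H (x, tk k) ^ 2) ∂(Fk k).mu (tk k) ≤
          ENNReal.ofReal ε := by
  have p0 : 0 < ENNReal.ofReal ε * ENNReal.ofReal (t₂ - t₁) :=
    ENNReal.mul_pos (ENNReal.ofReal_pos.2 hε).ne' (ENNReal.ofReal_pos.2 (by linarith)).ne'
  have e : ∀ᶠ k in (l : Filter α), ∃ t ∈ Icc t₁ t₂,
      ∫⁻ x in ball 0 R, ENNReal.ofReal ((Fk k).H (x, t) ^ 2) ∂(Fk k).mu t ≤ ENNReal.ofReal ε := by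
    filter_upwards [(h R t₁ t₂ h2).eventually (gt_mem_nhds p0)] with k hk
    by_contra hn
    push Not at hn
    refine hk.not_ge ?_
    rw [← Real.volume_Ioo, ← setLIntegral_const]
    refine setLIntegral_mono' measurableSet_Ioo fun t ht => (hn t (Ioo_subset_Icc_self ht)).le.trans ?_
    rw [← lintegral_indicator measurableSet_ball]
    refine lintegral_mono fun x => ?_
    by_cases hx : x ∈ ball (0 : E) R
    · rw [indicator_of_mem hx, indicator_of_mem (by exact ⟨hx, trivial⟩)]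
    · rw [indicator_of_notMem hx]; exact zero_le
  classical
  have e2 : ∀ k, ∃ t ∈ Icc t₁ t₂, (∃ t ∈ Icc t₁ t₂,
      ∫⁻ x in ball 0 R, ENNReal.ofReal ((Fk k).H (x, t) ^ 2) ∂(Fk k).mu t ≤ ENNReal.ofReal ε) →
      ∫⁻ x in ball 0 R, ENNReal.ofReal ((Fk k).H (x, t) ^ 2) ∂(Fk k).mu t ≤ ENNReal.ofReal ε :=
    fun k => by
      by_cases hk : ∃ t ∈ Icc t₁ t₂,
        ∫⁻ x in ball 0 R, ENNReal.ofReal ((Fk k).H (x, t) ^ 2) ∂(Fk k).mu t ≤ ENNReal.ofReal ε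
      · obtain ⟨t, a1, a2⟩ := hk; exact ⟨t, a1, fun _ => a2⟩
      · exact ⟨t₁, ⟨le_rfl, h1.le⟩, fun h => absurd h hk⟩
  choose tk k1 k2 using e2
  obtain ⟨t, a1, a2⟩ := isCompact_Icc.ultrafilter_le_nhds (l.map tk)
    (le_principal_iff.2 (mem_map.2 (Eventually.of_forall k1)))
  exact ⟨tk, t, a1, a2, e.mono fun k hk => k2 k hk⟩

end Crest.Agent.N250.SL

end
end

-- ▼ part N250/SL/Tm
section

/-!
# Row 250 (helper16): small `∫∫ H²` makes the area measures almost independent of time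
-/

set_option autoImplicit false
open MeasureTheory Set Filter Topology Metric
open scoped ContDiff InnerProductSpace
open Crest.GeometryTopology.MCF

noncomputable section

namespace Crest.Agent.N250.SL

variable {F : Mv} {g : E → ℝ}

lemma Dt_sp (hF : F.Reg) (hg : Differentiable ℝ g) {p : ST} (hp : p ∈ F.M) :
    F.Dt (fun q => g q.1) p = F.V p * fderiv ℝ g p.1 (F.n p) := by
  have h : HasFDerivAt (fun q : ST => g q.1)
      ((fderiv ℝ g p.1).comp (ContinuousLinearMap.fst ℝ E ℝ)) p :=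
    (hg p.1).hasFDerivAt.comp p hasFDerivAt_fst
  rw [Mv.Dt, Tr.td_eq h.hasFDerivWithinAt (Tr.vel_mem hF hp)]
  simp

/-- first variation for a test function which does not depend on time -/
lemma hasD (hF : F.Reg) (hg : ContDiff ℝ 1 g) {K : Set E} (h0 : ∀ x ∉ K, g x = 0) {t₁ t₂ t : ℝ}
    (hK : IsCompact (F.M ∩ K ×ˢ Icc t₁ t₂)) (ht : t ∈ Ioo t₁ t₂) :
    HasDerivAt (fun s => ∫ x, g x ∂F.mu s)
      (∫ x, F.V (x, t) * (fderiv ℝ g x (F.n (x, t)) + g x * F.H (x, t)) ∂F.mu t) t := by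
  have := FV.fv' (f := fun q : ST => g q.1) (J := Icc t₁ t₂) hF
    (hg.comp contDiff_fst).contDiffOn
    ⟨_, hK, inter_subset_left, fun p hp hJ hn => h0 _ fun h => hn ⟨hp, h, hJ⟩⟩
    (Icc_mem_nhds ht.1 ht.2)
  refine this.congr_deriv (Hu.int_congr hF fun x hx => ?_)
  rw [Dt_sp hF (hg.differentiable one_ne_zero) hx]; ring

lemma der_le {Λ R B η t : ℝ} (hF : F.IsMCF) (hA : F.AR Λ) (hR : 0 < R) (hB : 0 ≤ B) (hη : 0 < η)
    (h0 : ∀ x ∉ ball (0 : E) R, g x = 0 ∧ fderiv ℝ g x = 0)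
    (h1 : ∀ x, |g x| ≤ B ∧ ‖fderiv ℝ g x‖ ≤ B) :
    ENNReal.ofReal |∫ x, F.V (x, t) * (fderiv ℝ g x (F.n (x, t)) + g x * F.H (x, t)) ∂F.mu t| ≤
      ENNReal.ofReal (B * η) * ENNReal.ofReal (Λ * R ^ 2) + ENNReal.ofReal (B * (η⁻¹ + 1)) *
        ∫⁻ x, ENNReal.ofReal ((ball (0 : E) R ×ˢ (univ : Set ℝ)).indicator
          (fun p => F.H p ^ 2) (x, t)) ∂F.mu t := by
  rw [← Real.norm_eq_abs, ofReal_norm_eq_enorm]
  refine (enorm_integral_le_lintegral_enorm _).trans ?_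
  rw [← lintegral_const_mul' _ _ ENNReal.ofReal_ne_top]
  refine le_trans (lintegral_mono_ae (g := fun x => (ball (0 : E) R).indicator
    (fun _ => ENNReal.ofReal (B * η)) x + ENNReal.ofReal (B * (η⁻¹ + 1)) *
      ENNReal.ofReal ((ball (0 : E) R ×ˢ (univ : Set ℝ)).indicator
          (fun p => F.H p ^ 2) (x, t))) ?_) ?_
  · filter_upwards [Hu.ae_sl hF.1 t] with x hx
    by_cases hb : x ∈ ball (0 : E) R
    · rw [indicator_of_mem hb, indicator_of_mem (by exact ⟨hb, trivial⟩),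
        ← ENNReal.ofReal_mul (by positivity), ← ENNReal.ofReal_add (by positivity) (by positivity),
        ← ofReal_norm_eq_enorm, hF.2 _ hx]
      refine ENNReal.ofReal_le_ofReal ?_
      have a1 : |fderiv ℝ g x (F.n (x, t))| ≤ B := by
        have := (fderiv ℝ g x).le_opNorm (F.n (x, t))
        rw [Tr.n_unit hF.1 hx, mul_one] at this
        exact this.trans (h1 x).2
      set H := F.H (x, t)
      have a2 : |fderiv ℝ g x (F.n (x, t)) + g x * H| ≤ B + B * |H| := by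
        refine (abs_add_le _ _).trans (add_le_add a1 ?_)
        rw [abs_mul]; gcongr; exact (h1 x).1
      have a3 : |H| ≤ η + η⁻¹ * H ^ 2 := by
        rw [← sq_abs H]
        have : η⁻¹ * (η * |H|) ≤ η⁻¹ * (η * η + |H| ^ 2) := by
          gcongr; nlinarith [sq_nonneg (|H| - η), abs_nonneg H]
        rwa [mul_add, ← mul_assoc, ← mul_assoc, inv_mul_cancel₀ hη.ne', one_mul, one_mul] at this
      rw [Real.norm_eq_abs, abs_mul, abs_neg]
      have a4 := mul_le_mul_of_nonneg_left a2 (abs_nonneg H)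
      have a5 := mul_le_mul_of_nonneg_left a3 hB
      have a6 : |H| * |H| = H ^ 2 := by rw [← sq, sq_abs]
      nlinarith
    · rw [(h0 x hb).1, (h0 x hb).2]; simp
  · rw [lintegral_add_left (measurable_const.indicator measurableSet_ball),
      lintegral_indicator measurableSet_ball, setLIntegral_const]
    gcongr
    exact hA t 0 R hR

variable {α : Type} {l : Filter α} {Fk : α → Mv} {a b : α → ℝ} {Λ : ℝ}

lemma tm (h1 : ∀ᶠ k in l, Fl (Fk k) (Ioo (a k) (b k)) Λ ∧ 1 ≤ b k) (ha : Tendsto a l atBot)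
    (h : H2Van l Fk) (hg : ContDiff ℝ 1 g) (hc : HasCompactSupport g) {t₁ t₂ ε : ℝ} (h2 : t₂ < 0)
    (hε : 0 < ε) : ∀ᶠ k in l, ∀ t ∈ Icc t₁ t₂, ∀ t' ∈ Icc t₁ t₂,
      |∫ x, g x ∂(Fk k).mu t' - ∫ x, g x ∂(Fk k).mu t| ≤ ε := by
  obtain ⟨R, hR, r1⟩ := hc.isCompact.isBounded.subset_ball_lt 0 0
  obtain ⟨B₁, b1⟩ := hg.continuous.bounded_above_of_compact_support hc
  obtain ⟨B₂, b2⟩ := (hg.continuous_fderiv one_ne_zero).bounded_above_of_compact_support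
    (hc.fderiv ℝ)
  set B := max B₁ B₂
  have hB : 0 ≤ B := ((norm_nonneg _).trans (b1 0)).trans (le_max_left _ _)
  have k1 : ∀ x, |g x| ≤ B ∧ ‖fderiv ℝ g x‖ ≤ B := fun x =>
    ⟨(b1 x).trans (le_max_left _ _), (b2 x).trans (le_max_right _ _)⟩
  have k0 : ∀ x ∉ ball (0 : E) R, g x = 0 ∧ fderiv ℝ g x = 0 := fun x hx =>
    ⟨image_eq_zero_of_notMem_tsupport fun h => hx (r1 h),
      Function.notMem_support.1 fun h => hx (r1 (support_fderiv_subset ℝ h))⟩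
  set N := B * (|Λ| * R ^ 2) * |t₂ - t₁| with hN
  have N0 : 0 ≤ N := by positivity
  set η := ε / 2 / (N + 1) with hη
  have η0 : 0 < η := by positivity
  have t0 : Tendsto (fun k => ENNReal.ofReal (B * (η⁻¹ + 1)) * (Fk k).stI
      ((ball (0 : E) R ×ˢ (univ : Set ℝ)).indicator fun p => (Fk k).H p ^ 2) t₁ t₂) l (𝓝 0) := by
    simpa using ENNReal.Tendsto.const_mul (h R t₁ t₂ h2) (Or.inr ENNReal.ofReal_ne_top)
  filter_upwards [h1, ha.eventually (eventually_lt_atBot (t₁ - 1)),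
    t0.eventually (gt_mem_nhds (ENNReal.ofReal_pos.2 (half_pos hε)))] with k ⟨f1, f2⟩ f3 f4
  have key : ∀ t ∈ Icc t₁ t₂, ∀ t' ∈ Icc t₁ t₂, t ≤ t' →
      |∫ x, g x ∂(Fk k).mu t' - ∫ x, g x ∂(Fk k).mu t| ≤ ε := fun t ht t' ht' tt => by
    have hK := Gau.cpt f1 (isCompact_closedBall (0 : E) R) (a := t₁ - 1) (b := 0)
      (fun s hs => ⟨f3.trans_le hs.1, by linarith [hs.2]⟩)
    have hD := fun s (hs : s ∈ Icc t t') => hasD f1.mcf.1 hg (K := closedBall 0 R)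
      (fun x hx => (k0 x fun h => hx (ball_subset_closedBall h)).1) hK
      (t := s) ⟨by linarith [hs.1, ht.1], by linarith [hs.2, ht'.2]⟩
    have e1 := ftc_le tt fun s hs => (hD s hs).differentiableAt
    rw [← ENNReal.ofReal_le_ofReal_iff hε.le]
    refine e1.trans ((setLIntegral_mono' measurableSet_Ioo fun s hs =>
      (congrArg (fun z => ENNReal.ofReal |z|) (hD s (Ioo_subset_Icc_self hs)).deriv).trans_le
        (der_le f1.mcf f1.ar hR hB η0 k0 k1)).trans ?_)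
    refine (lintegral_mono_set (Ioo_subset_Ioo ht.1 ht'.2)).trans ?_
    rw [lintegral_add_left measurable_const, setLIntegral_const,
      lintegral_const_mul' _ _ ENNReal.ofReal_ne_top, Real.volume_Ioo, ← add_halves ε,
      ENNReal.ofReal_add (half_pos hε).le (half_pos hε).le]
    refine add_le_add ?_ f4.le
    refine le_trans (mul_le_mul' (mul_le_mul' le_rfl (ENNReal.ofReal_le_ofReal
      (mul_le_mul_of_nonneg_right (le_abs_self Λ) (sq_nonneg R))))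
      (ENNReal.ofReal_le_ofReal (le_abs_self _))) ?_
    rw [← ENNReal.ofReal_mul (by positivity), ← ENNReal.ofReal_mul (by positivity)]
    refine ENNReal.ofReal_le_ofReal ?_
    have : η * (N + 1) = ε / 2 := by rw [hη]; field_simp
    nlinarith
  intro t ht t' ht'
  rcases le_total t t' with tt | tt
  · exact key t ht t' ht' tt
  · rw [abs_sub_comm]; exact key t' ht' t ht tt

/-- Gaussian areas are almost independent of time -/
lemma tm_fs (h1 : ∀ᶠ k in l, Fl (Fk k) (Ioo (a k) (b k)) Λ ∧ 1 ≤ b k) (ha : Tendsto a l atBot)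
    (h : H2Van l Fk) (y : E) {s t₁ t₂ ε : ℝ} (hs : 0 < s) (h2 : t₂ < 0) (hε : 0 < ε) :
    ∀ᶠ k in l, ∀ t ∈ Icc t₁ t₂, ∀ t' ∈ Icc t₁ t₂, (Fk k).Fs t' y s ≤ (Fk k).Fs t y s + ε := by
  obtain ⟨R, hR, r1⟩ := exists_R (Gau.C0 * max Λ 0) (by positivity : 0 < ε / 3)
  let χ : ContDiffBump y := ⟨R * √s + 1, R * √s + 2, by positivity, by linarith⟩
  have c1 : ContDiff ℝ 1 (gau y s) := by
    unfold gau
    exact contDiff_const.mul (Real.contDiff_exp.comp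
      (((contDiff_id.sub contDiff_const).norm_sq ℝ).neg.div_const _))
  have e := tm h1 ha h (g := fun x => χ x * gau y s x) (χ.contDiff.mul c1)
    χ.hasCompactSupport.mul_right h2 (t₁ := t₁) (by positivity : 0 < ε / 3)
  filter_upwards [h1, e] with k ⟨f1, _⟩ f2 t ht t' ht'
  have tl := fun t => tail_gen (le_max_right Λ 0) (Gau.rat_of_AR f1.ar t) (y := y) hs hR one_pos ∅
    χ.continuous χ.nonneg' (fun _ => χ.le_one) fun x hx _ => χ.one_of_mem_closedBall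
      (closedBall_subset_closedBall (by simp [χ]) (ball_subset_closedBall hx))
  have a1 := abs_le.1 (tl t)
  have a2 := abs_le.1 (tl t')
  have a3 := abs_le.1 (f2 t ht t' ht')
  simp only [Finset.card_empty, Nat.cast_zero, zero_mul, add_zero] at a1 a2
  unfold Mv.Fs
  linarith [a1.1, a2.2, a3.2]

end Crest.Agent.N250.SL

end
end

-- ▼ part N250/SL/St
section

/-!
# Row 250 (helper16): a smooth limit with vanishing `∫∫ H²` is static and minimal
-/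

set_option autoImplicit false
open MeasureTheory Set Filter Topology Metric
open scoped ContDiff InnerProductSpace
open Crest.GeometryTopology.MCF

noncomputable section

namespace Crest.Agent.N250.SL

open CFl

/-- a smooth limit over the open set `O`, up to the time `0` -/
structure Lm {α : Type} (l : Filter α) (Fk : α → Mv) (F : Mv) (Ω : Set ST) (O : Set E) : Prop where
  oΩ : IsOpen Ω
  oO : IsOpen O
  sub : O ×ˢ Iic 0 ⊆ Ω
  sup : Ω ⊆ O ×ˢ univ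
  mcf : F.IsMCF
  mem : F.M ⊆ Ω
  pr : F.Proper Ω
  conv : Conv l Fk F Ω

lemma jt_A2 (F : Mv) (t : ℝ) (x : E) :
    F.A2 (x, t) = ∑ a, ∑ b, (jt F t x).2.2 a b * (jt F t x).2.2 a b := by
  simp only [Mv.A2, Finset.sum_apply, Pi.mul_apply, jt]

lemma jt_H (F : Mv) (t : ℝ) (x : E) : F.H (x, t) = ∑ a, (jt F t x).2.2 a a := by
  simp only [Mv.H, Finset.sum_apply, jt]

lemma cpt_of {F : Mv} {Ω C : Set ST} (h : F.Proper Ω) (hC : IsCompact C) (hs : C ⊆ Ω) :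
    IsCompact (F.M ∩ C) := by
  have : F.M ∩ C = closure F.M ∩ C :=
    Subset.antisymm (inter_subset_inter_left _ subset_closure) fun p hp => ⟨h p hp.1 (hs hp.2), hp.2⟩
  rw [this]
  exact hC.inter_left isClosed_closure

lemma intg_of {F : Mv} {Ω : Set ST} (hF : F.Reg) (h : F.Proper Ω) {K : Set E} (hK : IsCompact K)
    {t : ℝ} (hs : K ×ˢ {t} ⊆ Ω) {u : E → ℝ} (hu : ContinuousOn u (F.sl t))
    (h0 : ∀ x ∉ K, u x = 0) : Integrable u (F.mu t) :=
  Hu.int_cpt muFinS_holds hF hu (cpt_of h (hK.prod isCompact_singleton) hs) inter_subset_left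
    fun x hx hn => h0 x fun h => hn ⟨hx, h, rfl⟩

lemma intg_fl {F : Mv} {I : Set ℝ} {Λ : ℝ} (hF : Fl F I Λ) {K : Set E} (hK : IsCompact K) (t : ℝ)
    {g : PNA → ℝ} (hg : Continuous g) (h0 : ∀ q : PNA, q.1 ∉ K → g q = 0) :
    Integrable (fun x => g (jt F t x)) (F.mu t) := by
  obtain ⟨R, r1⟩ := hK.isBounded.subset_ball (0 : E)
  exact (nice_fl hF t).intg hg (y := 0) (b := R) fun q hq => h0 q fun h => (r1 h).not_ge hq

variable {α : Type} {l : Filter α} {Fk : α → Mv} {F : Mv} {Ω : Set ST} {O K : Set E}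

namespace Lm

lemma tube (h : Lm l Fk F Ω O) (hK : IsCompact K) (hs : K ⊆ O) :
    ∃ τ, 0 < τ ∧ K ×ˢ Iic τ ⊆ Ω := by
  obtain ⟨u, v, -, v1, u2, v2, h1⟩ := generalized_tube_lemma hK (isCompact_singleton (x := (0 : ℝ)))
    h.oΩ ((Set.prod_mono hs (singleton_subset_iff.2 self_mem_Iic)).trans h.sub)
  obtain ⟨τ, t1, t2⟩ := nhds_basis_closedBall.mem_iff.1 (v1.mem_nhds (v2 rfl))
  refine ⟨τ, t1, fun p hp => ?_⟩
  rcases le_total p.2 0 with h2 | h2
  · exact h.sub ⟨hs hp.1, h2⟩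
  · exact h1 ⟨u2 hp.1, t2 (by rw [mem_closedBall, dist_zero_right, Real.norm_of_nonneg h2]; exact hp.2)⟩

lemma intg (h : Lm l Fk F Ω O) (hK : IsCompact K) (hs : K ⊆ O) {t : ℝ} (ht : t ≤ 0) {u : E → ℝ}
    (hu : ContinuousOn u (F.sl t)) (h0 : ∀ x ∉ K, u x = 0) : Integrable u (F.mu t) :=
  intg_of h.mcf.1 h.pr hK ((Set.prod_mono hs (singleton_subset_iff.2 (mem_Iic.2 ht))).trans h.sub) hu h0

lemma conv_sp (hμ : ConvMuS) (h : Lm l Fk F Ω O) (hK : IsCompact K) (hs : K ⊆ O) {g : PNA → ℝ}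
    (hg : Continuous g) (h0 : ∀ q : PNA, q.1 ∉ K → g q = 0) {tk : α → ℝ} {t : ℝ} (ht : t ≤ 0)
    (hk : Tendsto tk l (𝓝 t)) :
    Tendsto (fun k => ∫ x, g (jt (Fk k) (tk k) x) ∂(Fk k).mu (tk k)) l
      (𝓝 (∫ x, g (jt F t x) ∂F.mu t)) := by
  obtain ⟨δ, hδ, h1⟩ := h.tube hK hs
  have h2 : δ / 2 < δ := by linarith
  have := hμ α l Fk F _ (K ×ˢ closedBall t δ) h.oΩ h.conv (hK.prod (isCompact_closedBall _ _))
    ((Set.prod_mono Subset.rfl fun s hs => by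
      have := (abs_le.1 (show |s - t| ≤ δ from hs)).2
      exact show s ≤ δ by linarith).trans h1)
    (fun q => cut (δ / 2) δ (dist q.1.2 t) * g (q.1.1, q.2))
    (((cut_cont _ _).comp (by fun_prop)).mul (hg.comp (by fun_prop)))
    (fun q hq => by
      rcases not_and_or.1 hq with h | h
      · exact mul_eq_zero_of_right _ (h0 _ h)
      · exact mul_eq_zero_of_left (cut_zero h2 (not_le.1 h).le) _) tk t hk
  simp only [dist_self, cut_one h2 (half_pos hδ).le, one_mul] at this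
  refine this.congr' ?_
  filter_upwards [hk.eventually (closedBall_mem_nhds t (half_pos hδ))] with k h
  simp only [cut_one h2 h, one_mul, jt]

lemma inO (h : Lm l Fk F Ω O) {p : ST} (hp : p ∈ F.M) : p.1 ∈ O := (h.sup (h.mem hp)).1

end Lm

/-- the limit is minimal -/
lemma H_zero (hμ : ConvMuS) {l : Ultrafilter α} {Ik : α → Set ℝ} {Λ : ℝ} (h : Lm l Fk F Ω O)
    (hk : ∀ᶠ k in (l : Filter α), Fl (Fk k) (Ik k) Λ) (h2 : H2Van l Fk) {p : ST} (hp : p ∈ F.M)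
    (ht : p.2 ≤ 0) : F.H p = 0 := by
  by_contra hn
  obtain ⟨χ, K, c1, k1, k2, c2, c3, c4, c5⟩ := exists_cut (isCompact_singleton (x := p.1)) h.oO
    (singleton_subset_iff.2 (h.inO hp))
  obtain ⟨τ, t1, t2⟩ := h.tube k1 k2
  obtain ⟨R, r1⟩ := k1.isBounded.subset_ball (0 : E)
  have hR := h.mcf.1
  have cf : ContinuousOn (fun q : ST => χ q.1 * F.H q ^ 2) F.M :=
    (c1.comp continuous_fst).continuousOn.mul ((Hu.sm_H hR).continuousOn.pow 2)
  have cw : ContinuousAt (fun s => ∫ x, χ x * F.H (x, s) ^ 2 ∂F.mu s) p.2 :=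
    FV.cont_int' (J := Icc (p.2 - 1) τ) hR cf
      ⟨_, cpt_of h.pr (k1.prod isCompact_Icc) ((Set.prod_mono Subset.rfl Icc_subset_Iic_self).trans t2),
        inter_subset_left, fun q hq hJ hn =>
          mul_eq_zero_of_left (c5 _ fun h => hn ⟨hq, h, hJ⟩) _⟩
      (Icc_mem_nhds (by linarith) (by linarith))
  have cs : ContinuousOn (fun x => χ x * F.H (x, p.2) ^ 2) (F.sl p.2) :=
    cf.comp (f := fun x : E => ((x, p.2) : ST)) (by fun_prop) fun _ h => h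
  have w0 : 0 < ∫ x, χ x * F.H (x, p.2) ^ 2 ∂F.mu p.2 :=
    int_pos hR cs (fun x => mul_nonneg (c2 x) (sq_nonneg _))
      (h.intg k1 k2 ht cs fun x hx => by rw [c5 x hx, zero_mul]) (x := p.1) hp
      (by rw [c4 _ rfl, one_mul]; exact sq_pos_of_ne_zero hn)
  obtain ⟨δ, d1, d2⟩ := nhds_basis_closedBall.mem_iff.1 (cw.eventually (lt_mem_nhds (half_lt_self w0)))
  obtain ⟨tk, t, a1, a2, a3⟩ := pick h2 R (t₁ := p.2 - δ) (t₂ := p.2 - δ / 2) (by linarith)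
    (by linarith) (half_pos w0)
  have g1 : Continuous fun q : PNA => χ q.1 * (∑ a, q.2.2 a a) ^ 2 := by fun_prop
  have g0 : ∀ q : PNA, q.1 ∉ K → χ q.1 * (∑ a, q.2.2 a a) ^ 2 = 0 := fun q hq => by
    rw [c5 _ hq, zero_mul]
  have e1 := h.conv_sp hμ k1 k2 g1 g0 (by linarith [a1.2]) a2
  have e2 := d2 (show t ∈ closedBall p.2 δ by
    rw [mem_closedBall, Real.dist_eq, abs_le]; constructor <;> linarith [a1.1, a1.2])
  simp only [← jt_H] at e1
  refine (not_le.2 e2) (le_of_tendsto e1 ?_)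
  filter_upwards [hk, a3] with k f1 f2
  have i1 := intg_fl f1 k1 (tk k) g1 g0
  simp only [← jt_H] at i1
  rw [← ENNReal.ofReal_le_ofReal_iff (half_pos w0).le, ofReal_integral_eq_lintegral_ofReal i1
    (.of_forall fun x => mul_nonneg (c2 _) (sq_nonneg _))]
  refine le_trans ?_ f2
  rw [← lintegral_indicator measurableSet_ball]
  refine lintegral_mono fun x => ?_
  by_cases hx : x ∈ ball (0 : E) R
  · rw [indicator_of_mem hx]
    exact ENNReal.ofReal_le_ofReal (mul_le_of_le_one_left (sq_nonneg _) (c3 _))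
  · rw [show χ (jt (Fk k) (tk k) x).1 = 0 from c5 x fun h => hx (r1 h), zero_mul,
      ENNReal.ofReal_zero]
    exact zero_le

namespace Lm

variable (h : Lm l Fk F Ω O) (hH : ∀ p ∈ F.M, p.2 ≤ 0 → F.H p = 0)
include h hH

lemma V_zero {p : ST} (hp : p ∈ F.M) (ht : p.2 ≤ 0) : F.V p = 0 := by
  rw [h.mcf.2 p hp, hH p hp ht, neg_zero]

lemma int_const {g : E → ℝ} (hg : ContDiff ℝ 1 g) (hK : IsCompact K) (hs : K ⊆ O)
    (h0 : ∀ x ∉ K, g x = 0) {t : ℝ} (ht : t ≤ 0) : ∫ x, g x ∂F.mu t = ∫ x, g x ∂F.mu 0 := by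
  obtain ⟨τ, t1, t2⟩ := h.tube hK hs
  have hD : ∀ s ∈ Icc t 0, HasDerivAt (fun s => ∫ x, g x ∂F.mu s) 0 s := fun s hs => by
    refine (hasD h.mcf.1 hg h0 (cpt_of h.pr (hK.prod isCompact_Icc)
      ((Set.prod_mono Subset.rfl Icc_subset_Iic_self).trans t2)) (t₁ := t - 1) (t := s)
      ⟨by linarith [hs.1], by linarith [hs.2]⟩).congr_deriv ?_
    rw [Hu.int_congr h.mcf.1 (v := fun _ => 0) fun x hx => by
      rw [h.V_zero hH hx hs.2, zero_mul], integral_zero]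
  exact (constant_of_has_deriv_right_zero (fun s hs => (hD s hs).continuousAt.continuousWithinAt)
    (fun s hs => (hD s (Ico_subset_Icc_self hs)).hasDerivWithinAt) 0 ⟨ht, le_rfl⟩).symm

lemma sl_sub {s t : ℝ} (hs : s ≤ 0) (ht : t ≤ 0) : F.sl s ⊆ F.sl t := fun x hx => by
  by_contra hn
  have hO : x ∈ O := h.inO (p := (x, s)) hx
  have h1 : ((x, t) : ST) ∉ closure F.M := fun h1 => hn (h.pr _ h1 (h.sub ⟨hO, ht⟩))
  have h2 : {y : E | ((y, t) : ST) ∉ closure F.M} ∩ O ∈ 𝓝 x :=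
    inter_mem ((isClosed_closure.isOpen_compl.preimage (f := fun y : E => ((y, t) : ST))
      (by fun_prop)).mem_nhds h1) (h.oO.mem_nhds hO)
  obtain ⟨r, r0, r1⟩ := nhds_basis_closedBall.mem_iff.1 h2
  let χ : ContDiffBump x := ⟨r / 2, r, half_pos r0, half_lt_self r0⟩
  have c0 : ∀ y ∉ closedBall x r, χ y = 0 := fun y hy => χ.zero_of_le_dist (not_le.1 hy).le
  have kO : closedBall x r ⊆ O := r1.trans inter_subset_right
  have e1 := h.int_const hH χ.contDiff (isCompact_closedBall x r) kO c0 hs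
  have e2 := h.int_const hH χ.contDiff (isCompact_closedBall x r) kO c0 ht
  have e3 : 0 < ∫ y, χ y ∂F.mu s :=
    int_pos h.mcf.1 χ.continuous.continuousOn χ.nonneg'
      (h.intg (isCompact_closedBall x r) kO hs χ.continuous.continuousOn c0) hx
      (by rw [χ.one_of_mem_closedBall (mem_closedBall_self (half_pos r0).le)]; exact one_pos)
  have e4 : ∫ y, χ y ∂F.mu t = 0 := by
    rw [Hu.int_congr h.mcf.1 (v := fun _ => 0) fun y hy =>
      c0 y fun hb => (r1 hb).1 (subset_closure hy), integral_zero]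
  linarith

lemma sl_eq {t : ℝ} (ht : t ≤ 0) : F.sl t = F.sl 0 :=
  Subset.antisymm (h.sl_sub hH ht le_rfl) (h.sl_sub hH le_rfl ht)

lemma mem_iff {t : ℝ} (ht : t ≤ 0) (x : E) : (x, t) ∈ F.M ↔ (x, 0) ∈ F.M :=
  Set.ext_iff.1 (h.sl_eq hH ht) x

lemma n_sq {t : ℝ} (ht : t ≤ 0) {x : E} (hx : (x, 0) ∈ F.M) :
    ⟪F.n (x, 0), F.n (x, t)⟫_ℝ ^ 2 = 1 := by
  have hR := h.mcf.1
  have ht' := (h.mem_iff hH ht x).2 hx
  have e : (F.freeze 0).M = (F.freeze t).M := Set.ext fun p => (h.mem_iff hH ht p.1).symm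
  have a1 := Tr.PL_mem (SS.freeze_reg hR 0) (p := (x, 0)) hx (F.n (x, t))
  rw [e] at a1
  have a2 := SS.cone_n (SS.freeze_reg hR t) (p := (x, 0)) ht' a1
  rw [zero_mul] at a2
  change ⟪F.n (x, t), F.n (x, t) - ⟪F.n (x, 0), F.n (x, t)⟫_ℝ • F.n (x, 0)⟫_ℝ = 0 at a2
  rw [inner_sub_right, inner_smul_right, Tr.n_n hR ht', real_inner_comm (F.n (x, 0))] at a2
  linarith

lemma n_eq {t : ℝ} (ht : t ≤ 0) {x : E} (hx : (x, 0) ∈ F.M) : F.n (x, t) = F.n (x, 0) := by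
  have hR := h.mcf.1
  have c : ContinuousOn (fun s : ℝ => ⟪F.n (x, 0), F.n (x, s)⟫_ℝ) (Icc t 0) :=
    continuousOn_const.inner ((Tr.sm_n hR).continuousOn.comp (f := fun s : ℝ => ((x, s) : ST))
      (by fun_prop) fun s hs => (h.mem_iff hH hs.2 x).2 hx)
  have a1 : 0 < ⟪F.n (x, 0), F.n (x, t)⟫_ℝ := by
    by_contra hn
    obtain ⟨s, s1, s2⟩ := intermediate_value_Icc ht c
      (show (0 : ℝ) ∈ Icc _ _ from ⟨not_lt.1 hn, by rw [Tr.n_n hR hx]; exact zero_le_one⟩)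
    have := h.n_sq hH s1.2 hx
    simp only at s2
    rw [s2] at this
    norm_num at this
  have a2 : ⟪F.n (x, 0), F.n (x, t)⟫_ℝ = 1 := by
    have := h.n_sq hH ht hx
    nlinarith
  exact ((inner_eq_one_iff_of_norm_eq_one (Tr.n_unit hR hx)
    (Tr.n_unit hR ((h.mem_iff hH ht x).2 hx))).1 a2).symm

lemma same {t : ℝ} (ht : t ≤ 0) : (F.freeze t).Same (F.freeze 0) :=
  ⟨Set.ext fun p => h.mem_iff hH ht p.1,
    fun p hp => h.n_eq hH ht ((h.mem_iff hH ht p.1).1 hp), fun _ _ => rfl⟩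

lemma jt_eq {t : ℝ} (ht : t ≤ 0) {x : E} (hx : (x, 0) ∈ F.M) : jt F t x = jt F 0 x := by
  have hR := h.mcf.1
  have ht' := (h.mem_iff hH ht x).2 hx
  refine Prod.ext rfl (Prod.ext (h.n_eq hH ht hx) (funext fun a => funext fun b => ?_))
  exact (SS.freeze_D hR (Tr.sm_nu hR b) (p := (x, 0)) ht' a).symm.trans
    (((h.same hH ht).A a b (x, 0) ht').trans (SS.freeze_D hR (Tr.sm_nu hR b) (p := (x, 0)) hx a))

lemma mu_eq {t : ℝ} (ht : t ≤ 0) : F.mu t = F.mu 0 := by rw [Mv.mu, h.sl_eq hH ht, Mv.mu]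

/-- convergence of integrals at all times `t ≤ 0` to the integral over the top slice -/
lemma conv_top (hμ : ConvMuS) (hK : IsCompact K) (hs : K ⊆ O) {g : PNA → ℝ}
    (hg : Continuous g) (h0 : ∀ q : PNA, q.1 ∉ K → g q = 0) {tk : α → ℝ} {t : ℝ} (ht : t ≤ 0)
    (hk : Tendsto tk l (𝓝 t)) :
    Tendsto (fun k => ∫ x, g (jt (Fk k) (tk k) x) ∂(Fk k).mu (tk k)) l
      (𝓝 (∫ x, g (jt F 0 x) ∂F.mu 0)) := by
  have := h.conv_sp hμ hK hs hg h0 ht hk
  rwa [h.mu_eq hH ht, Hu.int_congr h.mcf.1 (v := fun x => g (jt F 0 x)) fun x hx => by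
    rw [h.jt_eq hH ht hx]] at this

lemma conv_st : Conv l Fk (F.freeze 0) (O ×ˢ Iio 0) :=
  Cv.conv_congr (Cv.conv_mono h.conv ((Set.prod_mono Subset.rfl Iio_subset_Iic_self).trans h.sub))
    fun p hp => ⟨univ ×ˢ Iio 0, (isOpen_univ.prod isOpen_Iio).mem_nhds ⟨trivial, hp.2⟩,
      ⟨fun q hq => h.mem_iff hH (le_of_lt hq.2) q.1,
        fun q hq hM => h.n_eq hH (le_of_lt hq.2) ((h.mem_iff hH (le_of_lt hq.2) q.1).1 hM),
        fun q hq hM => h.V_zero hH hM (le_of_lt hq.2)⟩,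
      .of_forall fun _ => ⟨fun _ _ => Iff.rfl, fun _ _ _ => rfl, fun _ _ _ => rfl⟩⟩

lemma conv_fr {tk : α → ℝ} {t : ℝ} (ht : t ≤ 0) (hk : Tendsto tk l (𝓝 t)) :
    Conv l (fun k => (Fk k).freeze (tk k)) (F.freeze 0) (O ×ˢ univ) :=
  (h.same hH ht).conv (Cv.conv_mono (Cv.conv_freeze h.conv h.oΩ hk) fun _ hp => h.sub ⟨hp.1, ht⟩)

end Lm

end Crest.Agent.N250.SL

end
end

-- ▼ part N250/SL/Main
section

/-!
# Row 250 (helper16): the static limit
-/

set_option autoImplicit false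
open MeasureTheory Set Filter Topology Metric
open scoped ContDiff InnerProductSpace
open Crest.GeometryTopology.MCF

noncomputable section

namespace Crest.Agent.N250.SL

open CFl

variable {α : Type} {Fk : α → Mv} {F : Mv} {Ω : Set ST} {O Z : Set E} {Ik : α → Set ℝ} {Λ G : ℝ}

lemma fr_A2 (hF : F.Reg) {t s : ℝ} {x : E} (hx : (x, t) ∈ F.M) :
    (F.freeze t).A2 (x, s) = F.A2 (x, t) := by
  have e : ∀ a b, (F.freeze t).A a b (x, s) = F.A a b (x, t) := fun a b =>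
    SS.freeze_D hF (Tr.sm_nu hF b) (p := (x, s)) hx a
  simp only [Mv.A2, Finset.sum_apply, Pi.mul_apply, e]

namespace Lm

section
variable {l : Filter α} (h : Lm l Fk F Ω O) (hH : ∀ p ∈ F.M, p.2 ≤ 0 → F.H p = 0)
include h hH

/-- lower semicontinuity on open sets -/
lemma lsc [l.NeBot] (hμ : ConvMuS) (hk : ∀ᶠ k in l, Fl (Fk k) (Ik k) Λ) {g : PNA → ℝ}
    (hg : Continuous g) (hp : ∀ q, 0 ≤ g q) {U : Set E} (hU : IsOpen U) {tk : α → ℝ} {t : ℝ}
    (ht : t ≤ 0) (htk : Tendsto tk l (𝓝 t)) {c : ENNReal}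
    (hc : ∀ᶠ k in l, ∫⁻ x in U, ENNReal.ofReal (g (jt (Fk k) (tk k) x)) ∂(Fk k).mu (tk k) ≤ c) :
    ∫⁻ x in U, ENNReal.ofReal (g (jt F 0 x)) ∂F.mu 0 ≤ c := by
  have e : U =ᵐ[F.mu 0] (U ∩ O : Set E) := by
    filter_upwards [Hu.ae_sl h.mcf.1 0] with x hx
    exact propext ⟨fun a => ⟨a, h.inO hx⟩, fun a => a.1⟩
  rw [setLIntegral_congr e]
  refine open_sup (hU.inter h.oO) fun K k1 k2 => ?_
  obtain ⟨χ, K', c1, k3, k4, c2, c3, c4, c5⟩ := exists_cut k1 (hU.inter h.oO) k2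
  have g1 : Continuous fun q : PNA => χ q.1 * g q := by fun_prop
  have g0 : ∀ q : PNA, q.1 ∉ K' → χ q.1 * g q = 0 := fun q hq => by rw [c5 _ hq, zero_mul]
  have e1 := ENNReal.tendsto_ofReal
    (h.conv_top hH hμ k3 (k4.trans inter_subset_right) g1 g0 ht htk)
  have i0 := h.intg k3 (k4.trans inter_subset_right) le_rfl
    (g1.comp_continuousOn (cont_jt h.mcf.1 0)) fun x hx => g0 _ hx
  refine le_trans ?_ (le_of_tendsto e1 ?_)
  · refine le_trans ?_ (ofReal_integral_eq_lintegral_ofReal i0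
      (.of_forall fun x => mul_nonneg (c2 _) (hp _))).ge
    rw [← lintegral_indicator k1.measurableSet]
    refine lintegral_mono fun x => ?_
    by_cases hx : x ∈ K
    · rw [indicator_of_mem hx, Function.comp_apply, show χ (jt F 0 x).1 = 1 from c4 x hx, one_mul]
    · rw [indicator_of_notMem hx]; exact zero_le
  · filter_upwards [hk, hc] with k f1 f2
    rw [ofReal_integral_eq_lintegral_ofReal (intg_fl f1 k3 (tk k) g1 g0)
      (.of_forall fun x => mul_nonneg (c2 _) (hp _))]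
    refine le_trans ?_ f2
    rw [← lintegral_indicator hU.measurableSet]
    refine lintegral_mono fun x => ?_
    by_cases hx : x ∈ U
    · rw [indicator_of_mem hx]
      exact ENNReal.ofReal_le_ofReal (mul_le_of_le_one_left (hp _) (c3 _))
    · rw [show χ (jt (Fk k) (tk k) x).1 = 0 from c5 x fun h => hx (k4 h).1, zero_mul,
        ENNReal.ofReal_zero]
      exact zero_le

lemma ar [l.NeBot] (hμ : ConvMuS) (hk : ∀ᶠ k in l, Fl (Fk k) (Ik k) Λ) : (F.freeze 0).AR Λ :=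
  fun _ y r hr => by
    have := h.lsc hH hμ hk (g := fun _ => 1) continuous_const (fun _ => zero_le_one)
      (U := ball y r) isOpen_ball le_rfl (tk := fun _ => 0) tendsto_const_nhds
      (c := ENNReal.ofReal (Λ * r ^ 2)) (hk.mono fun k f => by
        simpa only [ENNReal.ofReal_one, setLIntegral_one] using f.ar 0 y r hr)
    simp only [ENNReal.ofReal_one, setLIntegral_one] at this
    exact this

lemma sm [l.NeBot] (hμ : ConvMuS) (hk : ∀ᶠ k in l, Fl (Fk k) (Ik k) Λ) : Min.SM (F.freeze 0) Λ :=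
  ⟨SS.freeze_reg h.mcf.1 0, ⟨fun _ _ => Iff.rfl, fun _ _ => rfl, fun _ => rfl⟩,
    fun p hp => (SS.freeze_H h.mcf.1 hp).trans (hH (p.1, 0) hp le_rfl), h.ar hH hμ hk⟩

omit hH in
lemma pr_fr : (F.freeze 0).Proper (O ×ˢ univ) := fun p hp hO =>
  h.pr _ (map_mem_closure (f := fun q : ST => ((q.1, 0) : ST)) (by fun_prop) hp fun _ h => h)
    (h.sub ⟨hO.1, self_mem_Iic⟩)

end

/-- finite total curvature -/
lemma a2_le {l : Ultrafilter α} (h : Lm l Fk F Ω O) (hH : ∀ p ∈ F.M, p.2 ≤ 0 → F.H p = 0)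
    (hμ : ConvMuS) (hk : ∀ᶠ k in (l : Filter α), Fl (Fk k) (Ik k) Λ)
    (hG : ∀ᶠ k in (l : Filter α), LGB (Fk k) G) (h2 : H2Van l Fk) :
    ∫⁻ x, ENNReal.ofReal ((F.freeze 0).A2 (x, 0)) ∂(F.freeze 0).mu 0 ≤ ENNReal.ofReal G := by
  have e : ∫⁻ x, ENNReal.ofReal ((F.freeze 0).A2 (x, 0)) ∂(F.freeze 0).mu 0 =
      ∫⁻ x in univ, ENNReal.ofReal (F.A2 (x, 0)) ∂F.mu 0 := by
    rw [Measure.restrict_univ]
    exact lintegral_congr_ae ((Hu.ae_sl h.mcf.1 0).mono fun x hx => by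
      simp only [fr_A2 h.mcf.1 hx])
  rw [e]
  refine open_sup isOpen_univ fun K k1 _ => ?_
  obtain ⟨R, hR, r1⟩ := k1.isBounded.subset_ball_lt 0 0
  refine (lintegral_mono_set r1).trans ?_
  have t0 : Tendsto (fun ε : ℝ => ENNReal.ofReal G * (1 + ENNReal.ofReal ε)) (𝓝[>] 0)
      (𝓝 (ENNReal.ofReal G)) := by
    simpa using ENNReal.Tendsto.const_mul (a := ENNReal.ofReal G)
      ((ENNReal.tendsto_ofReal (tendsto_nhdsWithin_of_tendsto_nhds (s := Ioi (0 : ℝ))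
        (tendsto_id (x := 𝓝 (0 : ℝ))))).const_add 1) (Or.inr ENNReal.ofReal_ne_top)
  refine ge_of_tendsto t0 (eventually_mem_nhdsWithin.mono fun ε hε => ?_)
  obtain ⟨tk, t, a1, a2, a3⟩ := pick h2 (2 * R) (t₁ := -2) (t₂ := -1) (by norm_num) (by norm_num) hε
  have := h.lsc hH hμ hk (g := fun q => ∑ a, ∑ b, q.2.2 a b * q.2.2 a b) (by fun_prop)
    (fun _ => Finset.sum_nonneg fun _ _ => Finset.sum_nonneg fun _ _ => mul_self_nonneg _)
    (U := ball 0 R) isOpen_ball (by linarith [a1.2]) a2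
    (c := ENNReal.ofReal G * (1 + ENNReal.ofReal ε)) (by
      filter_upwards [hG, a3] with k f1 f2
      simp only [← jt_A2]
      exact (f1 (tk k) 0 R hR).trans (by gcongr))
  simpa only [← jt_A2] using this

/-- no mass is lost at a locally finite set -/
lemma fs_lim {l : Filter α} [l.NeBot] (h : Lm l Fk F Ω Zᶜ) (hH : ∀ p ∈ F.M, p.2 ≤ 0 → F.H p = 0)
    (hμ : ConvMuS) (hk : ∀ᶠ k in l, Fl (Fk k) (Ik k) Λ) (hZ : ∀ R, (Z ∩ ball 0 R).Finite)
    {tk : α → ℝ} {t : ℝ} (y : E) {s : ℝ} (ht : t ≤ 0) (hs : 0 < s) (htk : Tendsto tk l (𝓝 t)) :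
    Tendsto (fun k => (Fk k).Fs (tk k) y s) l (𝓝 ((F.freeze 0).Fs 0 y s)) := by
  refine Metric.tendsto_nhds.2 fun ε hε => ?_
  set L := max Λ 0
  have hL : 0 ≤ L := le_max_right _ _
  obtain ⟨R, hR, r1⟩ := exists_R (Gau.C0 * L) (by positivity : 0 < ε / 5)
  obtain ⟨D, d1⟩ := (isBounded_closedBall (x := y) (r := R * √s)).subset_ball (0 : E)
  set T := (hZ D).toFinset
  set ρ := √(ε / 5 / (T.card * (s⁻¹ * L) + 1)) with hρ
  have ρ0 : 0 < ρ := by positivity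
  have ρ1 : T.card * (s⁻¹ * (L * ρ ^ 2)) ≤ ε / 5 := by
    rw [hρ, Real.sq_sqrt (by positivity)]
    have : ε / 5 / (T.card * (s⁻¹ * L) + 1) * (T.card * (s⁻¹ * L) + 1) = ε / 5 := by field_simp
    have : 0 < ε / 5 / (T.card * (s⁻¹ * L) + 1) := by positivity
    nlinarith
  obtain ⟨χ, K', c1, k3, k4, c2, c3, c4, c5⟩ := exists_cut
    (K := closedBall y (R * √s) \ ⋃ z ∈ T, ball z ρ)
    ((isCompact_closedBall _ _).diff (isOpen_biUnion fun _ _ => isOpen_ball)) h.oO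
    fun x hx hz => hx.2 (mem_biUnion ((hZ D).mem_toFinset.2 ⟨hz, d1 hx.1⟩) (mem_ball_self ρ0))
  have tl := fun (μ : Measure E) (hμ : Gau.Rat μ L) => tail_gen hL hμ (y := y) hs hR ρ0 T c1 c2 c3
    fun x hx hz => c4 x ⟨ball_subset_closedBall hx, fun hx => by
      obtain ⟨z, z1, z2⟩ := mem_iUnion₂.1 hx
      exact hz z z1 z2⟩
  have e1 := (Metric.tendsto_nhds.1 (h.conv_top hH hμ k3 k4
    (g := fun q => χ q.1 * gau y s q.1)
    ((c1.comp continuous_fst).mul ((Gau.gau_cont y s).comp continuous_fst))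
    (fun q hq => by rw [c5 _ hq, zero_mul]) ht htk)) (ε / 5) (by positivity)
  have b2 := abs_le.1 (tl _ (Gau.rat_of_AR (h.ar hH hμ hk) 0))
  filter_upwards [e1, hk] with k e1 f1
  have b1 := abs_le.1 (tl _ (Gau.rat_of_AR f1.ar (tk k)))
  simp only [jt, Real.dist_eq] at e1 ⊢
  rw [abs_lt] at e1 ⊢
  have e : (F.freeze 0).mu 0 = F.mu 0 := rfl
  unfold Mv.Fs
  rw [e] at b2 ⊢
  constructor <;> linarith [b1.1, b1.2, b2.1, b2.2, e1.1, e1.2]

end Lm

lemma closed_of (hZ : ∀ R, (Z ∩ ball 0 R).Finite) : IsClosed Z :=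
  isClosed_of_closure_subset fun x hx => by
    have h1 := isOpen_ball.closure_inter (s := Z) (t := ball (0 : E) (‖x‖ + 1))
      ⟨hx, by rw [mem_ball_zero_iff]; linarith⟩
    rw [(hZ _).isClosed.closure_eq] at h1
    exact h1.1

/-- smooth convergence off `Z` -/
lemma stage (hC : CptS) {e c : ℝ} (he : 0 < e) (hc : 0 < c)
    (hW : ∀ (F : Mv) (a b t : ℝ) (y : E) (r : ℝ), Fl F (Ioo a b) Λ → 0 < r → a < t →
      t + r ^ 2 ≤ b → F.Fs t y (r ^ 2) ≤ 1 + e →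
      ∀ p ∈ F.M ∩ PC (y, t + r ^ 2) (c * r), F.Reach p (c * r))
    {l : Ultrafilter α} {a b : α → ℝ}
    (h1 : ∀ᶠ k in (l : Filter α), Fl (Fk k) (Ioo (a k) (b k)) Λ ∧ 1 ≤ b k) (ha : Tendsto a l atBot)
    (h2 : H2Van l Fk) (hZ : IsClosed Z)
    (hg : ∀ p ∉ Z, ∃ r t₁ t₂ : ℝ, 0 < r ∧ t₂ < 0 ∧
      ∀ᶠ k in (l : Filter α), ∃ t ∈ Icc t₁ t₂, (Fk k).Fs t p (r ^ 2) ≤ 1 + e / 2) :
    ∃ F Ω, Lm l Fk F Ω Zᶜ := by
  set Ω : Set ST := {p | p.1 ∉ Z ∧ ∃ U ∈ 𝓝 p, ∃ ρ, 0 < ρ ∧ ∀ᶠ k in (l : Filter α),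
    (Fk k).IsMCF ∧ (Fk k).Proper U ∧ ∀ q ∈ (Fk k).M ∩ U, (Fk k).Reach q ρ} with hΩ
  have o : IsOpen Ω := isOpen_iff_mem_nhds.2 fun p ⟨p1, U, u1, u2⟩ => by
    filter_upwards [(hZ.isOpen_compl.preimage continuous_fst).mem_nhds p1,
      eventually_mem_nhds_iff.2 u1] with q q1 q2 using ⟨q1, U, q2, u2⟩
  obtain ⟨F, f1, f2, f3, f4⟩ := hC α l Fk Ω o fun p hp => hp.2
  refine ⟨F, Ω, o, hZ.isOpen_compl, ?_, fun p hp => ⟨hp.1, trivial⟩, f1, f2, f3, f4⟩
  rintro ⟨p, t₀⟩ ⟨hp, ht⟩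
  have ht : t₀ ≤ 0 := ht
  obtain ⟨r, t₁, t₂, r0, t2, g1⟩ := hg p hp
  set κ := min (min ((c * r) ^ 2 / 2) (r ^ 2 / 2)) 1 with hκ
  have κ0 : 0 < κ := by positivity
  have κ1 : κ ≤ 1 := min_le_right _ _
  have κ2 : κ ≤ (c * r) ^ 2 / 2 := (min_le_left _ _).trans (min_le_left _ _)
  have κ3 : κ ≤ r ^ 2 / 2 := (min_le_left _ _).trans (min_le_right _ _)
  have r2 : 0 < r ^ 2 := by positivity
  refine ⟨hp, ball p (c * r) ×ˢ Ioo (t₀ - κ) (t₀ + κ), prod_mem_nhds (ball_mem_nhds _ (by positivity))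
    (Ioo_mem_nhds (by linarith) (by linarith)), c * r, by positivity, ?_⟩
  filter_upwards [h1, g1, ha.eventually (eventually_lt_atBot (t₀ - 1 - r ^ 2)),
    tm_fs h1 ha h2 p r2 (t₁ := min t₁ (t₀ + κ - r ^ 2)) (t₂ := max t₂ (t₀ + κ - r ^ 2))
      (max_lt t2 (by linarith)) (half_pos he)] with k ⟨k1, k2⟩ ⟨t, k3, k4⟩ k5 k6
  refine ⟨k1.mcf, k1.proper.mono_set fun q hq => ⟨trivial, by linarith [hq.2.1], by linarith [hq.2.2]⟩,
    fun q hq => hW _ _ _ (t₀ + κ - r ^ 2) p r k1 r0 (by linarith) (by linarith) ?_ q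
      ⟨hq.1, hq.2.1, ?_, ?_⟩⟩
  · linarith [k6 t ⟨(min_le_left _ _).trans k3.1, k3.2.trans (le_max_left _ _)⟩ _
      ⟨min_le_right _ _, le_max_right _ _⟩]
  · have := hq.2.2.1; simp only; linarith
  · have := hq.2.2.2; simp only; linarith

end SL

open SL in
theorem slimS_of (hC : CptS) (hμ : ConvMuS) (hW : A.W1S) (hA : Min.AtomS) : SLimS := by
  intro Λ
  obtain ⟨e, c, he, hc, hW⟩ := hW Λ
  refine ⟨e / 2, half_pos he, fun G α l Fk a b Z h1 ha h2 hZ hg => ?_⟩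
  have k1 : ∀ᶠ k in (l : Filter α), Fl (Fk k) (Ioo (a k) (b k)) Λ := h1.mono fun k h => h.1
  have k2 : ∀ᶠ k in (l : Filter α), LGB (Fk k) G := h1.mono fun k h => h.2.1
  have k3 : ∀ᶠ k in (l : Filter α), Fl (Fk k) (Ioo (a k) (b k)) Λ ∧ 1 ≤ b k :=
    h1.mono fun k h => ⟨h.1, h.2.2⟩
  obtain ⟨F₀, Ω₀, h₀⟩ := stage hC he hc hW k3 ha h2 (closed_of hZ) hg
  have H₀ := fun p => H_zero hμ h₀ k1 h2 (p := p)
  obtain ⟨F, Ω, h⟩ := stage (Z := ∅) hC he hc hW k3 ha h2 isClosed_empty fun p _ => by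
    by_cases hp : p ∈ Z
    swap
    · exact hg p hp
    obtain ⟨r₀, r0, r1⟩ := Metric.isOpen_iff.1 (closed_of (Z := Z \ {p}) fun R =>
      (hZ R).subset (inter_subset_inter_left _ diff_subset)).isOpen_compl p fun h => h.2 rfl
    obtain ⟨R, R1, R2⟩ := ((hA _ Λ p r₀ (h₀.sm H₀ hμ k1) r0
      (h₀.pr_fr.mono_set (Set.prod_mono (fun x hx hz => r1 hx.1 ⟨hz, hx.2⟩) Subset.rfl))
      (((setLIntegral_le_lintegral _ _).trans (h₀.a2_le H₀ hμ k1 k2 h2)).trans_lt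
        ENNReal.ofReal_lt_top).ne (e / 4) (by positivity)).and self_mem_nhdsWithin).exists
    have R2 : 0 < R := R2
    refine ⟨R, -1, -1, R2, by norm_num, ?_⟩
    filter_upwards [(h₀.fs_lim H₀ hμ k1 hZ p (tk := fun _ => -1) (by norm_num) (pow_pos R2 2)
      tendsto_const_nhds).eventually (gt_mem_nhds (show _ < 1 + e / 2 by linarith))] with k hk
    exact ⟨-1, ⟨le_rfl, le_rfl⟩, hk.le⟩
  have H := fun p => H_zero hμ h k1 h2 (p := p)
  have s := h.sm H hμ k1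
  refine ⟨F.freeze 0, ⟨s.reg, s.st, isClosed_of_closure_subset fun p hp =>
    h.pr_fr p hp ⟨notMem_empty _, trivial⟩, s.min, s.ar⟩, h.a2_le H hμ k1 k2 h2, ?_,
    fun tk t ht htk => ?_,
    fun tk t y s ht hs htk => h.fs_lim H hμ k1 (fun R => by simp) y ht hs htk⟩
  · simpa only [compl_empty] using h.conv_st H
  · simpa only [compl_empty, univ_prod_univ] using h.conv_fr H ht htk

theorem MinS.isMCF {S : Mv} {Λ : ℝ} (h : MinS S Λ) : S.IsMCF :=
  ⟨h.reg, fun p hp => by rw [h.st.V_eq, h.min p hp, neg_zero]⟩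

theorem MinS.fl {S : Mv} {Λ : ℝ} (h : MinS S Λ) : Fl S univ Λ :=
  ⟨h.isMCF, fun _ _ => trivial, fun _ hp _ => h.closed.closure_subset hp, h.ar⟩

theorem MinS.sm {S : Mv} {Λ : ℝ} (h : MinS S Λ) : Min.SM S Λ := ⟨h.reg, h.st, h.min, h.ar⟩

end Crest.Agent.N250

end
end

-- ▼ part N250/SL/Flat
section

/-!
# Row 250, block A (helper89): density one at infinity gives a plane
-/

set_option autoImplicit false
open MeasureTheory Set Filter Topology Metric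
open scoped ContDiff InnerProductSpace
open Crest.GeometryTopology.MCF

noncomputable section

namespace Crest.Agent.N250.SL

theorem res_sl' (S : Mv) {J : Set ℝ} {t : ℝ} (ht : t ∈ J) : (S.res (univ ×ˢ J)).sl t = S.sl t :=
  Set.ext fun _ => ⟨fun h => h.1, fun h => ⟨h, trivial, ht⟩⟩

theorem flatS_of (hW : A.W1S) (hR : ReachAS) : FlatS := by
  intro S Λ p hS hd q hq
  obtain ⟨e, c, he, hc, hW⟩ := hW Λ
  have key : ∀ ρ, 0 < ρ → S.Reach q ρ := fun ρ hρ => by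
    obtain ⟨R, h1, h2, h3⟩ := ((hd e he).and_eventually ((eventually_ge_atTop (ρ / c)).and
      (eventually_gt_atTop (dist q.1 p / c)))).exists
    rw [div_le_iff₀ hc] at h2
    rw [div_lt_iff₀ hc] at h3
    have hR0 : 0 < R := by nlinarith
    have hR2 : 0 < R ^ 2 := by positivity
    have hJ : q.2 ∈ Ioo (q.2 - R ^ 2 - 1) (q.2 + 1) := ⟨by linarith, by linarith⟩
    have hJ' : q.2 - R ^ 2 ∈ Ioo (q.2 - R ^ 2 - 1) (q.2 + 1) := ⟨by linarith, by linarith⟩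
    have h4 := hW (S.res (univ ×ˢ Ioo (q.2 - R ^ 2 - 1) (q.2 + 1))) _ _ (q.2 - R ^ 2) p R
      (E.fl_res hS.fl isOpen_Ioo (subset_univ _)
        (Tr.res_mcf (isOpen_univ.prod isOpen_Ioo) hS.isMCF)) hR0 (by linarith) (by linarith)
      (by rwa [Mv.Fs, Mv.mu, res_sl' S hJ', CS.st_sl hS.st _ 0]) q
      ⟨⟨hq, trivial, hJ⟩, mem_ball.2 (by simpa [mul_comm] using h3),
        by have : 0 < (c * R) ^ 2 := by positivity
           simp only; linarith, by simp⟩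
    have h5 : S.Reach q (c * R) := fun y hy => h4 y ((res_sl' S hJ).symm ▸ hy)
    exact h5.mono_reg hS.reg hq (by linarith)
  refine ⟨le_antisymm ?_ (CS.A2_nonneg _ _), key⟩
  have h1 : Tendsto (fun ρ : ℝ => 2 / ρ ^ 2) atTop (𝓝 0) :=
    tendsto_const_nhds.div_atTop (tendsto_pow_atTop two_ne_zero)
  refine ge_of_tendsto h1 ?_
  filter_upwards [eventually_gt_atTop 0] with ρ hρ
  exact (hR S hS.reg q hq ρ hρ (key ρ hρ)).2

end Crest.Agent.N250.SL

end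
end

-- ▼ part N250/Top/A
section

/-!
# Row 250: block A assembled (helper20)
-/

set_option autoImplicit false

namespace Crest.Agent.N250.Top

theorem w1 : A.W1S := A.w1S_of TA.white huiskenS_holds

theorem dec : Min.DecS := Min.decS_of (CS.csS_of wMonoS_holds bernS_holds)

theorem endM : Min.EndS :=
  Min.endS_of (Min.blS_of TA.cpt Cv.convJetS_holds convMuS_holds convReachS_holds Min.flS_holds)

theorem atom : Min.AtomS := Min.atomS_of Min.anS_holds dec endM reachPosS_holds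

theorem inf : Min.InfS := Min.infS_of Min.anS_holds dec endM

theorem altI : A.AltIS := A.altIS_of K.kIS_holds A.a1S_holds w1 reachAS_holds

theorem altII : A.AltIIS :=
  A.altIIS_of A.kMassS_holds A.kAtS_holds A.kSphS_holds A.a1S_holds
    (slimS_of TA.cpt convMuS_holds w1 atom) (SL.flatS_of w1 reachAS_holds) inf Min.sphS_holds
    Cv.convJetS_holds convMuS_holds convReachS_holds

theorem bar : A.BarS :=
  A.barS_of (A.keyS_of altI altII) (A.cfgS_of A.costS_holds) A.crS_holds MP.twoS_holds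
    A.psiCS_holds A.psiSubS_holds reachPosS_holds

/-- **block A** -/
theorem aStmt : AStmt :=
  A.aStmt_of (A.stmS_of muContS_holds) bar (A.finS_of A.a2S_holds huiskenS_holds) w1 huiskenS_holds

end Crest.Agent.N250.Top
end

-- ▼ part N250/R/Cone
section

/-!
# Row 250, block R (helper59): S1, a surface close to a model is flat at a fixed scale
-/

set_option autoImplicit false
open MeasureTheory Set Filter Topology
open scoped ContDiff InnerProductSpace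
open Crest.GeometryTopology.MCF

noncomputable section

namespace Crest.Agent.N250.S1

open Tb

theorem reach_le {F : Mv} {x : E} {t ρ ρ' : ℝ} (hF : F.Reg) (hx : x ∈ F.sl t)
    (h : F.Reach (x, t) ρ) (h0 : 0 < ρ') (h1 : ρ' ≤ ρ) : F.Reach (x, t) ρ' :=
  reach_of_fed (hF.norm_n (p := (x, t)) hx) h0 fun z hz =>
    le_trans (by gcongr) (fed (hF.norm_n (p := (x, t)) hx) (h0.trans_le h1) h hz)

/-- two unit vectors that are almost parallel -/
theorem inner_le {n ν w : E} {e : ℝ} (hn : ‖n‖ = 1) (hν : ‖ν‖ = 1) (he : 0 ≤ e)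
    (h : 1 - ⟪n, ν⟫_ℝ ^ 2 ≤ e ^ 2) : |⟪w, n⟫_ℝ| ≤ |⟪ν, w⟫_ℝ| + e * ‖w‖ := by
  have h1 : ‖n - ⟪n, ν⟫_ℝ • ν‖ ≤ e := by
    refine (sq_le_sq₀ (norm_nonneg _) he).1 ?_
    rw [norm_sub_smul_sq _ _ hν, hn, real_inner_comm n ν]
    linarith
  have h2 : |⟪n, ν⟫_ℝ| ≤ 1 := by simpa [hn, hν] using abs_real_inner_le_norm n ν
  have h3 : ⟪w, n⟫_ℝ = ⟪n, ν⟫_ℝ * ⟪ν, w⟫_ℝ + ⟪n - ⟪n, ν⟫_ℝ • ν, w⟫_ℝ := by
    rw [inner_sub_left, real_inner_smul_left, real_inner_comm w n]; ring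
  rw [h3]
  refine (abs_add_le _ _).trans (add_le_add ?_ ?_)
  · rw [abs_mul]; exact mul_le_of_le_one_left (abs_nonneg _) h2
  · exact (abs_real_inner_le_norm _ _).trans (by gcongr)

/-- S1 -/
theorem s1 {η₀ ρ₀ : ℝ} (hη : 0 < η₀) (hρ : 0 < ρ₀) : ∃ a₀, 0 < a₀ ∧ a₀ ≤ 1 ∧ ∀ c, 0 < c →
    ∃ δ, 0 < δ ∧ ∀ (S N : Mv) (t t' : ℝ) (U V : Set E), S.Reg →
      (∀ y ∈ S.sl t, y ∈ V → S.Reach (y, t) ρ₀) → N.Reg → IsOpen U →
      (∀ y ∈ N.sl t', y ∈ U → N.Reach (y, t') c) →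
      (∀ y ∈ closure (N.sl t'), y ∈ U → y ∈ N.sl t') →
      (∀ w ∈ N.sl t', w ∈ U → w ∈ tube S t V ρ₀ ∧ |sd S t w| ≤ δ) →
      ∀ x ∈ N.sl t', Metric.closedBall x 1 ⊆ U → A.Cone N (x, t') η₀ a₀ := by
  obtain ⟨η, hη0, hη1, hη2⟩ : ∃ η, 0 < η ∧ η ≤ 1 ∧ η ≤ η₀ :=
    ⟨min 1 η₀, lt_min one_pos hη, min_le_left _ _, min_le_right _ _⟩
  refine ⟨min 1 (η * ρ₀ / 6), lt_min one_pos (by positivity), min_le_left _ _, fun c hc => ?_⟩
  obtain ⟨ρ, h0, h1, h2⟩ : ∃ ρ, 0 < ρ ∧ ρ ≤ c ∧ ρ ≤ ρ₀ :=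
    ⟨min c ρ₀, lt_min hc hρ, min_le_left _ _, min_le_right _ _⟩
  obtain ⟨δ, d0, d1, d2⟩ : ∃ δ, 0 < δ ∧ δ ≤ ρ * η ^ 2 / 225 ∧ δ ≤ 1 / (4 * ρ) :=
    ⟨min _ _, lt_min (by positivity) (by positivity), min_le_left _ _, min_le_right _ _⟩
  refine ⟨δ, d0, fun S N t t' U V hS hRS hN hU hR hC hT x hx hB => ?_⟩
  refine A.Cone.mono (η := η) (fun y hy hl => ?_) hη2 le_rfl
  simp only at hy hl ⊢
  have hxU := hB (Metric.mem_closedBall_self zero_le_one)
  have hR' : ∀ y ∈ N.sl t', y ∈ U → N.Reach (y, t') ρ := fun y a b => reach_le hN a (hR y a b) h0 h1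
  have η2 : η ^ 2 ≤ η := by nlinarith
  have d3 : δ ≤ ρ * η / 225 := d1.trans (by gcongr)
  by_cases hs : ‖y - x‖ ≤ 2 * ρ * η
  · have := fed (hN.norm_n (p := (x, t')) hx) h0 (hR' x hx hxU) hy
    rw [real_inner_comm]
    refine le_of_mul_le_mul_left (this.trans ?_) (show 0 < 2 * ρ by positivity)
    nlinarith [norm_nonneg (y - x)]
  push Not at hs
  have hyU : y ∈ U := hB (by
    rw [Metric.mem_closedBall, dist_eq_norm]; exact hl.le.trans (min_le_left _ _))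
  obtain ⟨tx, sx⟩ := hT x hx hxU
  obtain ⟨ty, sy⟩ := hT y hy hyU
  have hq : 2 * √(δ * ρ) ≤ 1 := by
    have : √(δ * ρ) ≤ 1 / 2 := Real.sqrt_le_iff.2 ⟨by norm_num, by
      rw [le_div_iff₀ (by positivity)] at d2; linarith⟩
    linarith
  have hB' := (Metric.closedBall_subset_closedBall hq).trans hB
  have hn := hS.norm_n (p := (_, t)) (pr_mem hS hRS tx)
  have g := gr hS hN hU hR' hC hx d0 (by nlinarith) hB'
    (fun w a b => ⟨_, pr_mem hS hRS (hT w a (hB' b)).1,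
      (dist_pr hS hRS (hT w a (hB' b)).1).trans_le (hT w a (hB' b)).2⟩)
    (pr_mem hS hRS tx) (reach_le hS (pr_mem hS hRS tx) (pr_reach hS hRS tx) h0 h2) sx
    (dec hS hRS tx)
  have g1 := inner_le (w := y - x) (e := η / 3) (hN.norm_n (p := (x, t')) hx) hn (by positivity)
    (g.trans (by rw [div_le_iff₀ h0]; linarith))
  have f := fed hn hρ (pr_reach hS hRS tx) (pr_mem hS hRS ty)
  have ex : ‖x - pr S t x‖ ≤ δ := by rw [← dist_eq_norm, dist_pr hS hRS tx]; exact sx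
  have ey : ‖y - pr S t y‖ ≤ δ := by rw [← dist_eq_norm, dist_pr hS hRS ty]; exact sy
  have e1 : ‖(y - x) - (pr S t y - pr S t x)‖ ≤ 2 * δ := by
    rw [show (y - x) - (pr S t y - pr S t x) = (y - pr S t y) - (x - pr S t x) by abel]
    linarith [norm_sub_le (y - pr S t y) (x - pr S t x)]
  have e2 : ‖pr S t y - pr S t x‖ ≤ 2 * ‖y - x‖ := by
    have := norm_sub_norm_le (pr S t y - pr S t x) (y - x)
    rw [norm_sub_rev] at e1
    nlinarith [mul_pos h0 hη0]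
  have e3 : |⟪S.n (pr S t x, t), y - x⟫_ℝ| ≤
      |⟪S.n (pr S t x, t), pr S t y - pr S t x⟫_ℝ| + 2 * δ := by
    have := abs_real_inner_le_norm (S.n (pr S t x, t)) ((y - x) - (pr S t y - pr S t x))
    rw [hn, one_mul, inner_sub_right] at this
    linarith [abs_sub_abs_le_abs_sub ⟪S.n (pr S t x, t), y - x⟫_ℝ
      ⟪S.n (pr S t x, t), pr S t y - pr S t x⟫_ℝ]
  have e4 : |⟪S.n (pr S t x, t), pr S t y - pr S t x⟫_ℝ| ≤ η / 3 * ‖y - x‖ := by
    refine le_of_mul_le_mul_left (f.trans ?_) (show 0 < 2 * ρ₀ by positivity)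
    have h3 := hl.le.trans (min_le_right _ _)
    have h4 := pow_le_pow_left₀ (norm_nonneg _) e2 2
    nlinarith [mul_le_mul_of_nonneg_right h3 (norm_nonneg (y - x))]
  have e5 : 2 * δ ≤ η / 3 * ‖y - x‖ := by
    nlinarith [mul_le_mul_of_nonneg_left hs.le hη0.le, mul_pos h0 (pow_pos hη0 2)]
  linarith

end Crest.Agent.N250.S1

end
end

-- ▼ part N250/R/Static
section

/-!
# Row 250, block R (helper63): the induction in the radius, `StaticS` from its leaves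
-/

set_option autoImplicit false
open MeasureTheory Set Filter Topology
open scoped ContDiff InnerProductSpace
open Crest.GeometryTopology.MCF

noncomputable section

namespace Crest.Agent.N250.R

theorem fv_le {n : ℕ} {f : Fin n → E → ℝ} (hs : ∀ i, ContDiff ℝ ∞ (f i))
    (hc : ∀ i, HasCompactSupport (f i)) {ρ : ℝ} (hρ : 0 < ρ) : ∃ K : ℝ, 0 < K ∧
    ∀ (G : Mv) (y : E) (c : Fin n → ℝ), G.Reg → y ∈ G.sl 0 → G.Reach (y, 0) ρ →
      |∑ i, c i * G.fv (f i) (y, 0)| ≤ K * ‖c‖ * gau 0 1 y := by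
  have h1 : ∀ i, ∃ K : ℝ, ∀ y, (‖fderiv ℝ (f i) y‖ + 3 / ρ * |f i y|) * (gau 0 1 y)⁻¹ ≤ K := by
    intro i
    have c1 : Continuous fun y => (‖fderiv ℝ (f i) y‖ + 3 / ρ * |f i y|) * (gau 0 1 y)⁻¹ :=
      ((((hs i).continuous_fderiv (by simp)).norm).add
        (continuous_const.mul (hs i).continuous.abs)).mul
        ((A.gau_cont 0 1).inv₀ fun y => (A.gau_pos one_pos 0 y).ne')
    have c2 : HasCompactSupport
        fun y => (‖fderiv ℝ (f i) y‖ + 3 / ρ * |f i y|) * (gau 0 1 y)⁻¹ :=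
      (((hc i).fderiv (𝕜 := ℝ)).norm.add (HasCompactSupport.mul_left (hc i).abs)).mul_right
    obtain ⟨K, hK⟩ := c2.exists_bound_of_continuous c1
    exact ⟨K, fun y => (le_abs_self _).trans (hK y)⟩
  choose K hK using h1
  refine ⟨∑ i, |K i| + 1, by positivity, fun G y c hG hy hR => ?_⟩
  have hg := A.gau_pos one_pos 0 y
  have hH : |G.H (y, 0)| ≤ 3 / ρ := by
    have h2 : ∀ a, |G.A a a (y, 0)| ≤ 1 / ρ := fun a => by
      have := (reachAS_holds G hG (y, 0) hy ρ hρ hR).1 (Pi.single a 1)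
      simpa [Pi.single_apply] using this
    have e : G.H (y, 0) = ∑ a, G.A a a (y, 0) := by simp [Mv.H]
    rw [e]
    refine (Finset.abs_sum_le_sum_abs _ _).trans ((Finset.sum_le_sum fun a _ => h2 a).trans ?_)
    simp; ring_nf; rfl
  have h3 : ∀ i, |G.fv (f i) (y, 0)| ≤ |K i| * gau 0 1 y := fun i => by
    have h4 := hK i y
    rw [← div_eq_mul_inv, div_le_iff₀ hg] at h4
    refine le_trans ?_ (h4.trans (mul_le_mul_of_nonneg_right (le_abs_self _) hg.le))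
    refine (abs_add_le _ _).trans (add_le_add ?_ ?_)
    · refine (abs_real_inner_le_norm _ _).trans ?_
      rw [hG.norm_n hy, mul_one, gradient, LinearIsometryEquiv.norm_map]
    · rw [abs_mul]; exact mul_le_mul_of_nonneg_right hH (abs_nonneg _)
  calc |∑ i, c i * G.fv (f i) (y, 0)| ≤ ∑ i, ‖c‖ * (|K i| * gau 0 1 y) :=
        (Finset.abs_sum_le_sum_abs _ _).trans (Finset.sum_le_sum fun i _ => by
          rw [abs_mul]
          exact mul_le_mul (norm_le_pi_norm c i) (h3 i) (abs_nonneg _) (norm_nonneg _))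
    _ = (∑ i, |K i|) * ‖c‖ * gau 0 1 y := by
        rw [← Finset.mul_sum, ← Finset.sum_mul]; ring
    _ ≤ _ := by gcongr; linarith

theorem shr_le {G : Mv} {n : ℕ} {f : Fin n → E → ℝ} {c : Fin n → ℝ} {m w K : ℝ} {y : E}
    (h : Lag G f c m w) (hy : y ∈ G.sl 0) (hm : ‖y‖ < m)
    (hK : |∑ i, c i * G.fv (f i) (y, 0)| ≤ K * ‖c‖ * gau 0 1 y) :
    |G.shr (y, 0)| ≤ K * ‖c‖ + w := by
  have hg := A.gau_pos one_pos 0 y
  have h1 := h y hy hm
  have h2 : gau 0 1 y * |G.shr (y, 0)| ≤ gau 0 1 y * (K * ‖c‖ + w) := by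
    rw [← abs_of_pos hg, ← abs_mul, abs_of_pos hg]
    have := abs_sub_abs_le_abs_sub (gau 0 1 y * G.shr (y, 0)) (∑ i, c i * G.fv (f i) (y, 0))
    nlinarith
  exact le_of_mul_le_mul_left h2 hg

theorem ev_quad {a b d : ℝ} (ha : 0 < a) : ∀ᶠ x : ℝ in atTop, d + b * x ≤ a * x ^ 2 := by
  filter_upwards [eventually_ge_atTop (max 1 ((|b| + |d|) / a))] with x hx
  have h1 : 1 ≤ x := (le_max_left _ _).trans hx
  have h2 : |b| + |d| ≤ x * a := (div_le_iff₀ ha).1 ((le_max_right _ _).trans hx)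
  nlinarith [le_abs_self b, le_abs_self d, abs_nonneg d, abs_nonneg b,
    mul_le_mul_of_nonneg_right h2 (show 0 ≤ x by linarith)]

theorem ev_alt (C : ℝ) (N : ℕ) :
    ∃ ρ₁ : ℝ, ∀ ρ, ρ₁ ≤ ρ → C * ρ ^ N * Real.exp (-(ρ - 3) ^ 2 / 8) < 1 := by
  obtain ⟨ρ₁, h⟩ := eventually_atTop.1
    ((ev_quad (a := 1 / 8) (b := N + 1) (d := |C|) (by norm_num)).and (eventually_ge_atTop 0))
  refine ⟨ρ₁, fun ρ hρ => ?_⟩
  obtain ⟨h1, h0⟩ := h ρ hρ
  have e1 : ρ ^ N ≤ Real.exp (N * ρ) := by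
    rw [Real.exp_nat_mul]
    exact pow_le_pow_left₀ h0 (by linarith [Real.add_one_le_exp ρ]) N
  have e2 : C ≤ Real.exp |C| := by linarith [Real.add_one_le_exp |C|, le_abs_self C]
  calc C * ρ ^ N * Real.exp (-(ρ - 3) ^ 2 / 8)
      ≤ Real.exp |C| * Real.exp (N * ρ) * Real.exp (-(ρ - 3) ^ 2 / 8) := by gcongr
    _ = Real.exp (|C| + N * ρ + -(ρ - 3) ^ 2 / 8) := by rw [Real.exp_add, Real.exp_add]
    _ < 1 := Real.exp_lt_one_iff.2 (by nlinarith)

theorem ev_fin {μ η θ : ℝ} (C : ℝ) (hμ : 0 < μ) (hη : η < 1) (h : 2 * θ < μ * (1 - η) ^ 2) :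
    ∀ᶠ R : ℝ in atTop, ∀ s, (1 - η) * R - 1 ≤ s →
      C * Real.exp (-(s - 2) ^ 2 / 8) ^ μ ≤ Real.exp (-θ * R ^ 2 / 4) := by
  filter_upwards [ev_quad (a := (μ * (1 - η) ^ 2 - 2 * θ) / 8) (b := 6 * μ * (1 - η) / 8) (d := |C|)
    (by linarith), (tendsto_id.const_mul_atTop (sub_pos.2 hη)).eventually_ge_atTop 3] with R h1 h2 s hs
  have e2 : C ≤ Real.exp |C| := by linarith [Real.add_one_le_exp |C|, le_abs_self C]
  simp only [id] at h2
  have h3 : ((1 - η) * R - 3) ^ 2 ≤ (s - 2) ^ 2 := pow_le_pow_left₀ (by linarith) (by linarith) 2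
  rw [← Real.exp_mul]
  calc C * Real.exp (-(s - 2) ^ 2 / 8 * μ) ≤ Real.exp |C| * Real.exp (-(s - 2) ^ 2 / 8 * μ) := by
        gcongr
    _ = Real.exp (|C| + -(s - 2) ^ 2 / 8 * μ) := by rw [Real.exp_add]
    _ ≤ _ := Real.exp_le_exp.2 (by nlinarith [mul_le_mul_of_nonneg_left h3 hμ.le])

theorem Nr.mono {N G : Mv} {m ρ₀ r ρ₁ δ δ' : ℝ} (h : Nr N G m ρ₀ r ρ₁ δ) (hδ : δ ≤ δ') :
    Nr N G m ρ₀ r ρ₁ δ' := fun x hx hr => ⟨(h x hx hr).1, (h x hx hr).2.1, (h x hx hr).2.2.trans hδ⟩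

theorem near_mono {G S : Mv} {R R' ε ε' : ℝ} (h : Near G S R ε) (hR : R' ≤ R) (hε : ε ≤ ε') :
    Near G S R' ε' :=
  ⟨fun x hx h1 => by
    obtain ⟨y, a, b, c, d⟩ := h.1 x hx (h1.trans_le hR)
    exact ⟨y, a, b.trans_le hε, c.trans_le hε, fun i j => (d i j).trans_le hε⟩,
  fun y hy h1 => by
    obtain ⟨x, a, b⟩ := h.2 y hy (h1.trans_le hR)
    exact ⟨x, a, b.trans_le hε⟩⟩

theorem closed_sl {N : Mv} (h : IsClosed N.M) (U : Set E) :
    ∀ y ∈ closure (N.sl 0), y ∈ U → y ∈ N.sl 0 := fun y hy _ => by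
  have : IsClosed (N.sl 0) := h.preimage (f := fun x : E => (x, (0 : ℝ))) (by fun_prop)
  rwa [this.closure_eq] at hy

theorem el1 (x : ℝ) {c : ℝ} (hc : 0 < c) : Real.exp (-x ^ 2 / c) ≤ 1 :=
  Real.exp_le_one_iff.2 (div_nonpos_of_nonpos_of_nonneg (neg_nonpos.2 (sq_nonneg x)) hc.le)

theorem ball_sub {x : E} {d r : ℝ} (h : ‖x‖ + d < r) : Metric.closedBall x d ⊆ Metric.ball 0 r :=
  fun u hu => by
    have h5 := norm_le_norm_add_norm_sub' u x
    rw [← dist_eq_norm] at h5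
    have := Metric.mem_closedBall.1 hu
    exact mem_ball_zero_iff.2 (by linarith)

theorem fin_num {C₀ C₂ C₃ A μ μ' s ρ a : ℝ} (hC₀ : 0 < C₀) (C₂p : 0 < C₂) (C₃p : 0 < C₃)
    (m1 : 1 < μ') (m2 : μ' ≤ 4 / 3) (m3 : μ' ≤ μ) (s2 : 2 ≤ s) (sρ : s ≤ ρ) (a0 : 0 ≤ a)
    (t1 : a ≤ C₂ * Real.exp (-(s - 2) ^ 2 / 8)) :
    C₀ * a ^ μ + C₀ * Real.exp (-ρ ^ 2 / 6) + C₃ * ((A * Real.exp (-(s - 2) ^ 2 / 8)) ^ 2 +
      C₂ * Real.exp (-(s - 2) ^ 2 / 8) ^ 2 + Real.exp (-(s - 1) ^ 2 / 5)) ≤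
    (C₀ * C₂ ^ μ + C₀ + C₃ * (A ^ 2 + C₂ + 1)) * Real.exp (-(s - 2) ^ 2 / 8) ^ μ' := by
  have u5 : Real.exp (-(s - 2) ^ 2 / 6) ≤ Real.exp (-(s - 2) ^ 2 / 8) ^ μ' := by
    rw [← Real.exp_mul]; exact Real.exp_le_exp.2 (by nlinarith [sq_nonneg (s - 2)])
  have w0 : 0 < Real.exp (-(s - 2) ^ 2 / 8) := Real.exp_pos _
  have w2 := el1 (s - 2) (c := 8) (by norm_num)
  generalize Real.exp (-(s - 2) ^ 2 / 8) = w at *
  have u1 : w ^ μ ≤ w ^ μ' := Real.rpow_le_rpow_of_exponent_ge w0 w2 m3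
  have u2 : w ^ 2 ≤ w ^ μ' := by
    rw [← Real.rpow_natCast]; exact Real.rpow_le_rpow_of_exponent_ge w0 w2 (by push_cast; linarith)
  have u3 : Real.exp (-ρ ^ 2 / 6) ≤ w ^ μ' := le_trans (Real.exp_le_exp.2 (by
    have : (s - 2) ^ 2 ≤ ρ ^ 2 := pow_le_pow_left₀ (by linarith) (by linarith) 2
    linarith)) u5
  have u4 : Real.exp (-(s - 1) ^ 2 / 5) ≤ w ^ μ' := le_trans (Real.exp_le_exp.2 (by nlinarith)) u5
  have u6 : a ^ μ ≤ C₂ ^ μ * w ^ μ' := by
    refine (Real.rpow_le_rpow a0 t1 (by linarith)).trans ?_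
    rw [Real.mul_rpow C₂p.le w0.le]
    exact mul_le_mul_of_nonneg_left u1 (by positivity)
  have v1 := mul_le_mul_of_nonneg_left u6 hC₀.le
  have v2 := mul_le_mul_of_nonneg_left u3 hC₀.le
  have v3 : (A * w) ^ 2 + C₂ * w ^ 2 + Real.exp (-(s - 1) ^ 2 / 5) ≤ (A ^ 2 + C₂ + 1) * w ^ μ' := by
    have a1 := mul_le_mul_of_nonneg_left u2 (sq_nonneg A)
    have a2 := mul_le_mul_of_nonneg_left u2 C₂p.le
    rw [mul_pow]; linarith
  have v4 := mul_le_mul_of_nonneg_left v3 C₃p.le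
  linarith

theorem exp_cmp {κ κ' s R : ℝ} (hκ : 0 < κ) (k1 : κ' ≤ κ) (k2 : κ' ≤ 1 / 32) (s4 : 4 ≤ s)
    (sR : s ≤ R) : Real.exp (-(s - 2) ^ 2 / 8) ≤ Real.exp (-κ' * s ^ 2) ∧
      Real.exp (-(s - 2) ^ 2 / 8) ^ 2 ≤ Real.exp (-κ' * s ^ 2) ∧
      Real.exp (-κ * R ^ 2) ≤ Real.exp (-κ' * s ^ 2) := by
  have w1 : Real.exp (-(s - 2) ^ 2 / 8) ≤ Real.exp (-κ' * s ^ 2) := Real.exp_le_exp.2 (by
    nlinarith [mul_le_mul_of_nonneg_right k2 (sq_nonneg s)])
  refine ⟨w1, le_trans (pow_le_of_le_one (Real.exp_pos _).le (el1 _ (by norm_num)) two_ne_zero) w1,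
    Real.exp_le_exp.2 ?_⟩
  have : s ^ 2 ≤ R ^ 2 := pow_le_pow_left₀ (by linarith) sR 2
  linarith [mul_le_mul k1 this (sq_nonneg s) hκ.le]

/-- the tolerance asked from the model -/
def tol (R : ℝ) : ℝ := Real.exp (-R ^ 2 / 8) * ((4 * Real.pi)⁻¹ * Real.exp (-(R + 3) ^ 2 / 4))

theorem tol_pos (R : ℝ) : 0 < tol R := by unfold tol; positivity

theorem tol_le {R w : ℝ} (h : Real.exp (-R ^ 2 / 8) ≤ w) :
    tol R ≤ w ∧ ∀ y : E, ‖y‖ ≤ R + 3 → tol R ≤ w * gau 0 1 y := by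
  have p4 : (4 * Real.pi)⁻¹ ≤ 1 := inv_le_one_of_one_le₀ (by linarith [Real.pi_gt_three])
  refine ⟨le_trans (mul_le_of_le_one_right (by positivity)
    (mul_le_one₀ p4 (by positivity) (el1 _ (by norm_num)))) h, fun y hy =>
    mul_le_mul h ?_ (by positivity) ((Real.exp_pos _).le.trans h)⟩
  have : ‖y‖ ^ 2 ≤ (R + 3) ^ 2 := pow_le_pow_left₀ (norm_nonneg _) hy 2
  simp only [gau, mul_one, sub_zero]
  exact mul_le_mul_of_nonneg_left (Real.exp_le_exp.2 (by linarith)) (by positivity)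

theorem start_tube {N G S : Mv} {m ρ₀ R ε : ℝ} (hG : G.Reg)
    (hP : G.Proper (Metric.ball 0 m ×ˢ univ))
    (gre : ∀ x ∈ G.sl 0, x ∈ Metric.ball (0 : E) m → G.Reach (x, 0) ρ₀) (h1 : Hd N S R ε)
    (h2 : Near G S ε⁻¹ ε) (e1 : 4 * ε ≤ ρ₀) (e2 : ρ₀ ≤ 1) (e3 : R + 1 ≤ ε⁻¹) (e4 : R + 1 ≤ m) :
    ∀ x ∈ N.sl 0, x ∈ Metric.ball (0 : E) R →
      x ∈ Tb.tube G 0 (Metric.ball 0 m) ρ₀ ∧ |Tb.sd G 0 x| ≤ 2 * ε := fun x hx hb => by
  have hb' := mem_ball_zero_iff.1 hb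
  obtain ⟨y, y1, y2⟩ := h1.1 x hx hb'
  have y0 : 0 ≤ dist x y := dist_nonneg
  have y3 : ‖y‖ < ε⁻¹ := by
    have := norm_le_norm_add_norm_sub' y x
    rw [← dist_eq_norm, dist_comm] at this; linarith
  obtain ⟨z, z1, z2⟩ := h2.2 y y1 y3
  have z3 : dist x z < 2 * ε := by
    have := dist_triangle_right x z y; linarith
  have z4 := Tb.mem_tube (ρ := ρ₀) (U := Metric.ball 0 m) hG
    (Tb.cl_of_proper hP fun y hy => ⟨hy, trivial⟩) z1 (by linarith) (ball_sub (by linarith))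
  exact ⟨z4, (Tb.abs_sd_le hG gre z4 z1).trans z3.le⟩

theorem ex_min {a b c d : ℝ} (ha : 0 < a) (hb : 0 < b) (hc : 0 < c) (hd : 0 < d) :
    ∃ x, 0 < x ∧ x ≤ a ∧ x ≤ b ∧ x ≤ c ∧ x ≤ d :=
  ⟨min (min a b) (min c d), lt_min (lt_min ha hb) (lt_min hc hd),
    (min_le_left _ _).trans (min_le_left _ _), (min_le_left _ _).trans (min_le_right _ _),
    (min_le_right _ _).trans (min_le_left _ _), (min_le_right _ _).trans (min_le_right _ _)⟩

theorem ex_max (a b c d : ℝ) : ∃ x, a ≤ x ∧ b ≤ x ∧ c ≤ x ∧ d ≤ x :=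
  ⟨max (max a b) (max c d),
    (le_max_left _ _).trans (le_max_left _ _), (le_max_right _ _).trans (le_max_left _ _),
    (le_max_left _ _).trans (le_max_right _ _), (le_max_right _ _).trans (le_max_right _ _)⟩

theorem ex_exp {μ : ℝ} (hμ : 1 < μ) : ∃ μ' η θ : ℝ, 1 < μ' ∧ μ' ≤ 4 / 3 ∧ μ' ≤ μ ∧ 0 < η ∧ η < 1 ∧
    1 / 2 < θ ∧ 2 * θ < μ' * (1 - η) ^ 2 := by
  obtain ⟨η, h0, h1, h2, -⟩ := ex_min (a := (μ - 1) / 4) (b := 1 / 12) (c := 1) (d := 1)
    (by linarith) (by norm_num) one_pos one_pos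
  exact ⟨1 + 4 * η, η, (1 + η) / 2, by linarith, by linarith, by linarith, h0, by linarith,
    by linarith, by nlinarith [mul_pos h0 h0, mul_pos (mul_pos h0 h0) h0]⟩

set_option maxHeartbeats 1000000 in
theorem staticS_of (hSt : StatS) (hI : ImpS) (hE : EnS) (hB : StartS) : StaticS := by
  intro S Λ hS hAR ⟨n, f, ρ', C₀, μ, N₀, hc, hρ', hC₀, hμ, hF⟩
  obtain ⟨ρ₀, ρ₀p, ρ₀l, ρ₀1, -⟩ := ex_min hρ' one_pos one_pos one_pos
  obtain ⟨μ', η, θ, m1, m2, m3, hη0, hη1, hθ1, hθ⟩ := ex_exp hμ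
  refine ⟨η, θ, hη0, hη1, hθ1, fun η₀ hη₀ => ?_⟩
  obtain ⟨a₀, ha₀, -, h1⟩ := S1.s1 hη₀ ρ₀p
  refine ⟨a₀, ha₀, fun ρ₁ C κ r₀ hρ₁ hκ l N R S' hS' hM hR hCv hA => ?_⟩
  obtain ⟨δ₁, δ₁p, h1a⟩ := h1 ρ₁ hρ₁
  obtain ⟨δ₂, R₂, C₂, δ₂p, C₂p, h2⟩ := hSt S Λ ρ₀ ρ₁ n f hS hAR hc ρ₀p ρ₀1 hρ₁
  obtain ⟨δ₀, δ₀p, h0⟩ := hI Λ ρ₀ ρ₁ ρ₀p ρ₀1 hρ₁
  obtain ⟨δ₃, C₃, δ₃p, C₃p, h3⟩ := hE Λ ρ₀ ρ₁ ρ₀p ρ₀1 hρ₁
  obtain ⟨K, Kp, hK⟩ := fv_le hc.sm hc.cs ρ₀p
  obtain ⟨δ, δp, d0, d1, d2, d3⟩ := ex_min δ₀p δ₁p δ₂p δ₃p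
  obtain ⟨κ', κp, k1', k2', -⟩ := ex_min hκ (show (0 : ℝ) < 1 / 32 by norm_num) one_pos one_pos
  obtain ⟨C', c1, c2, c3, c4⟩ := ex_max C (K * C₂ + 1) C₂ 1
  have C'p : 0 < C' := by linarith
  obtain ⟨R₃, h0a⟩ := h0 δ κ' C' δp d0 κp C'p
  obtain ⟨R₁, r2, r3, r0, r4⟩ := ex_max R₂ R₃ (r₀ + 1) 4
  obtain ⟨b1, b2, b3⟩ := hB S S' l N hS hS' hM hCv
  obtain ⟨ρs, ρsp, b1⟩ := b1 (R₁ + 2)
  obtain ⟨δs, δsp, h1b⟩ := h1 ρs ρsp
  obtain ⟨ρa, ha⟩ := ev_alt (C₀ * C₂) N₀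
  obtain ⟨L, L1, L2, -⟩ := ex_max (R₁ + 5) ρa 0 0
  have Lp : 0 < L := by linarith
  obtain ⟨ε, εp, e1, e2, e3, e4⟩ := ex_min (half_pos δp) (half_pos δsp)
    (show 0 < ρ₀ / 4 by linarith) (inv_pos.2 Lp)
  rw [le_inv_comm₀ εp Lp] at e4
  obtain ⟨δF, δFp, hF⟩ := hF ε εp
  have z0 : Tendsto (fun k i => ∫ x, f i x ∂(N k).mu 0 - ∫ x, f i x ∂S.mu 0) l (𝓝 0) :=
    tendsto_pi_nhds.2 fun i => by
      simpa using (b3 (f i) (hc.sm i).continuous (hc.cs i)).sub_const (∫ x, f i x ∂S.mu 0)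
  filter_upwards [hA, b1, b2 (R₁ + 2) ε εp, b2 R₂ δ₂ δ₂p,
    (tendsto_zero_iff_norm_tendsto_zero.1 z0).eventually (gt_mem_nhds δFp),
    (hR.const_mul_atTop (sub_pos.2 hη1)).eventually_gt_atTop δF⁻¹,
    hR.eventually (ev_fin (μ := μ') (η := η) (θ := θ)
      (C₀ * C₂ ^ μ + C₀ + C₃ * ((K * C₂ + 1) ^ 2 + C₂ + 1)) (by linarith) hη1 hθ)]
    with k hk k1 k2 k3 k4 k5 k6
  clear h1 h0 b1 b2 b3 z0 hA hCv hR hSt hI hE hB
  generalize N k = Nk at *
  generalize R k = Rk at *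
  obtain ⟨G, ρ, c, hG, hρ, hN⟩ := hF _ _ _ k4 k5 (tol_pos Rk)
  clear hF
  have ρL : L ≤ ρ := e4.trans hρ
  have Rp : 0 < Rk := (mul_pos_iff_of_pos_left (sub_pos.2 hη1)).1 ((inv_pos.2 δFp).trans k5)
  have ρr := hG.le
  have ρR : ρ ≤ Rk := by linarith [mul_pos hη0 Rp]
  have gre : ∀ x ∈ G.sl 0, ‖x‖ < ρ + 3 → G.Reach (x, 0) ρ₀ := fun x hx h =>
    S1.reach_le hG.reg hx (hG.reach x hx h) ρ₀p ρ₀l
  have gre' : ∀ x ∈ G.sl 0, x ∈ Metric.ball (0 : E) (ρ + 3) → G.Reach (x, 0) ρ₀ := fun x hx h =>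
    gre x hx (mem_ball_zero_iff.1 h)
  have cx : Ctx Nk Λ G (ρ + 3) ρ₀ :=
    ⟨hk.reg, hk.st, hk.closed, hk.ar, hG.reg, hG.st, hG.proper, gre⟩
  -- the static estimate at radius `s`
  have stat : ∀ s, R₁ ≤ s → s ≤ ρ → Nr Nk G (ρ + 3) ρ₀ s ρ₁ δ →
      ‖c‖ ≤ C₂ * Real.exp (-(s - 2) ^ 2 / 8) ∧
      H1 Nk G (s - 1) ≤ ENNReal.ofReal (C₂ * Real.exp (-(s - 2) ^ 2 / 8) ^ 2) ∧
      ∀ y ∈ G.sl 0, ‖y‖ < ρ + 3 → |G.shr (y, 0)| ≤ (K * C₂ + 1) * Real.exp (-(s - 2) ^ 2 / 8) := by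
    intro s s1 s2 hs
    have q1 : (s - 2) ^ 2 ≤ Rk ^ 2 := pow_le_pow_left₀ (by linarith) (by linarith) 2
    obtain ⟨τw, τg⟩ := tol_le (R := Rk) (w := Real.exp (-(s - 2) ^ 2 / 8))
      (Real.exp_le_exp.2 (by linarith))
    have lg : Lag G f c (ρ + 3) (Real.exp (-(s - 2) ^ 2 / 8)) := fun y hy hm =>
      (hG.el y hy hm).trans (τg y (by linarith))
    obtain ⟨t1, t2⟩ := h2 Nk G (ρ + 3) s _ c cx (r2.trans s1) (by linarith) (hs.mono d2)
      (near_mono hN (by linarith) (by linarith)) k3 lg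
      (fun i => le_trans (by have := hG.pair i; rwa [sub_sub, add_sub_cancel] at this) τw)
      (hk.dis.trans (ENNReal.ofReal_le_ofReal (by
        rw [← Real.exp_nat_mul]; exact Real.exp_le_exp.2 (by push_cast; linarith))))
      le_rfl (el1 _ (by norm_num))
    refine ⟨t1, t2, fun y hy hm => (shr_le lg hy hm (hK G y c hG.reg hy (gre y hy hm))).trans ?_⟩
    linarith [mul_le_mul_of_nonneg_left t1 Kp.le]
  have ind : ∀ j : ℕ, R₁ + j ≤ ρ → Nr Nk G (ρ + 3) ρ₀ (R₁ + j) ρ₁ δ := by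
    intro j
    induction j with
    | zero =>
      intro _
      have tb := start_tube hG.reg hG.proper gre' k2 hN (by linarith) ρ₀1 (by linarith) (by linarith)
      have bt := hk.boot R₁ (by linarith) (by linarith) fun x hx hr =>
        h1b G Nk 0 0 (Metric.ball 0 (R₁ + 2)) _ hG.reg gre' hk.reg Metric.isOpen_ball
          (fun y hy hb => k1 y hy (mem_ball_zero_iff.1 hb)) (closed_sl hk.closed _)
          (fun w hw hb => ⟨(tb w hw hb).1, (tb w hw hb).2.trans (by linarith)⟩) x hx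
          (ball_sub (by linarith))
      intro x hx hr
      simp only [Nat.cast_zero, add_zero] at hr
      have := tb x hx (mem_ball_zero_iff.2 (by linarith))
      exact ⟨(bt x hx (by linarith)).1, this.1, this.2.trans (by linarith)⟩
    | succ j ih =>
      intro hj
      push_cast at hj ⊢
      have j0 : R₁ ≤ R₁ + j := le_add_of_nonneg_right j.cast_nonneg
      have hs := ih (by linarith)
      rw [← add_assoc] at hj ⊢
      generalize R₁ + j = s at *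
      obtain ⟨-, t2, t3⟩ := stat s j0 (by linarith) hs
      have bt := hk.boot (s - 1) (by linarith) (by linarith) fun x hx hr =>
        h1a G Nk 0 0 (Metric.ball 0 s) _ hG.reg gre' hk.reg Metric.isOpen_ball
          (fun y hy hb => (hs y hy (mem_ball_zero_iff.1 hb)).1) (closed_sl hk.closed _)
          (fun w hw hb => ⟨(hs w hw (mem_ball_zero_iff.1 hb)).2.1,
            (hs w hw (mem_ball_zero_iff.1 hb)).2.2.trans d1⟩) x hx (ball_sub (by linarith))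
      obtain ⟨w1, w2, w3⟩ := exp_cmp (s := s) (R := Rk) hκ k1' k2' (by linarith) (by linarith)
      refine h0a Nk G (ρ + 3) s cx (by linarith) (by linarith) hs (fun x hx hr => ?_)
        (fun y hy hm => (t3 y hy hm).trans ?_) (t2.trans (ENNReal.ofReal_le_ofReal ?_))
      · refine ⟨(bt x hx (by linarith)).1, (bt x hx (by linarith)).2.trans ?_⟩
        exact mul_le_mul c1 w3 (Real.exp_pos _).le C'p.le
      · exact mul_le_mul c2 w1 (Real.exp_pos _).le C'p.le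
      · exact mul_le_mul c3 w2 (by positivity) C'p.le
  have f1 := Nat.floor_le (show 0 ≤ ρ - R₁ by linarith)
  have f2 := Nat.lt_floor_add_one (ρ - R₁)
  have hs := ind ⌊ρ - R₁⌋₊ (by linarith)
  obtain ⟨s, hs, s1, s2, s3⟩ : ∃ s, Nr Nk G (ρ + 3) ρ₀ s ρ₁ δ ∧ R₁ ≤ s ∧ s ≤ ρ ∧ ρ - 1 ≤ s :=
    ⟨_, hs, le_add_of_nonneg_right (Nat.cast_nonneg _), by linarith, by linarith⟩
  obtain ⟨t1, t2, t3⟩ := stat s s1 s2 hs
  have hρr : ρ = (1 - η) * Rk := by
    refine hG.alt.resolve_right (not_le.2 (lt_of_le_of_lt ?_ (ha ρ (L2.trans ρL))))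
    have q1 : (ρ - 3) ^ 2 ≤ (s - 2) ^ 2 := pow_le_pow_left₀ (by linarith) (by linarith) 2
    have q2 : Real.exp (-(s - 2) ^ 2 / 8) ≤ Real.exp (-(ρ - 3) ^ 2 / 8) :=
      Real.exp_le_exp.2 (by linarith)
    have q3 : 0 ≤ C₀ * ρ ^ N₀ := mul_nonneg hC₀.le (pow_nonneg (by linarith) _)
    calc C₀ * ρ ^ N₀ * ‖c‖ ≤ C₀ * ρ ^ N₀ * (C₂ * Real.exp (-(ρ - 3) ^ 2 / 8)) :=
          mul_le_mul_of_nonneg_left (t1.trans (mul_le_mul_of_nonneg_left q2 C₂p.le)) q3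
      _ = _ := by ring
  have F0 : 0 ≤ S.Fs 0 0 1 := integral_nonneg fun x => (A.gau_pos one_pos 0 x).le
  have en := h3 Nk G (ρ + 3) s _ _ _ cx (by linarith) (by linarith) (hs.mono d3) (by positivity)
    (by positivity) t3 t2 hG.en
  have fin := k6 s (by linarith)
  have := fin_num (A := K * C₂ + 1) hC₀ C₂p C₃p m1 m2 m3 (by linarith) s2 (norm_nonneg c) t1
  linarith

end Crest.Agent.N250.R

end
end

-- ▼ part N250/R/Imp
section

/-!
# Row 250 (helper59): the improvement step `R.ImpS`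
-/

set_option autoImplicit false
open MeasureTheory Set Filter Topology Metric
open scoped ContDiff InnerProductSpace
open Crest.GeometryTopology.MCF

noncomputable section

namespace Crest.Agent.N250.R

open Tb

theorem ev_small {k ε : ℝ} (hk : 0 < k) (hε : 0 < ε) :
    ∀ᶠ r : ℝ in atTop, Real.exp (-k * r ^ 2) ≤ ε := by
  have h : Tendsto (fun r : ℝ => Real.exp (-k * r ^ 2)) atTop (𝓝 0) :=
    Real.tendsto_exp_atBot.comp
      ((tendsto_pow_atTop two_ne_zero).const_mul_atTop_of_neg (neg_neg_of_pos hk))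
  exact h.eventually (ge_mem_nhds hε)

/-- pointwise bound of the height from its Gaussian `H¹` norm -/
theorem sd_pow4 {N G : Mv} {Λ m ρ₀ r ρ₁ δ I R : ℝ} {x : E} (h : Ctx N Λ G m ρ₀) (h1 : 0 < ρ₁)
    (hN : Nr N G m ρ₀ r ρ₁ δ) (hI : 0 ≤ I) (hH : H1 N G (r - 1) ≤ ENNReal.ofReal I)
    (hx : x ∈ N.sl 0) (hR : ‖x‖ + 1 ≤ R) (hr : R ≤ r - 1)
    (hJ : 4 * Real.pi * Real.exp (R ^ 2 / 4) * I ≤ 1) :
    sd G 0 x ^ 4 ≤ (512 + 128 ^ 2 / min ρ₁ 1 ^ 4) * (4 * Real.pi * Real.exp (R ^ 2 / 4) * I) := by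
  have hG : ∀ y ∈ G.sl 0, y ∈ ball (0 : E) m → G.Reach (y, 0) ρ₀ := fun y hy h' =>
    h.greach y hy (mem_ball_zero_iff.1 h')
  have hT := tub h.greg hG isOpen_ball
  have r0 : 0 < min ρ₁ 1 := lt_min h1 one_pos
  have hb : ∀ y ∈ ball x (min ρ₁ 1), ‖y‖ < r - 1 := fun y hy => by
    have := norm_lt_of_mem_ball hy
    linarith [min_le_right ρ₁ 1]
  have hc := Sp.closed_sl h.closed 0
  have k := Sg.sup_gau (v := fun y => infDist y (G.sl 0)) (L := 1) (I := I) (R := R) h.reg hx r0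
    (min_le_left ρ₁ 1) (fun y hy _ => hc.closure_subset hy)
    (fun y hy h' => (hN y hy (by linarith [hb y h'])).1) one_pos hI
    (by linarith [min_le_right ρ₁ 1]) (fun y _ _ => ?_) ?_
  · have k2 := Sg.pow4_of_or r0 (by positivity) hJ k
    rw [← abs_sd_eq h.greg hG (hN x hx (by linarith)).2.1, one_pow, mul_one] at k2
    rwa [← abs_of_nonneg (by positivity : 0 ≤ sd G 0 x ^ 4), abs_pow]
  · rw [one_mul, ← dist_eq_norm, ← Real.dist_eq]
    simpa using (lipschitz_infDist_pt (G.sl 0)).dist_le_mul y x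
  · refine le_trans ?_ hH
    refine le_trans ?_ (lintegral_mono_set fun y hy => mem_ball_zero_iff.2 (hb y hy))
    refine lintegral_mono_ae ?_
    have a1 : ∀ᵐ y ∂(N.mu 0).restrict (ball x (min ρ₁ 1)), y ∈ N.sl 0 :=
      ae_restrict_of_ae (ae_restrict_mem hc.measurableSet)
    filter_upwards [a1, ae_restrict_mem measurableSet_ball] with y hy hy'
    have hm := (hN y hy (by linarith [hb y hy'])).2.1
    refine ENNReal.ofReal_le_ofReal (mul_le_mul_of_nonneg_right ?_ (by unfold gau; positivity))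
    rw [← abs_sd_eq h.greg hG hm, sq_abs]
    have := hT.cs_sq_le (p := (y, 0)) h.greg h.reg hy hm
    simp only [cs] at this
    linarith

theorem impS_holds : ImpS := by
  intro Λ ρ₀ ρ₁ h0 h1 hρ
  refine ⟨ρ₀ / 4, by positivity, fun δ κ C hδ hδ' hκ hC => ?_⟩
  obtain ⟨γ, hγ, g1, g2⟩ : ∃ γ : ℝ, 0 < γ ∧ γ ≤ 1 / 5 ∧ γ ≤ κ / 8 :=
    ⟨min (1 / 5) (κ / 8), by positivity, min_le_left _ _, min_le_right _ _⟩
  obtain ⟨R₀, hR₀, H⟩ := Sp.step h0 h1 hρ hδ hδ' hγ g1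
  obtain ⟨s₁, -, H⟩ := H R₀ le_rfl
  obtain ⟨Q, hQ⟩ : ∃ Q, Q = 4 * Real.pi * Real.exp ((R₀ + 1) ^ 2 / 4) := ⟨_, rfl⟩
  obtain ⟨D, hD⟩ : ∃ D : ℝ, D = 512 + 128 ^ 2 / min ρ₁ 1 ^ 4 := ⟨_, rfl⟩
  have hQ0 : 0 < Q := by rw [hQ]; positivity
  have hD0 : 0 < D := by rw [hD]; positivity
  have k2 : 0 < κ / 2 := by positivity
  obtain ⟨R₁, hR₁⟩ := eventually_atTop.1 ((eventually_ge_atTop s₁).and
    ((eventually_ge_atTop (R₀ + 2)).and ((ev_small k2 (by positivity : 0 < 1 / C)).and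
    ((ev_small k2 (by positivity : 0 < δ / 16 / C)).and
    ((ev_small k2 (by positivity : 0 < 1 / (Q * C))).and
    (ev_small k2 (by positivity : 0 < (δ / 8) ^ 4 / (D * (Q * C)))))))))
  refine ⟨R₁, fun N G m r h hr hm hN hB hs hH => ?_⟩
  obtain ⟨t1, t2, t3, t4, t5, t6⟩ := hR₁ r hr
  obtain ⟨T, hT⟩ : ∃ T, T = Real.exp (-(κ / 2) * r ^ 2) := ⟨_, rfl⟩
  have T0 : 0 < T := hT ▸ Real.exp_pos _
  have r2 := sq_nonneg r
  have T1 : T ≤ 1 := hT ▸ Real.exp_le_one_iff.2 (by nlinarith)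
  have T2 : Real.exp (-κ * r ^ 2) = T * T := by rw [hT, ← Real.exp_add]; congr 1; ring
  have T3 : T * Real.exp (γ * r ^ 2) ≤ 1 := by
    rw [hT, ← Real.exp_add]; exact Real.exp_le_one_iff.2 (by nlinarith)
  have T4 : T ≤ Real.exp (-(γ * r ^ 2)) ^ 4 := by
    rw [hT, ← Real.exp_nat_mul]; exact Real.exp_le_exp.2 (by push_cast; nlinarith)
  rw [← hT, le_div_iff₀ (by positivity)] at t3 t4 t5 t6
  rw [T2] at hB hs hH
  obtain ⟨ρ, rfl⟩ : ∃ ρ, m = ρ + 3 := ⟨m - 3, by ring⟩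
  intro x hx hx'
  refine ⟨(hB x hx hx').1, H G N ρ r (δ / 8 * Real.exp (-(γ * r ^ 2))) (C * (T * T)) h.greg h.gprop
    h.greach h.reg h.closed t1 (by linarith) hB (fun y hy _ h' => hs y hy h') (by positivity)
    (by positivity) (by nlinarith) (fun y hy h' => (hN y hy h').2) (fun y hy h' => ?_) ?_ x hx hx'⟩
  · have k := sd_pow4 (R := R₀ + 1) h hρ hN (by positivity) hH hy (by linarith) (by linarith)
      (by rw [← hQ]; nlinarith)
    rw [← hQ, ← hD] at k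
    refine abs_le_of_sq_le_sq' ?_ (by positivity) |> abs_le.2
    refine (pow_le_pow_iff_left₀ (sq_nonneg _) (sq_nonneg _) two_ne_zero).1 ?_
    rw [← pow_mul, ← pow_mul, mul_pow]
    have e1 := mul_le_mul_of_nonneg_left T4 (by positivity : 0 ≤ (δ / 8) ^ 4)
    have e2 := mul_le_mul_of_nonneg_right t6 T0.le
    norm_num
    nlinarith
  · have e1 : Real.exp (-(γ * r ^ 2)) * Real.exp (γ * r ^ 2) = 1 := by
      rw [← Real.exp_add, neg_add_cancel, Real.exp_zero]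
    have e2 := mul_le_mul_of_nonneg_left T3 (by positivity : 0 ≤ T * C)
    nlinarith

end Crest.Agent.N250.R

end
end

-- ▼ part N250/R/Start
section

/-!
# Row 250, block R (helper46): `StartS`
-/

set_option autoImplicit false
open MeasureTheory Set Filter Topology
open scoped ContDiff InnerProductSpace
open Crest.GeometryTopology.MCF

noncomputable section

namespace Crest.Agent.N250.R

/-- uniformity on compact sets along an ultrafilter: test on convergent families -/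
theorem viol {α X : Type} [TopologicalSpace X] [Nonempty X] {l : Ultrafilter α} {K : Set X}
    (hK : IsCompact K) {P Q : α → X → Prop}
    (h : ∀ (xk : α → X), ∀ x ∈ K, Tendsto xk l (𝓝 x) → (∀ᶠ k in (l : Filter α), Q k (xk k)) →
      ∀ᶠ k in (l : Filter α), P k (xk k)) :
    ∀ᶠ k in (l : Filter α), ∀ x ∈ K, Q k x → P k x := by
  by_contra hn
  rw [← Ultrafilter.eventually_not] at hn
  have h1 : ∀ k, ∃ x, (¬∀ x ∈ K, Q k x → P k x) → x ∈ K ∧ Q k x ∧ ¬P k x := by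
    intro k
    by_cases hk : ∀ x ∈ K, Q k x → P k x
    · exact ⟨Classical.arbitrary X, fun h => (h hk).elim⟩
    · push Not at hk
      obtain ⟨x, hx⟩ := hk
      exact ⟨x, fun _ => hx⟩
  choose xk hx using h1
  have h2 := hn.mono hx
  obtain ⟨x, hxK, ht⟩ := hK.ultrafilter_le_nhds (l.map xk)
    (le_principal_iff.2 (mem_map.2 (h2.mono fun _ h => h.1)))
  obtain ⟨k, h3, h4⟩ := (h2.and (h xk x hxK ht (h2.mono fun _ h => h.2.1))).exists
  exact h3.2.2 h4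

theorem startS_holds : StartS := by
  intro S S' l N _ hS' hM hc
  have hsl : S.sl 0 = S'.sl 0 := by simp only [Mv.sl, hM]
  have hp : ∀ {xk : ℝ → E} {x : E}, Tendsto xk l (𝓝 x) →
      Tendsto (fun k => ((xk k, 0) : ST)) l (𝓝 (x, 0)) := fun h => h.prodMk_nhds tendsto_const_nhds
  refine ⟨fun R => ?_, fun R δ hδ => ?_, fun g hg hs => ?_⟩
  · obtain ⟨ρ, hρ, h⟩ := reachPosS_holds S' hS'.reg univ (Metric.closedBall 0 R ×ˢ {0})
      isOpen_univ (fun p hp _ => hS'.closed.closure_subset hp)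
      ((isCompact_closedBall _ _).prod isCompact_singleton) (subset_univ _)
    refine ⟨ρ / 2, half_pos hρ, ?_⟩
    have := viol (l := l) (isCompact_closedBall (0 : E) R) (Q := fun k x => x ∈ (N k).sl 0)
      (P := fun k x => (N k).Reach (x, 0) (ρ / 2)) fun xk x hx ht hk =>
      (convReachS_holds _ l N S' univ isOpen_univ hc _ _ ρ hρ (hp ht) hk (subset_univ _)).2
        (h _ ⟨Cv.mem_of_conv hc (mem_univ _) (hp ht) hk, hx, rfl⟩) _ (half_lt_self hρ)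
    exact this.mono fun k h x hx hR => h x (mem_closedBall_zero_iff.2 hR.le) hx
  · have h1 := viol (l := l) (isCompact_closedBall (0 : E) R) (Q := fun k x => x ∈ (N k).sl 0)
      (P := fun _ x => ∃ y ∈ S.sl 0, dist x y < δ) fun xk x _ ht hk =>
      (Metric.tendsto_nhds.1 ht δ hδ).mono fun k h =>
        ⟨x, by rw [hsl]; exact Cv.mem_of_conv hc (mem_univ _) (hp ht) hk, h⟩
    have h2 := viol (l := l) (isCompact_closedBall (0 : E) R) (Q := fun _ y => y ∈ S.sl 0)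
      (P := fun k y => ∃ x ∈ (N k).sl 0, dist x y < δ) fun yk y _ ht hk => by
        have hy : (y, 0) ∈ S'.M := hS'.closed.mem_of_tendsto (hp ht) (by rw [hsl] at hk; exact hk)
        obtain ⟨xk, h1, h2⟩ := Cv.conv_pts hc (mem_univ _) hy (tk := fun _ => 0) tendsto_const_nhds
        have h3 := (h1.dist ht).eventually (gt_mem_nhds (by simpa using hδ : dist y y < δ))
        filter_upwards [h2, h3] with k h4 h5
        exact ⟨xk k, h4, h5⟩
    filter_upwards [h1, h2] with k h3 h4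
    exact ⟨fun x hx hR => h3 x (mem_closedBall_zero_iff.2 hR.le) hx,
      fun y hy hR => h4 y (mem_closedBall_zero_iff.2 hR.le) hy⟩
  · have := convMuS_holds _ l N S' univ (tsupport g ×ˢ Icc (-1) 1) isOpen_univ hc
      (hs.isCompact.prod isCompact_Icc) (subset_univ _)
      (fun q => g q.1.1 * max 0 (1 - |q.1.2|)) (by fun_prop) (fun q hq => by
        by_cases h : q.1.1 ∈ tsupport g
        · have h1 : ¬|q.1.2| ≤ 1 := fun h1 => hq ⟨h, abs_le.1 h1⟩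
          rw [max_eq_left (by linarith [not_le.1 h1]), mul_zero]
        · rw [image_eq_zero_of_notMem_tsupport h, zero_mul])
      (fun _ => 0) 0 tendsto_const_nhds
    simpa [Mv.mu, hsl] using this

end Crest.Agent.N250.R

end
end

-- ▼ part N250/R0/Chain

/-!
# Row 250 (helper55): `ChainS`, the choice of the cut
-/

set_option autoImplicit false
open MeasureTheory Set Filter Topology
open Crest.GeometryTopology.MCF

noncomputable section

namespace Crest.Agent.N250.R0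

open Crest.Agent.N250.B2 (aa ofR)
open Crest.Agent.N250.Gi (KK hat TL DX Fx ConclX c0)

namespace Ch

theorem sq_top : Tendsto (fun X : ℝ => X ^ 2) atTop atTop := tendsto_pow_atTop two_ne_zero

theorem ev_TL (N : ℕ) : ∀ᶠ X : ℝ in atTop, X ^ 2 ≤ TL N X ∧ TL N X ≤ 2 * X ^ 2 := by
  have h1 : ∀ᶠ y : ℝ in atTop, -c0 N / 4 ≤ Real.log y :=
    Real.tendsto_log_atTop.eventually (eventually_ge_atTop _)
  have h2 : ∀ᶠ y : ℝ in atTop, ‖Real.log y‖ ≤ 1 / 8 * ‖y‖ :=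
    Real.isLittleO_log_id_atTop.def (by norm_num)
  filter_upwards [sq_top.eventually h1, sq_top.eventually h2,
    sq_top.eventually (eventually_ge_atTop (2 * c0 N))] with X a b c
  rw [Real.norm_eq_abs, Real.norm_of_nonneg (sq_nonneg X)] at b
  have := le_abs_self (Real.log (X ^ 2))
  unfold TL
  constructor <;> linarith

theorem ev_poly (A c : ℝ) (hc : 0 < c) (n : ℕ) :
    ∀ᶠ X : ℝ in atTop, A * (2 * X ^ 2) ^ n * Real.exp (-c * X ^ 2) ≤ 1 := by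
  have h := ((Real.tendsto_pow_mul_exp_neg_atTop_nhds_zero n).comp
    (sq_top.const_mul_atTop hc)).const_mul (A * (2 / c) ^ n)
  rw [mul_zero] at h
  filter_upwards [h.eventually (gt_mem_nhds one_pos)] with X hX
  refine le_of_eq_of_le ?_ hX.le
  simp only [Function.comp]
  rw [neg_mul, show 2 * X ^ 2 = 2 / c * (c * X ^ 2) by field_simp, mul_pow]
  ring

theorem add_rpow_le {a b μ : ℝ} (ha : 0 ≤ a) (hb : 0 ≤ b) (hb1 : b ≤ 1) (h1 : 1 ≤ μ) (h2 : μ ≤ 2) :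
    (a + b) ^ μ ≤ 4 * (a ^ μ + b) := by
  have h4 : (2 : ℝ) ^ μ ≤ 4 := by
    have := Real.rpow_le_rpow_of_exponent_le (one_le_two (α := ℝ)) h2
    rw [Real.rpow_two] at this; linarith
  have a0 := Real.rpow_nonneg ha μ
  have hbμ : b ^ μ ≤ b := by
    have := Real.rpow_le_rpow_of_exponent_ge' hb hb1 zero_le_one h1
    rwa [Real.rpow_one] at this
  rcases le_total a b with h | h
  · calc (a + b) ^ μ ≤ (2 * b) ^ μ := Real.rpow_le_rpow (by linarith) (by linarith) (by linarith)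
      _ = 2 ^ μ * b ^ μ := Real.mul_rpow (by norm_num) hb
      _ ≤ 4 * b := mul_le_mul h4 hbμ (Real.rpow_nonneg hb μ) (by norm_num)
      _ ≤ _ := by linarith
  · calc (a + b) ^ μ ≤ (2 * a) ^ μ := Real.rpow_le_rpow (by linarith) (by linarith) (by linarith)
      _ = 2 ^ μ * a ^ μ := Real.mul_rpow (by norm_num) ha
      _ ≤ 4 * a ^ μ := mul_le_mul_of_nonneg_right h4 a0
      _ ≤ _ := by linarith

variable {ι κ : Type} [Fintype ι] [Fintype κ]

theorem norm_aa_le (x : ι ⊕ κ → ℝ) : ‖aa x‖ ≤ ‖x‖ :=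
  (pi_norm_le_iff_of_nonneg (norm_nonneg _)).2 fun j => norm_le_pi_norm x (Sum.inr j)

omit [Fintype ι] in
theorem norm_aa_ofR (x : ι ⊕ κ → ℝ) : ‖aa (ofR x)‖ ≤ ‖aa x‖ :=
  (pi_norm_le_iff_of_nonneg (norm_nonneg _)).2 fun j => by
    have := norm_le_pi_norm (aa x) j
    simpa [aa, ofR] using this

/-- the choice of the cut -/
theorem exists_cut {α L T : ℝ} (hα : 0 ≤ α) (_hT : 0 < T) (h1 : T ≤ L) (h2 : α * T ^ 2 ≤ 1 / 2) :
    ∃ X, T ≤ X ∧ α * X ^ 2 ≤ 1 / 2 ∧ (X = L ∨ α * X ^ 2 = 1 / 2) := by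
  by_cases h : α * L ^ 2 ≤ 1 / 2
  · exact ⟨L, h1, h, Or.inl rfl⟩
  · have a0 : 0 < α := by
      rcases hα.eq_or_lt with h0 | h0
      · exact absurd (by rw [← h0]; norm_num) h
      · exact h0
    have e : α * √(1 / (2 * α)) ^ 2 = 1 / 2 := by
      rw [Real.sq_sqrt (by positivity)]; field_simp
    refine ⟨√(1 / (2 * α)), Real.le_sqrt_of_sq_le ?_, e.le, Or.inr e⟩
    rw [le_div_iff₀ (by positivity)]; linarith

end Ch

open Ch

set_option maxHeartbeats 800000 in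
theorem chainS_holds : ChainS := by
  intro S n g ι κ _ _ σ N FF Z cc f al Θ r δ X0 C hg hR hX hc
  obtain ⟨θ, ρ₀, CR, c₀, hθ, hρ₀, hCR, hc₀, hR⟩ := hR
  obtain ⟨m, μ, Cc, r', X1, f0, hμ1, hμ2, hCc, hr', hc⟩ := hc
  have hp := Real.pi_gt_three
  -- `f0` is the action of `S`
  have hf0 : f0 = ((4 * Real.pi * S.Fs 0 0 1 : ℝ) : ℂ) := by
    refine tendsto_nhds_unique ?_ hX.base
    rw [tendsto_iff_norm_sub_tendsto_zero]
    have h0 : Tendsto (fun X : ℝ => Cc * Real.exp (-(1 / 4 * X ^ 2))) atTop (𝓝 0) := by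
      simpa using (Real.tendsto_exp_neg_atTop_nhds_zero.comp
        (sq_top.const_mul_atTop (by norm_num : (0 : ℝ) < 1 / 4))).const_mul Cc
    refine squeeze_zero' (Eventually.of_forall fun _ => norm_nonneg _) ?_ h0
    filter_upwards [ev_TL N, eventually_gt_atTop X1] with X a b
    exact (hc X b).1.trans (mul_le_mul_of_nonneg_left (Real.exp_le_exp.2 (by linarith [a.1])) hCc.le)
  obtain ⟨C3, h3, h3'⟩ : ∃ C3 : ℝ, 1 ≤ C3 ∧ ∀ a b d e e' e'' : ℝ, 0 ≤ d → 0 ≤ b → 0 ≤ e' → e' ≤ e →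
      e'' ≤ e → a ≤ C * (b + e') → b ≤ CR * d → a + e'' ≤ C3 * (d + e) := by
    refine ⟨|C| * (CR + 1) + 1, le_add_of_nonneg_left (by positivity),
      fun a b d e e' e'' hd hb he' h1 h2 h3 h4 => ?_⟩
    have k1 : C * (b + e') ≤ |C| * (CR * d + e) :=
      (mul_le_mul_of_nonneg_right (le_abs_self C) (by positivity)).trans
        (mul_le_mul_of_nonneg_left (by linarith) (abs_nonneg C))
    have e0 : 0 ≤ e := he'.trans h1
    nlinarith [mul_nonneg (abs_nonneg C) hd, mul_nonneg (mul_nonneg (abs_nonneg C) hCR.le) e0]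
  obtain ⟨C4, h4, h4'⟩ : ∃ C4 : ℝ, 1 ≤ C4 ∧ Cc * C3 ≤ C4 := ⟨max 1 (Cc * C3), le_max_left _ _,
    le_max_right _ _⟩
  obtain ⟨c₁, hc₁, c1a, c1b⟩ : ∃ c₁ : ℝ, 0 < c₁ ∧ c₁ ≤ c₀ ∧ c₁ ≤ 1 / 8 :=
    ⟨min c₀ (1 / 8), by positivity, min_le_left _ _, min_le_right _ _⟩
  obtain ⟨Λ, hΛ, hΛ', hΛθ⟩ : ∃ Λ : ℝ, 4 ≤ Λ ∧ 1 ≤ c₁ * Λ ^ 2 ∧ 2 ≤ θ * Λ := by
    have h : 0 < c₁⁻¹ := by positivity
    have h' : 0 < 2 / θ := by positivity
    have e1 : c₁ * c₁⁻¹ = 1 := by field_simp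
    have e2 : θ * (2 / θ) = 2 := by field_simp
    refine ⟨4 + c₁⁻¹ + 2 / θ, by linarith, ?_, by nlinarith [mul_pos hθ h]⟩
    have : 1 ≤ c₁ * (4 + c₁⁻¹ + 2 / θ) := by nlinarith [mul_pos hc₁ h']
    nlinarith
  obtain ⟨T0, hT0⟩ := eventually_atTop.1 ((ev_TL N).and ((ev_poly (2 * C4) (1 / 8) (by norm_num) m).and
    ((ev_poly (4 * C4 ^ 2) c₁ hc₁ (2 * m)).and ((eventually_gt_atTop X0).and
      ((eventually_gt_atTop X1).and ((eventually_ge_atTop 12).and (eventually_ge_atTop (6 / θ))))))))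
  set C5 := 2 * (Cc * C3 ^ μ) + CR + 2 * C4 * (8 / θ ^ 2) ^ m
  have c5a : 0 < Cc * C3 ^ μ := by positivity
  have c5b : 0 < 2 * C4 * (8 / θ ^ 2) ^ m := by positivity
  refine ⟨n, g, ρ₀, C5, μ, 2 * m, hg, hρ₀, by positivity, hμ1, fun ε hε => ?_⟩
  obtain ⟨δR, hδR, hR⟩ := hR ε hε
  obtain ⟨T, t0, t1, t2, t3⟩ : ∃ T : ℝ, T0 ≤ T ∧ δR⁻¹ < T ∧ max ε⁻¹ ((ε⁻¹ + 3) / θ) ≤ T ∧ 12 ≤ T :=
    ⟨max (max T0 (δR⁻¹ + 1)) (max (max ε⁻¹ ((ε⁻¹ + 3) / θ)) 12), (le_max_left _ _).trans (le_max_left _ _),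
      (lt_add_one _).trans_le ((le_max_right _ _).trans (le_max_left _ _)),
      (le_max_left _ _).trans (le_max_right _ _), (le_max_right _ _).trans (le_max_right _ _)⟩
  have Tp : 0 < T := by linarith
  obtain ⟨ε1, e0, e1, e2, e3, e4⟩ : ∃ ε1 : ℝ, 0 < ε1 ∧ ε1 ≤ r ∧ ε1 ≤ r' ∧ ε1 ≤ δR ∧
      ε1 * T ^ 2 ≤ 1 / 2 := by
    have := hX.r_pos
    refine ⟨min (min r r') (min δR (1 / (2 * T ^ 2))), by positivity,
      (min_le_left _ _).trans (min_le_left _ _), (min_le_left _ _).trans (min_le_right _ _),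
      (min_le_right _ _).trans (min_le_left _ _), ?_⟩
    refine (mul_le_mul_of_nonneg_right ((min_le_right _ _).trans (min_le_right _ _))
      (sq_nonneg T)).trans (le_of_eq (by field_simp))
  obtain ⟨η, hη, hon⟩ := hX.onto ε1 e0
  refine ⟨min η T⁻¹, by positivity, fun ζ r₁ τ hζ hr₁ hτ => ?_⟩
  have rT : T < r₁ := by
    refine lt_of_le_of_lt ?_ hr₁
    rw [le_inv_comm₀ Tp (by positivity)]; exact min_le_right _ _
  obtain ⟨x, hx, hΘ⟩ := hon (fun l => ζ (σ.symm l)) (lt_of_le_of_lt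
    ((pi_norm_le_iff_of_nonneg (norm_nonneg _)).2 fun l => norm_le_pi_norm ζ _)
    (hζ.trans_le (min_le_left _ _)))
  obtain ⟨X, hTX, hαX, hcase⟩ := exists_cut (α := ‖aa x‖) (L := Λ * r₁) (norm_nonneg _) Tp
    (by nlinarith only [hΛ, rT, Tp]) (le_trans (mul_le_mul_of_nonneg_right ((norm_aa_le x).trans hx.le)
      (sq_nonneg T)) e4)
  obtain ⟨⟨l1, l2⟩, p1, p2, x0, x1, x12, x6⟩ := hT0 X (t0.trans hTX)
  have Xp : 0 < X := by linarith
  obtain ⟨hD, hal⟩ := hX.mem X x0 (ofR x) (fun i => by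
    have := norm_le_pi_norm x (Sum.inl i)
    simp only [ofR, Complex.norm_real]; linarith)
    (le_trans (mul_le_mul_of_nonneg_right (norm_aa_ofR x) (sq_nonneg X)) hαX)
  set x' : ι ⊕ κ → ℝ := Sum.elim (fun i => x (Sum.inl i)) fun j => (al X (ofR x) j).re
  have hx' : ofR x' = mk (ofR x) (al X (ofR x)) := by
    funext l
    rcases l with i | j
    · rfl
    · exact Complex.ext (by simp [ofR, mk, x']) (by simp [ofR, mk, x', hX.alR X x0 x hD j])
  have hax : ‖aa x'‖ ≤ ‖al X (ofR x)‖ := (pi_norm_le_iff_of_nonneg (norm_nonneg _)).2 fun j =>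
    (Complex.abs_re_le_norm _).trans (norm_le_pi_norm (al X (ofR x)) j)
  have hax' : ‖aa x'‖ * X ^ 2 ≤ 1 := (mul_le_mul_of_nonneg_right hax (sq_nonneg X)).trans hal
  have hxδ : ‖x'‖ < δR := by
    rw [pi_norm_lt_iff hδR]
    rintro (i | j)
    · exact (norm_le_pi_norm x (Sum.inl i)).trans_lt (hx.trans_le e3)
    · have k : 1 < δR * X := by
        have := mul_lt_mul_of_pos_left (t1.trans_le hTX) hδR
        rwa [mul_inv_cancel₀ hδR.ne'] at this
      by_contra hn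
      have := mul_le_mul_of_nonneg_right ((not_lt.1 hn).trans (norm_le_pi_norm (aa x') j))
        (sq_nonneg X)
      nlinarith only [this, k, hax', x12]
  obtain ⟨G, c, hP, hN, hcc, hen⟩ := hR X (t1.trans_le hTX) x' hxδ hax' τ hτ
  rw [hx'] at hP hcc hen
  rw [hX.Z_eq X x0 _ hD, hΘ] at hP
  rw [← hX.f_eq X x0 _ hD] at hen
  have TLp : 0 < TL N X := lt_of_lt_of_le (by positivity) l1
  obtain ⟨k1, k2⟩ := (hc X x1).2 x (hx.trans_le e2) (by
    rw [le_div_iff₀ TLp]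
    linarith only [mul_le_mul_of_nonneg_left l2 (norm_nonneg (aa x)), hαX])
  set E8 := Real.exp (-(1 / 8) * X ^ 2)
  have E0 : 0 < E8 := Real.exp_pos _
  have E1 : E8 ≤ 1 := Real.exp_le_one_iff.2 (by linarith only [sq_nonneg X])
  have kD := h3' _ _ _ E8 _ (Real.exp (-TL N X / 8)) (norm_nonneg c) (norm_nonneg _)
    (Real.exp_pos _).le (Real.exp_le_exp.2 (by linarith only [sq_nonneg X]))
    (Real.exp_le_exp.2 (by linarith)) (hX.grad X x0 _ hD) hcc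
  set ρ := min r₁ (θ * X - 3)
  have ρX : ρ + 3 ≤ θ * X := by linarith [min_le_right r₁ (θ * X - 3)]
  rw [div_le_iff₀ hθ] at x6
  have ρr : ρ ≤ r₁ := min_le_left _ _
  have ρε : ε⁻¹ ≤ ρ := le_min (((le_max_left _ _).trans t2).trans rT.le) (by
    have := (div_le_iff₀ hθ).1 (((le_max_right _ _).trans t2).trans hTX)
    linarith only [this])
  have ρ0 : 0 ≤ ρ := (inv_pos.2 hε).le.trans ρε
  have cμ : 0 ≤ ‖c‖ ^ μ := Real.rpow_nonneg (norm_nonneg _) _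
  have Eρ : 0 < Real.exp (-ρ ^ 2 / 6) := Real.exp_pos _
  -- the second alternative: the multipliers are only polynomially small
  have low : ‖aa x‖ * X ^ 2 = 1 / 2 → 1 ≤ 2 * C4 * (2 * X ^ 2) ^ m * ‖c‖ := by
    intro h
    have P0 : 0 < (2 * X ^ 2) ^ m := by positivity
    have a1 : ‖aa x‖ ^ m * (2 * X ^ 2) ^ m = 1 := by
      rw [← mul_pow, show ‖aa x‖ * (2 * X ^ 2) = 1 by linarith, one_pow]
    have a2 : ‖aa x‖ ^ m ≤ C4 * (‖c‖ + E8) :=
      k1.trans ((mul_le_mul_of_nonneg_left kD hCc.le).trans (by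
        rw [← mul_assoc]; exact mul_le_mul_of_nonneg_right h4' (by positivity)))
    linarith only [mul_le_mul_of_nonneg_right a2 P0.le, a1, p1]
  have tail : Real.exp (-c₁ * X ^ 2) ≤ ‖c‖ ^ μ + Real.exp (-ρ ^ 2 / 6) := by
    rcases hcase with h | h
    · refine le_add_of_nonneg_of_le cμ (Real.exp_le_exp.2 ?_)
      have : ρ ^ 2 ≤ r₁ ^ 2 := pow_le_pow_left₀ ρ0 ρr 2
      rw [h, mul_pow]
      linarith only [this, sq_nonneg ρ, mul_le_mul_of_nonneg_right hΛ' (sq_nonneg r₁)]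
    · refine le_add_of_le_of_nonneg ?_ Eρ.le
      have a1 := low h
      set P := 2 * C4 * (2 * X ^ 2) ^ m
      have P1 : 1 ≤ P := one_le_mul_of_one_le_of_one_le (by linarith)
        (one_le_pow₀ (by nlinarith only [x12]))
      have a2 : P⁻¹ ≤ ‖c‖ := by rw [inv_le_iff_one_le_mul₀' (by linarith)]; exact a1
      have a3 : P ^ 2 * Real.exp (-c₁ * X ^ 2) ≤ 1 := by
        refine le_of_eq_of_le ?_ p2
        simp only [P]; rw [mul_comm 2 m, pow_mul]; ring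
      have a4 : P⁻¹ ^ (2 : ℝ) ≤ P⁻¹ ^ μ := Real.rpow_le_rpow_of_exponent_ge (by positivity)
        (inv_le_one_of_one_le₀ P1) hμ2
      refine le_trans ?_ (a4.trans (Real.rpow_le_rpow (by positivity) a2 (by linarith)))
      rw [Real.rpow_two, inv_pow, ← one_div, le_div_iff₀ (by positivity)]
      linarith
  have sub : Metric.ball (0 : E) (ρ + 3) ⊆ Metric.ball 0 (θ * X) := Metric.ball_subset_ball ρX
  refine ⟨G, ρ, c, ⟨hP.reg, hP.st, fun p hp hp' => hP.proper p hp ⟨sub hp'.1, trivial⟩,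
    fun y hy h => hP.reach y hy (h.trans_le ρX), fun i => by simpa [ofR] using hP.pair i,
    fun y hy h => hP.el y hy (h.trans_le ρX), ?_, ρr, ?_⟩, ρε, hN⟩
  · refine (lintegral_mono_set sub).trans (hen.trans (ENNReal.ofReal_le_ofReal ?_))
    have b1 : (f X (ofR x)).re ≤ 4 * Real.pi * S.Fs 0 0 1 + ‖f X (ofR x) - f0‖ := by
      have := Complex.re_le_norm (f X (ofR x) - f0)
      rw [Complex.sub_re, hf0, Complex.ofReal_re] at this
      rw [hf0]; linarith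
    have b2 : ‖f X (ofR x) - f0‖ ≤ Cc * C3 ^ μ * (4 * (‖c‖ ^ μ + E8)) := by
      refine k2.trans ?_
      rw [mul_assoc]
      refine mul_le_mul_of_nonneg_left ?_ hCc.le
      refine (Real.rpow_le_rpow (by positivity) kD (by linarith)).trans ?_
      rw [Real.mul_rpow (by linarith) (by positivity)]
      exact mul_le_mul_of_nonneg_left (add_rpow_le (norm_nonneg _) E0.le E1 hμ1.le hμ2)
        (by positivity)
    have b3 : E8 ≤ ‖c‖ ^ μ + Real.exp (-ρ ^ 2 / 6) := le_trans (Real.exp_le_exp.2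
      (by linarith only [mul_le_mul_of_nonneg_right c1b (sq_nonneg X)])) tail
    have b4 : (f X (ofR x)).re / (4 * Real.pi) ≤ S.Fs 0 0 1 +
        2 * (Cc * C3 ^ μ) * (‖c‖ ^ μ + Real.exp (-ρ ^ 2 / 6)) := by
      rw [div_le_iff₀ (by positivity)]
      have := mul_le_mul_of_nonneg_left b3 c5a.le
      linarith only [b1, b2, this, mul_nonneg (mul_nonneg c5a.le (add_nonneg cμ Eρ.le))
        (by linarith only [hp] : 0 ≤ Real.pi - 1), mul_nonneg c5a.le Eρ.le]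
    have b5 := mul_le_mul_of_nonneg_left (le_trans (Real.exp_le_exp.2 (show -c₀ * X ^ 2 ≤ -c₁ * X ^ 2 by
      linarith only [mul_le_mul_of_nonneg_right c1a (sq_nonneg X)])) tail) hCR.le
    simp only [C5]
    linarith only [b4, b5, mul_nonneg c5b.le (add_nonneg cμ Eρ.le)]
  · by_cases h : r₁ ≤ θ * X - 3
    · exact Or.inl (min_eq_left h)
    refine Or.inr ?_
    have eρ : ρ = θ * X - 3 := min_eq_right (not_le.1 h).le
    have hα : ‖aa x‖ * X ^ 2 = 1 / 2 := hcase.resolve_left fun h' => h (by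
      rw [h']; nlinarith only [hΛθ, rT, t3])
    have a1 : (2 * X ^ 2) ^ m ≤ (8 / θ ^ 2) ^ m * ρ ^ (2 * m) := by
      rw [pow_mul, ← mul_pow]
      refine pow_le_pow_left₀ (by positivity) ?_ m
      rw [div_mul_eq_mul_div, le_div_iff₀ (by positivity), eρ]
      nlinarith only [x6]
    refine (low hα).trans (mul_le_mul_of_nonneg_right ?_ (norm_nonneg _))
    have a2 : 0 ≤ ρ ^ (2 * m) := by positivity
    have := mul_le_mul_of_nonneg_left a1 (by linarith : 0 ≤ 2 * C4)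
    simp only [C5]
    linarith only [this, mul_nonneg c5a.le a2, mul_nonneg hCR.le a2]

end Crest.Agent.N250.R0

end
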