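import Crest.Agent.N250.R0.Leaf
import Crest.Agent.N250.Gl.Fix2
import Crest.Agent.N250.R.Ls
import Crest.Agent.N250.Wt.Mul
import Crest.Agent.N250.Wt.AA3
import Crest.Agent.N250.Ec.Dat
import Crest.Agent.N250.R0.CjE
import Crest.Agent.N250.Se.Dic
import Crest.Agent.N250.Wt.All
import Crest.Agent.N250.Av.CoreR

-- ▼ part N250/Gl/Asm
section

/-!
# Row 250 (helper18): the gluing from its leaves
-/

set_option autoImplicit false
set_option linter.unusedSectionVars false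
open Set Filter Topology Metric
open Crest.GeometryTopology.MCF

noncomputable section

namespace Crest.Agent.N250.Gl

open R0 WS Wr B1
open B2 (aa ofR)
open Gi (KK)

theorem EF.raise {κ : Type} [Fintype κ] {B W : Type*} [NormedAddCommGroup B] [NormedSpace ℂ B]
    [NormedAddCommGroup W] [NormedSpace ℂ W] {En : (κ → ℂ) × B → W} {cB : B → B} {cW : W → W}
    {rb K C0 X0 X1 θ C k : ℝ} {e : ℂ × (κ → ℂ) → B → W} (f : EF En cB cW rb K C0 e X0 θ C k)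
    (h0 : 0 ≤ X1) (h1 : X0 ≤ X1) : EF En cB cW rb K C0 e X1 θ C k :=
  ⟨f.K_nonneg, f.θ_pos, f.k_pos, f.hol.mono (prod_mono (OmE_mono h0 h1 le_rfl) Subset.rfl),
    fun X hX => f.est X (h1.trans_lt hX), fun q hq => f.cx q (OmE_mono h0 h1 le_rfl hq),
    fun X hX => f.cj X (h1.trans_lt hX)⟩

variable {S : Mv} {T : St S} {F : Fa T} {σ : Scale T.G}
  {En : (Fin T.p → ℂ) × T.BB → T.WW σ} {A : F.Ξ σ ≃L[ℂ] F.HH σ}

/-- the glued system as an abstract system -/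
def sysF (h : F.PhiD σ)
    (hA : ∀ ξ, A ξ = fderiv ℂ F.Φ 0 (ξ, 0, fderiv ℂ En 0 (0, fderiv ℂ F.dat 0 ξ))) :
    Sys (F.Ξ σ) (F.HH σ) (Fin F.n → ℂ) T.BB (T.WW σ) :=
  ⟨F.Φ, F.dat, fderiv ℂ En 0 ∘L ContinuousLinearMap.inr ℂ _ _, A, h.hol, h.dat.hol, h.zero,
    h.dat.zero, hA⟩

theorem abF {rb C0 : ℝ} (h : F.PhiD σ) (hE : T.EnD σ En rb C0)
    (hA : ∀ ξ, A ξ = fderiv ℂ F.Φ 0 (ξ, 0, fderiv ℂ En 0 (0, fderiv ℂ F.dat 0 ξ)))
    (hi : ∀ α ξ, A ξ = -fderiv ℂ F.Φ 0 (0, 0, fderiv ℂ En 0 (α, 0)) → ξ.2.1 = 0 → α = 0) :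
    Ab (sysF h hA) F.II En F.cj T.cB (T.cW σ) where
  hI := h.ii.hol
  I0 := h.ii.zero
  ΦI _ _ _ e := funext fun k => sub_eq_zero.1 (congrFun (congrArg (fun z => z.2.1) e) k)
  hE := hE.hol
  E0 := hE.zero
  hP _ := rfl
  inj α e := hi α _ ((sysF h hA).A_Rs _) ((h.ii.fd _).symm.trans e)
  norm_c ξ := by simp [Fa.cj, Prod.norm_def]
  cΦ := h.cj
  cdat := Eventually.of_forall h.dat.cj
  cI := h.ii.cj
  cE := hE.cj

variable {N : ℕ} {ξ : ℂ × (F.I → ℂ) → F.Ξ σ} {ρ ρ' r X1 θ C0 C k : ℝ} {Θ : (F.I → ℂ) → F.I → ℂ}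
  {h : F.PhiD σ}
  {hA : ∀ ξ, A ξ = fderiv ℂ F.Φ 0 (ξ, 0, fderiv ℂ En 0 (0, fderiv ℂ F.dat 0 ξ))}

theorem gf_mono (g : F.Gf N ξ ρ r X1 θ) (h : ρ ≤ ρ') : F.Gf N ξ ρ' r X1 θ :=
  { g with small := fun q hq => ⟨(g.small q hq).1.trans_le h, (g.small q hq).2.trans_le h⟩ }

theorem Fix.gf (f : Fix (sysF h hA) F.II F.cj (fun q => T.eM σ N q.1 q.2) Θ ξ ρ r (KK N - 1 / 4) C0
      X1 θ C k) (hg : T.Good) (hb : Gi.Big N T.R (KK N - 1 / 4) T.k.ε X1)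
    (hK : T.k.K1 ≤ KK N - 1 / 4) (hρ : ∀ j, T.R ^ (13 / 8 : ℝ) * (‖T.b0 j‖ + ρ) < T.k.ε / 2)
    (hm : ∀ X y a (ξ : F.Ξ σ), X1 < X.re → ‖ξ‖ < ρ → ‖F.dat ξ‖ < ρ → F.Sv N X y a ξ →
      F.Mat N X a ξ) : F.Gf N ξ ρ r X1 θ := by
  have k1 := T.k.K1_ge
  have k2 := T.k.C_pos
  have k3 := T.k.ε_pos
  have k4 := T.k.small
  have k5 : 0 ≤ T.k.C * (3 / T.k.K1 + T.k.ε) := by positivity
  have en : ∀ j, Gi.En T.U N (F.bq ξ j) T.R (KK N - 1 / 4) T.k.K1 (13 / 8) (7 / 4) T.k.ε T.k.ε1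
      T.k.C r X1 θ := fun j =>
    ⟨by norm_num [Ex], hb, f.θ_le, by linarith, hK, k2.le, by linarith, hg.e1.trans (by norm_num),
      T.hU, (differentiableOn_const _).add (differentiableOn_pi.1 f.holb j), fun q hq =>
      lt_of_le_of_lt (mul_le_mul_of_nonneg_left ((norm_add_le _ _).trans (add_le_add le_rfl
        ((norm_le_pi_norm (F.dat (ξ q)) j).trans (f.small q hq).2.le)))
        (Real.rpow_nonneg hb.R0.le _)) (hρ j)⟩
  have sv : ∀ q ∈ Om r (KK N - 1 / 4) X1 θ, F.Sv N q.1 (yy q.2) (aa q.2) (ξ q) := fun q hq =>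
    ⟨fun j => (en j).dom j hq, f.eq q hq⟩
  exact
    { r_pos := f.r_pos
      θ_pos := f.θ_pos
      X1_ge := f.X1_ge
      θ_le := f.θ_le
      hol := f.hol
      small := f.small
      en := en
      sv := sv
      mat := fun q hq => hm _ _ _ _ hq.1 (f.small q hq).1 (f.small q hq).2 (sv q hq)
      cj := f.cj
      base := f.base }

end Crest.Agent.N250.Gl

namespace Crest.Agent.N250.R0

open Gl WS Wr B1
open B2 (aa ofR)
open Gi (KK)

/-- **the gluing** from its leaves -/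
theorem gluedS_of (hEx : ExL) (hGood : GoodL) (hEnd : EndL) (hJac : JacL) (hPhi : PhiL)
    (hLin : LinL) (hMat : MatL) (hVar : VarL) (hAct : ActL) (hAm : AmL) (hReal : RealL) :
    GluedS := by
  intro S Λ m hS e
  obtain ⟨T, rfl, hg, ⟨F, hl⟩, hm⟩ := hEx S Λ hS.shr (Ls.sh_ar hS) e _
    ((hGood S e).and ((hLin S e).and (hMat S e)))
  obtain ⟨δ, g, ham⟩ := hAm S T F
  obtain ⟨σ, hσ⟩ := T.G.exists_scale' T.G.mulS (((hEnd S T hg).and (hJac S T hg)).and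
    (((hPhi S T F).and (hl.and (hm hg F))).and
      ((hVar S T hg F).and ((hAct S T hg F).and (hReal S T hg F δ g ham)))))
  obtain ⟨⟨⟨En, rb, C0, hE⟩, hJ⟩, ⟨hP, hL, hM⟩, hV, hA, hR⟩ := hσ σ rfl
  obtain ⟨A, hA1, hA2⟩ := hL hP En (hJ En rb C0 hE)
  obtain ⟨ρM, XM, ρM0, hM⟩ := hM hP
  obtain ⟨ρV, ρV0, hV⟩ := hV hP
  obtain ⟨ρA, ρA0, hA⟩ := hA hP
  obtain ⟨ρR, ρR0, hR⟩ := hR hP
  obtain ⟨ρI, ρI0, hI⟩ := Metric.eventually_nhds_iff_ball.1 hP.ii.cj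
  have hb : ∀ᶠ ρ in 𝓝 (0 : ℝ), ∀ j, T.R ^ (13 / 8 : ℝ) * (‖T.b0 j‖ + ρ) < T.k.ε / 2 :=
    eventually_all.2 fun j => (show ContinuousAt (fun ρ : ℝ => T.R ^ (13 / 8 : ℝ) * (‖T.b0 j‖ + ρ)) 0
      by fun_prop).eventually (gt_mem_nhds (by simpa using hg.hb0 j))
  obtain ⟨ρ, ⟨⟨m1, m2, m3, m4, m5⟩, hb⟩, ρ0⟩ := (((((gt_mem_nhds ρM0).and ((gt_mem_nhds ρV0).and
    ((gt_mem_nhds ρA0).and ((gt_mem_nhds ρR0).and (gt_mem_nhds ρI0))))).and hb).filter_mono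
    nhdsWithin_le_nhds).and (self_mem_nhdsWithin (s := Ioi (0 : ℝ)))).exists
  have ab := abF hP hE hA1 hA2
  obtain ⟨r, C1, Θ, c1, hT, hF⟩ := ab.exists_fix ρ0 hE.rb_pos
  have c0 := hE.C0_nonneg
  have c2 : 0 ≤ C1 * C0 := by positivity
  have e0 := T.k.ε_pos
  have R0 : 0 < T.R := by nlinarith [T.hR, T.e.R_ge, T.e.ε_pos, T.e.ε_le]
  obtain ⟨N0, hN⟩ := eventually_atTop.1 (hE.ef.and ((eventually_ge_atTop HJ.N0).and
    (((tendsto_natCast_atTop_atTop (R := ℝ)).eventually_ge_atTop (8000 / T.k.ε)).and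
      ((tendsto_natCast_atTop_atTop (R := ℝ)).eventually_ge_atTop T.k.K1))))
  refine ⟨C1 + C1 * C0, N0, fun N hN' => ?_⟩
  obtain ⟨⟨X0, θ0, C, k, hf⟩, n1, n2, n3⟩ := hN N hN'
  have n0 : (0 : ℝ) ≤ N := Nat.cast_nonneg _
  obtain ⟨X2, y0, y1, y2, y3, y4⟩ : ∃ X2 : ℝ, X0 ≤ X2 ∧ XM ≤ X2 ∧ 2 * T.R + 4 ≤ X2 ∧
      4 * √(KK N - 1 / 4) ≤ X2 ∧ 20 / T.k.ε ≤ X2 :=
    ((eventually_ge_atTop _).and ((eventually_ge_atTop _).and ((eventually_ge_atTop _).and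
      ((eventually_ge_atTop _).and (eventually_ge_atTop _))))).exists
  obtain ⟨ξ, X1, θ, C', x1, -, f⟩ := hF _ _ _ _ _ _ _ (by positivity) (hf.raise (by linarith) y0)
  have x2 := f.X1_ge
  have G : F.Gf N ξ ρ r X1 θ := f.gf hg
    ⟨R0, e0, n1, by linarith, by linarith, by linarith, by linarith, by nlinarith⟩
    (by unfold KK; linarith) hb fun X y a ξ h1 h2 h3 =>
      hM N X y a ξ (by linarith) (h2.trans m1) (h3.trans m1)
  obtain ⟨CT, hV⟩ := hV N ξ r X1 θ (gf_mono G m2.le)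
  obtain ⟨a1, ⟨CA, a2⟩, a3, a4⟩ := hA N ξ r X1 θ (gf_mono G m3.le)
  obtain ⟨CB, b0, b1, b2, b3, b4⟩ : ∃ CB : ℝ, 0 ≤ CB ∧ CT ≤ CB ∧ CA ≤ CB ∧ C' ≤ CB ∧ ρ ≤ CB :=
    ((eventually_ge_atTop _).and ((eventually_ge_atTop _).and ((eventually_ge_atTop _).and
      ((eventually_ge_atTop _).and (eventually_ge_atTop _))))).exists
  have P : Gi.Pc T.U N (F.bq ξ) (F.Aq N ξ) (fun q => F.II (ξ q)) (fun q => F.c (ξ q))
      (fun q => (ξ q).2.2) Θ (4 * Real.pi * S.Fs 0 0 1) (C1 + C1 * C0) T.R T.k.K1 (13 / 8) (7 / 4)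
      T.k.ε T.k.ε1 T.k.C r X1 θ CB k := by
    refine ⟨f.r_pos, f.θ_pos, f.θ_le, f.k_pos, b0, by norm_num [Ex], G.en, a1, f.holI,
      f.hol.snd.snd, fun q hq => ⟨(a2 q hq).trans b2, (f.bdI q hq).trans b3, ?_⟩,
      fun q hq i => congrFun (ab.ΦI _ _ _ (f.eq q hq)) i, fun X hX x hx => ⟨a3 X hX x hx, ?_⟩,
      fun X hX w hw η v => ?_, fun X hX w hw => (f.est X hX w hw).trans ?_, a4⟩
    · exact ((norm_snd_le _).trans (norm_snd_le _)).trans ((f.small q hq).1.le.trans b4)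
    · have k1 := f.cj X hX _ hx
      rw [star_ofR] at k1
      have k2 := hI _ (mem_ball_zero_iff.2
        ((f.small _ (real_mem (by linarith) f.θ_pos hX hx)).1.trans m5))
      rw [← k1] at k2
      exact im_of_star k2.symm
    · obtain ⟨Tq, t1, t2⟩ := hV X hX w hw η v
      have x0 : 0 < X := by linarith
      exact ⟨Tq, fun j => (t1 j).trans (by gcongr), t2⟩
    · have x0 : 0 < X := by linarith
      rw [← mul_div_assoc]
      gcongr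
      linarith
  obtain ⟨r', X0', C'', k', hG⟩ := P.glued hT (by linarith)
  exact ⟨F.n, F.fA g, _, _, _, Θ, r', X0', θ, C'', k', ham.cons, hG,
    hR N ξ r X1 θ (gf_mono G m4.le)⟩

end Crest.Agent.N250.R0

end
end

-- ▼ part N250/R0/LPhi
section

/-!
# Row 250 (helper64): the system `Φ` from its three nonlinear components
-/

set_option autoImplicit false
open MeasureTheory Set Filter Topology
open scoped ComplexConjugate
open Crest.GeometryTopology.MCF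

noncomputable section

namespace Crest.Agent.N250.R0

open WS Wr B1 Gc
open Crest.Agent.N250.Gl (HolAt)

variable {S : Mv}

namespace Fa

variable {T : St S} (F : Fa T) (σ : Scale T.G)

/-- the linear shape of `Φ` -/
def LΦ : (F.Ξ σ × (Fin F.n → ℂ) × T.WW σ) × σ.AA × (F.I → ℂ) × T.BB →L[ℂ] F.HH σ where
  toFun u := (u.1.1.1 - u.2.1 - ∑ j, (u.1.2.2 j).1, fun k => u.2.2.1 (.inl k) - u.1.2.1 k,
    fun q => Wi.coL _ ((q.2 : ℤ) - 1) (u.2.2.2 q.1) - (u.1.2.2 q.1).2 q.2)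
  map_add' u v := by
    refine Prod.ext ?_ (Prod.ext (funext fun k => ?_) (funext fun q => ?_))
    · simp only [Prod.fst_add, Prod.snd_add, Pi.add_apply, Finset.sum_add_distrib]; ring
    · simp only [Prod.fst_add, Prod.snd_add, Pi.add_apply]; ring
    · simp only [Prod.fst_add, Prod.snd_add, Pi.add_apply, map_add]; ring
  map_smul' c u := by
    refine Prod.ext ?_ (Prod.ext (funext fun k => ?_) (funext fun q => ?_))
    · simp only [Prod.smul_fst, Prod.smul_snd, Pi.smul_apply, RingHom.id_apply, smul_sub,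
        Finset.smul_sum]
    · simp only [Prod.smul_fst, Prod.smul_snd, Pi.smul_apply, RingHom.id_apply, smul_sub]
    · simp only [Prod.smul_fst, Prod.smul_snd, Pi.smul_apply, RingHom.id_apply, smul_sub, map_smul]
  cont := by fun_prop

variable {σ}

theorem Φ_eq (u : F.Ξ σ × (Fin F.n → ℂ) × T.WW σ) :
    F.Φ u = F.LΦ σ (u, F.NL u.1, F.II u.1, F.dat u.1) := rfl

theorem hasF_Φ {u : F.Ξ σ × (Fin F.n → ℂ) × T.WW σ} (h1 : DifferentiableAt ℂ F.NL u.1)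
    (h2 : DifferentiableAt ℂ F.II u.1) (h3 : DifferentiableAt ℂ F.dat u.1) :
    HasFDerivAt F.Φ ((F.LΦ σ).comp ((ContinuousLinearMap.id ℂ _).prod
      (((fderiv ℂ F.NL u.1).prod ((fderiv ℂ F.II u.1).prod (fderiv ℂ F.dat u.1))).comp
        (ContinuousLinearMap.fst ℂ _ _)))) u :=
  (F.LΦ σ).hasFDerivAt.comp u ((hasFDerivAt_id u).prodMk
    ((h1.hasFDerivAt.prodMk (h2.hasFDerivAt.prodMk h3.hasFDerivAt)).comp u hasFDerivAt_fst))

theorem phiD_of (h1 : F.DatD σ) (h2 : F.IID σ) (h3 : F.NLD σ) : F.PhiD σ where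
  dat := h1
  ii := h2
  nl := h3
  hol := by
    have t : Tendsto (Prod.fst : F.Ξ σ × (Fin F.n → ℂ) × T.WW σ → F.Ξ σ) (𝓝 0) (𝓝 0) :=
      continuous_fst.tendsto 0
    filter_upwards [t.eventually h1.hol, t.eventually h2.hol, t.eventually h3.hol] with u a b c
    exact (F.hasF_Φ c b a).differentiableAt
  zero := by
    rw [Φ_eq, Prod.fst_zero, h1.zero, h2.zero, h3.zero]
    exact map_zero (F.LΦ σ)
  fd ξ y w := by
    rw [(F.hasF_Φ (u := 0) h3.hol.self_of_nhds h2.hol.self_of_nhds h1.hol.self_of_nhds).fderiv,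
      ← h2.fd ξ]
    rfl
  cj := by
    filter_upwards [h2.cj, h3.cj] with ξ a b y w h
    have e1 : ξ.1 - F.NL ξ - ∑ j, (w j).1 = 0 := congrArg Prod.fst h
    have e2 : ∀ k, F.II ξ (.inl k) - y k = 0 := congrFun (congrArg (fun v => v.2.1) h)
    have e3 : ∀ q : Fin T.p × Fin 3, Wi.co (F.dat ξ q.1) ((q.2 : ℤ) - 1) - (w q.1).2 q.2 = 0 :=
      congrFun (congrArg (fun v => v.2.2) h)
    refine Prod.ext ?_ (Prod.ext (funext fun k => ?_) (funext fun q => ?_))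
    · change σ.cj ξ.1 - F.NL (F.cj ξ) - ∑ j, σ.cj (w j).1 = 0
      rw [b, ← map_sum, ← map_sub, ← map_sub, e1, map_zero]
    · change F.II (F.cj ξ) (.inl k) - star (y k) = 0
      rw [a, Pi.star_apply, ← star_sub, e2, star_zero]
    · change Wi.co (F.dat (F.cj ξ) q.1) ((q.2 : ℤ) - 1) - conj ((w q.1).2 q.2.rev) = 0
      have e : -((q.2 : ℤ) - 1) = ((q.2.rev : Fin 3) : ℤ) - 1 := by
        generalize q.2 = i
        fin_cases i <;> rfl
      rw [h1.cj, St.cB, Cj.co_cj (Cj.ev_omP 2), e, sub_eq_zero.1 (e3 (q.1, q.2.rev))]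
      exact sub_self _

end Fa

theorem phiL_of (h1 : DatL) (h2 : IIL) (h3 : NLL) : PhiL := fun S T F =>
  (((h1 S T F).and (h2 S T F)).and (h3 S T F)).mono fun _ h => F.phiD_of h.1.1 h.1.2 h.2

end Crest.Agent.N250.R0

end
end

-- ▼ part N250/Ec/Quad
section

/-!
# Row 250, end chart (helper40): data that are quadratic in the trace
-/

set_option autoImplicit false
set_option linter.unusedSectionVars false
open Set Filter Topology Function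
open scoped ContDiff

noncomputable section

namespace Crest.Agent.N250.Ec

open WS B1

variable {X : Type} [TopologicalSpace X] [MeasurableSpace X] [BorelSpace X] {G : Geo X} {c : ℝ → X}
  (h : Lo G.M c) (k : ℕ) (σ : Scale G) {Ξ : Type*} [NormedAddCommGroup Ξ] [NormedSpace ℂ Ξ]
  (J : Ξ →L[ℂ] σ.AA) {a b : ℝ → ℂ} {w : Ξ → ℝ → ℂ}

/-- the linear trace `ξ ↦ four (a · w ξ)` -/
def lq (a : ℝ → ℂ) : Ξ →L[ℂ] Wi (omP k) :=
  (ContinuousLinearMap.mul ℂ _ (four k a)) ∘L (trL h k σ ∘L J)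

theorem lq_apply (a : ℝ → ℂ) (ξ : Ξ) : lq h k σ J a ξ = four k a * trA h k σ (J ξ) := rfl

include h in
theorem pd_w (hw : ∀ ξ θ, w ξ θ = (σ.val (J ξ)).1 (c θ)) (ξ : Ξ) : Pd (w ξ) :=
  funext (hw ξ) ▸ h.pd (σ.val (J ξ)).2

theorem four_w (hw : ∀ ξ θ, w ξ θ = (σ.val (J ξ)).1 (c θ)) (ξ : Ξ) :
    four k (w ξ) = trA h k σ (J ξ) := (trS_eq_four h k _ fun θ => (hw ξ θ).symm).symm

theorem lq_eq (ha : Pd a) (hw : ∀ ξ θ, w ξ θ = (σ.val (J ξ)).1 (c θ)) (ξ : Ξ) :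
    lq h k σ J a ξ = four k fun θ => a θ * w ξ θ := by
  rw [ha.four_mul k (pd_w h σ J hw ξ), four_w h k σ J hw, lq_apply]

theorem quad_eq (ha : Pd a) (hb : Pd b) (hw : ∀ ξ θ, w ξ θ = (σ.val (J ξ)).1 (c θ)) (ξ : Ξ) :
    (four k fun θ => a θ * w ξ θ + b θ * w ξ θ ^ 2) =
      four k a * trA h k σ (J ξ) + four k b * (trA h k σ (J ξ) * trA h k σ (J ξ)) := by
  have h1 := pd_w h σ J hw ξ
  simp only [sq]
  rw [(ha.mul h1).four_add k (hb.mul (h1.mul h1)), ha.four_mul k h1, hb.four_mul k (h1.mul h1),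
    h1.four_mul k h1, four_w h k σ J hw]

theorem quad_hasF (ha : Pd a) (hb : Pd b) (hw : ∀ ξ θ, w ξ θ = (σ.val (J ξ)).1 (c θ)) (ξ : Ξ) :
    HasFDerivAt (fun ξ => four k fun θ => a θ * w ξ θ + b θ * w ξ θ ^ 2)
      (lq h k σ J fun θ => a θ + 2 * b θ * w ξ θ) ξ := by
  have h1 := pd_w h σ J hw ξ
  have h2 : HasFDerivAt (fun ξ => trA h k σ (J ξ)) (trL h k σ ∘L J) ξ := (trL h k σ ∘L J).hasFDerivAt
  simp only [quad_eq h k σ J ha hb hw]
  refine ((h2.const_mul (four k a)).add ((h2.mul h2).const_mul (four k b))).congr_fderiv ?_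
  ext1 η
  rw [lq_apply, ha.four_add k (((Pd.const 2).mul hb).mul h1), ((Pd.const 2).mul hb).four_mul k h1,
    hb.four_smul k 2, four_w h k σ J hw, two_smul]
  change four k a * trA h k σ (J η) + four k b * (trA h k σ (J ξ) * trA h k σ (J η) +
    trA h k σ (J ξ) * trA h k σ (J η)) = _
  ring

include h in
theorem quad_diff (ha : Pd a) (hb : Pd b) (hw : ∀ ξ θ, w ξ θ = (σ.val (J ξ)).1 (c θ)) :
    Differentiable ℂ fun ξ => four k fun θ => a θ * w ξ θ + b θ * w ξ θ ^ 2 :=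
  fun ξ => (quad_hasF h k σ J ha hb hw ξ).differentiableAt

theorem w_zero (hw : ∀ ξ θ, w ξ θ = (σ.val (J ξ)).1 (c θ)) (θ : ℝ) : w 0 θ = 0 := by
  rw [hw, map_zero, map_zero]; rfl

theorem quad_zero (hw : ∀ ξ θ, w ξ θ = (σ.val (J ξ)).1 (c θ)) :
    (four k fun θ => a θ * w 0 θ + b θ * w 0 θ ^ 2) = 0 := by
  simp only [w_zero σ J hw, mul_zero, ne_eq, OfNat.ofNat_ne_zero, not_false_eq_true, zero_pow, add_zero]
  exact (Pd.four_const k 0).trans (map_zero _)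

include h in
theorem quad_fderiv_zero (ha : Pd a) (hb : Pd b) (hw : ∀ ξ θ, w ξ θ = (σ.val (J ξ)).1 (c θ)) (η : Ξ) :
    fderiv ℂ (fun ξ => four k fun θ => a θ * w ξ θ + b θ * w ξ θ ^ 2) 0 η =
      four k fun θ => a θ * w η θ := by
  rw [(quad_hasF h k σ J ha hb hw 0).fderiv, ← lq_eq h k σ J ha hw]
  simp only [w_zero σ J hw, mul_zero, add_zero]


end Crest.Agent.N250.Ec

end
end

-- ▼ part N250/R0/LDat
section

/-!
# Row 250 (helper12): the leaf `DatL`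
-/

set_option autoImplicit false
open MeasureTheory Set Filter Topology
open Crest.GeometryTopology.MCF

noncomputable section

namespace Crest.Agent.N250.R0

open WS Wr B1 Gc

variable {S : Mv} {T : St S}

namespace LDat

theorem pd_a (j : Fin T.p) : Ec.Pd fun θ => T.rS j (T.R, θ) / T.nu j (T.R, θ) :=
  St.pd_of (g := fun q => T.rS j q / T.nu j q)
    (fun _ => ((T.cd_rS T.eR_lt_R).mul (T.cd_nu_inv T.eR_lt_R)).congr_of_eventuallyEq
      (.of_forall fun _ => div_eq_mul_inv _ _))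
    fun θ => by simp only [T.per_rS j T.R θ, T.per_nu j T.R θ]

theorem pd_b (j : Fin T.p) : Ec.Pd fun θ => (2 * T.nu j (T.R, θ) ^ 2)⁻¹ :=
  St.pd_of (g := fun q => (2 * T.nu j q ^ 2)⁻¹)
    (fun _ => (contDiffAt_const.mul ((T.cd_nu T.eR_lt_R).pow 2)).inv
      (mul_ne_zero two_ne_zero (pow_ne_zero 2 (T.nu_ne T.eR_lt_R))))
    fun θ => by simp only [T.per_nu j T.R θ]

variable (F : Fa T) {σ : Scale T.G}

/-- the projection on the arguments of the Green operator -/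
def pr : F.Ξ σ →L[ℂ] σ.AA × (F.I → ℂ) :=
  (ContinuousLinearMap.fst ℂ _ _).prod
    ((ContinuousLinearMap.fst ℂ _ _) ∘L (ContinuousLinearMap.snd ℂ _ _))

theorem tr_w (J : σ.Jets F.φ) (j : Fin T.p) (ξ : F.Ξ σ) (θ : ℝ) :
    (F.w ξ).1 (T.ψ j (T.R, θ)) = (σ.val ((J.J0 ∘L pr F) ξ)).1 (T.ψ j (T.R, θ)) := by
  have h1 : T.G.ζ.1 (T.ψ j (T.R, θ)) = 1 := T.ζ_ψ T.eR_lt_R (by simp)
  have h2 : T.G.ι.1 (T.ψ j (T.R, θ)) = 1 := T.ι_ψ (by simp)
  rw [ContinuousLinearMap.comp_apply, J.val0]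
  change _ = ((T.G.ζ.1 _ * T.G.ι.1 _ : ℝ) : ℂ) * (F.w ξ).1 _
  rw [h1, h2]; simp

theorem dat_eq (j : Fin T.p) : (fun ξ : F.Ξ σ => F.dat ξ j) = fun ξ => Ec.four 2 fun θ =>
    T.rS j (T.R, θ) / T.nu j (T.R, θ) * (F.w ξ).1 (T.ψ j (T.R, θ)) +
      (2 * T.nu j (T.R, θ) ^ 2)⁻¹ * (F.w ξ).1 (T.ψ j (T.R, θ)) ^ 2 := by
  funext ξ; simp only [Fa.dat, T.vW_sub]

theorem diff_j (J : σ.Jets F.φ) (j : Fin T.p) : Differentiable ℂ fun ξ : F.Ξ σ => F.dat ξ j := by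
  rw [dat_eq]
  exact Ec.quad_diff (T.lo_ψ j T.eR_lt_R) 2 σ (J.J0 ∘L pr F) (pd_a j) (pd_b j)
    (w := fun ξ θ => (F.w ξ).1 (T.ψ j (T.R, θ))) (tr_w F J j)

theorem diff (J : σ.Jets F.φ) : Differentiable ℂ (F.dat (σ := σ)) :=
  differentiable_pi.2 (diff_j F J)

theorem datD (J : σ.Jets F.φ) : F.DatD σ where
  syn := F.syn_dat
  hol := .of_forall (diff F J)
  zero := funext fun j => (congrFun (dat_eq F j) 0).trans
    (Ec.quad_zero 2 σ (J.J0 ∘L pr F) (w := fun ξ θ => (F.w ξ).1 (T.ψ j (T.R, θ))) (tr_w F J j))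
  fd ξ j θ := by
    have h : fderiv ℂ F.dat 0 ξ j = fderiv ℂ (fun ξ : F.Ξ σ => F.dat ξ j) 0 ξ := by
      rw [fderiv_apply (diff F J 0) j]; rfl
    rw [h, dat_eq, Ec.quad_fderiv_zero (T.lo_ψ j T.eR_lt_R) 2 σ (J.J0 ∘L pr F) (pd_a j) (pd_b j)
      (w := fun ξ θ => (F.w ξ).1 (T.ψ j (T.R, θ))) (tr_w F J j)]
    exact ((pd_a j).mul ((T.lo_ψ j T.eR_lt_R).pd (F.w ξ).2)).syn_four 2 θ
  cj := CjE.dat_cj F

end LDat

/-- **the boundary data** -/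
theorem datL : DatL := fun _ T F =>
  (F.grn.nonempty_jets T.G.mainS).mono fun _ h σ e => (h σ e).elim (LDat.datD F)

end Crest.Agent.N250.R0

end
end

-- ▼ part N250/R0/LII

/-!
# Row 250 (helper13): the leaf `IIL`
-/

set_option autoImplicit false
open Filter Topology
open Crest.GeometryTopology.MCF

namespace Crest.Agent.N250.R0

open WS

theorem Fa.sg_jetsI {S : Mv} {T : St S} (F : Fa T) : Sg fun σ => Nonempty (σ.Jets F.φ) :=
  F.grn.nonempty_jets T.G.mainS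

theorem Fa.iid {S : Mv} {T : St S} (F : Fa T) {σ : Scale T.G} (Jt : σ.Jets F.φ) : F.IID σ where
  hol := Av.hol_II' F Jt
  zero := funext (Av.II_zero F)
  fd ξ := funext fun k => by
    rw [← Av.fd_II F Jt k ξ, fderiv_pi fun k => (Av.hol_II F Jt k).self_of_nhds]; rfl
  cj := (Av.II_cj F Jt).mono fun _ h => funext h

theorem iiL : IIL := fun _ _ F => F.sg_jetsI.mono fun _ ⟨Jt⟩ => F.iid Jt

end Crest.Agent.N250.R0
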