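import Crest.Agent.N250.Em.Rd
import Crest.Agent.N250.El.Exp
import Crest.Agent.N250.El.Near
import Crest.Agent.N250.Xi.EndC
import Crest.Agent.N250.Gi.Fe
import Crest.Agent.N250.Gi.Cj
import Crest.Agent.N250.Gl.Fix
import Crest.Agent.N250.R0.Leaf
import Crest.Agent.N250.R0.CjE
import Crest.Agent.N250.Se.Dic
import Crest.Agent.N250.B1.Sm4
import Crest.Agent.N250.B1.End1
import Crest.Agent.N250.Lg.Jac
import Crest.Agent.N250.Em.Dr
import Crest.Agent.N250.Ce.Close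
import Crest.Agent.N250.S9.Cast
import Crest.Agent.N250.El.Hat
import Crest.Agent.N250.H.Hol
import Crest.Agent.N250.B1.Sm5
import Crest.Agent.N250.Gi.Cau
import Crest.Agent.N250.Lp.Psi

-- ▼ part N250/Em/EF
section

/-!
# Row 250 (helper4): the end map of a family of readings satisfies `Gl.EF`
-/

set_option autoImplicit false
set_option linter.unusedSectionVars false
open Set Filter Topology Metric Complex
open scoped ComplexConjugate

noncomputable section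

namespace Crest.Agent.N250.Em

open B1
open Gi (hat KK hN wf Ow Big Pw)

variable {ℓ : Ell} {U : Par ℓ → Jt ℓ} {R K ε ε1 C0 c CD C c0 : ℝ}
variable {W : Type*} [NormedAddCommGroup W] [NormedSpace ℂ W]

/-- inner data -/
abbrev BI : Type := Wi (omP 2)

theorem exp_mono {B : Type*} [NormedAddCommGroup B] [NormedSpace ℂ B] {e0 : ℝ → ℂ → B → W}
    {V : Set B} {x0 x1 x2 : B → W} {A A' : ℝ} (h : El.Exp e0 V c x0 x1 x2 A) (hA : A ≤ A') :
    El.Exp e0 V c x0 x1 x2 A' :=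
  ⟨h.d0, h.d1, h.d2, fun b hb => (h.b0 b hb).trans hA, fun b hb => (h.b1 b hb).trans hA,
    fun b hb => (h.b2 b hb).trans hA, h.ex, h.t0, h.t1⟩

theorem big_ev (hR : 0 < R) (hε : 0 < ε) (K : ℝ) : ∀ᶠ N : ℕ in atTop, K ≤ KK N - 1 / 2 ∧
    ∀ᶠ X : ℝ in atTop, Big N R (KK N - 1 / 2) ε X ∧ 4 * KK N ≤ X ^ 2 := by
  have t : Tendsto (fun N : ℕ => (N : ℝ)) atTop atTop := tendsto_natCast_atTop_atTop
  filter_upwards [eventually_ge_atTop HJ.N0, t.eventually_ge_atTop (8000 / ε),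
    t.eventually_ge_atTop K] with N h1 h2 h3
  have p := tendsto_pow_atTop (α := ℝ) two_ne_zero
  refine ⟨by unfold KK; linarith [Nat.cast_nonneg (α := ℝ) N], ?_⟩
  filter_upwards [eventually_ge_atTop (2 * R + 4), eventually_ge_atTop (4 * √(KK N - 1 / 2)),
    p.eventually_ge_atTop (20 / ε), p.eventually_ge_atTop (4 * KK N)] with X a1 a2 a3 a4
  exact ⟨⟨hR, hε, h1, by linarith, le_rfl, a1, a2, a3⟩, a4⟩

section one

variable {E : Par ℓ → W} {b0 : BI} {N : ℕ} {X1 M A A' : ℝ} {x0 x1 x2 : BI → W}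

theorem mem_Ow {K' X1 X : ℝ} {a : ℂ} {b : BI} (h0 : 0 < X) (hX : X1 < X) (ha : Adm K' X a)
    (hb : b ∈ Ub R ε b0) : (((X : ℂ), a, b0 + b) : Pw) ∈ Ow R K' (13 / 8) ε X1 :=
  ⟨hX, by simpa using h0, ha, hb⟩

theorem Fm.dr1N (F : Fm U R K ε ε1 C0 6015 c CD C c0) (H : Rdg U R K ε E 0 M A) (b0 : BI)
    (hB : Big N R (KK N - 1 / 2) ε X1) (h4 : 4 * KK N ≤ X1 ^ 2) {K' : ℝ} (hK : K ≤ K')
    (hK' : KK N - 1 / 2 ≤ K') :
    ∃ C' X2, El.Dr1 (fun X a b => E (wf ℓ N (X, a, b0 + b))) (fun X a b => eW E b0 X a 0 b)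
      (Ub R ε b0) K' c c (1 / 16) (CD / c ^ 6) C' X2 := by
  have x4 := hB.X4
  have k : ∀ X, X1 + 1 ≤ X → 2 ≤ X ∧ 4 * KK N ≤ X ^ 2 := fun X hX =>
    ⟨by linarith, h4.trans (pow_le_pow_left₀ (by linarith) (by linarith) 2)⟩
  obtain ⟨C', X2, -, h⟩ := F.dr1 H b0 (X2 := X1 + 1) hK (h := fun X a => hN N X a)
    (fun X hX => (Xi.EC.hN_diffOn hB.N0 (k X hX).1 (k X hX).2).mono fun a ha => adm_mono ha hK')
    fun X hX a ha => ⟨Xi.EC.hN_le hB.N0 (adm_mono ha hK') (k X hX).1 (k X hX).2, by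
      have := hB.hN_small (g := 13 / 8) (q := (X, a, 0)) ⟨by simp only [ofReal_re]; linarith,
        by simp only [ofReal_im, abs_zero, ofReal_re]; exact inv_pos.2 (by linarith),
        adm_mono ha hK', by simpa using hB.ε0⟩
      simpa using this⟩
  exact ⟨C', X2, h⟩

theorem wf_conj (hB : Big N R (KK N - 1 / 2) ε X1) (hb0 : Wi.cj b0 = b0) {X : ℝ} {a : ℂ} {b : BI}
    (hq : (((X : ℂ), a, b0 + b) : Pw) ∈ Ow R (KK N - 1 / 2) (13 / 8) ε X1) :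
    wf ℓ N (X, conj a, b0 + Wi.cj b) = cz (wf ℓ N (X, a, b0 + b)) := by
  rw [← Gi.Cj.wf_cj hB hq, Gi.Cj.cq, conj_ofReal, Cj.cj_add, hb0]

theorem cj_Ub (hb0 : Wi.cj b0 = b0) {b : BI} (hb : b ∈ Ub R ε b0) : Wi.cj b ∈ Ub R ε b0 := by
  change _ * ‖b0 + Wi.cj b‖ < _
  rw [← hb0, ← Cj.cj_add, Cj.norm_cj]; exact hb

/-- a conjugation of `W` -/
structure IsCj (cw : W → W) : Prop where
  add : ∀ u v, cw (u + v) = cw u + cw v
  smul : ∀ (a : ℂ) u, cw (a • u) = conj a • cw u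
  le : ∀ u, ‖cw u‖ ≤ ‖u‖

/-- as a real linear map -/
def IsCj.clm {cw : W → W} (h : IsCj cw) : W →L[ℝ] W :=
  LinearMap.mkContinuous ⟨⟨cw, h.add⟩, fun r u => by
    simpa using h.smul r u⟩ 1 fun u => by simpa using h.le u

/-- reality of the coefficients -/
theorem Fm.real (F : Fm U R K ε ε1 C0 6015 c CD C c0) (H : Rdg U R K ε E 0 M A)
    (hE : El.Exp (fun X a b => eW E b0 X a 0 b) (Ub R ε b0) c x0 x1 x2 A') {cw : W → W}
    (hw : IsCj cw) (hb0 : Wi.cj b0 = b0) (hc : ∀ z ∈ DD ℓ R K ε, E (cz z) = cw (E z)) {b : BI}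
    (hb : b ∈ Ub R ε b0) :
    x0 (Wi.cj b) = cw (x0 b) ∧ x1 (Wi.cj b) = cw (x1 b) ∧ x2 (Wi.cj b) = cw (x2 b) := by
  obtain ⟨N, hK, hX⟩ := (big_ev (by linarith [F.sz.hR]) F.ε_pos K).exists
  obtain ⟨X1, hB, h4⟩ := hX.exists
  obtain ⟨C', X2, h⟩ := F.dr1N H b0 hB h4 hK le_rfl
  obtain ⟨C2, k2, X3, -, k0, -, -, h5⟩ := h.near0 hE (by linarith [F.c_le]) (by norm_num)
  refine Xi.EC.Ap.real (K := KK N - 1 / 2) ⟨k0, fun b hb => ⟨hE.b1 b hb, hE.b2 b hb⟩, h5⟩ hw.clm hb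
    (cj_Ub hb0 hb) ?_
  filter_upwards [eventually_gt_atTop X1] with X hX s hs
  have x4 := hB.X4
  have hq := mem_Ow (R := R) (ε := ε) (by linarith) hX (Xi.EC.adm_small (K := KK N - 1 / 2)
    (a := s) (by linarith) (by nlinarith) (by simpa using hs)) hb
  have := wf_conj (ℓ := ℓ) hB hb0 hq
  rw [conj_ofReal] at this
  rw [this]
  exact hc _ (hB.mem hK hq)

end one

variable {κ : Type} [Fintype κ]

/-- the end map -/
def eN (E : κ → Par ℓ → W) (b0 : κ → BI) (N : ℕ) (q : ℂ × (κ → ℂ)) (b : κ → BI) : κ → W :=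
  fun j => E j (wf ℓ N (q.1, q.2 j, b0 j + b j))

/-- its limit -/
def EnO (x0 x1 x2 : κ → BI → W) (z : (κ → ℂ) × (κ → BI)) : κ → W :=
  fun j => x0 j (z.2 j) + z.1 j • x1 j (z.2 j) + z.1 j ^ 2 • x2 j (z.2 j)

/-- the limit data -/
structure Lm (E : κ → Par ℓ → W) (b0 : κ → BI) (R ε c : ℝ) (x0 x1 x2 : κ → BI → W) (A rb : ℝ) :
    Prop where
  rb_pos : 0 < rb
  A_nonneg : 0 ≤ A
  sub : ∀ j, ball 0 rb ⊆ Ub R ε (b0 j)
  exp : ∀ j, El.Exp (fun X a b => eW (E j) (b0 j) X a 0 b) (Ub R ε (b0 j)) c (x0 j) (x1 j) (x2 j) A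

variable {E : κ → Par ℓ → W} {b0 : κ → BI} {x0 x1 x2 : κ → BI → W} {A rb : ℝ}

theorem Fm.exists_lm [CompleteSpace W] {Ch : ℝ} (F : Fm U R K ε ε1 C0 Ch c CD C c0)
    (H : ∀ j, RD U R K ε (E j)) (hb : ∀ j, R ^ (13 / 8 : ℝ) * ‖b0 j‖ < ε / 2) :
    ∃ x0 x1 x2 A rb, Lm E b0 R ε c x0 x1 x2 A rb := by
  choose M A h using H
  choose C' X1 d using fun j => F.dr0 (h j) (b0 j)
  choose x0 x1 x2 A' e using fun j => (d j).exp
  obtain ⟨A0, hA⟩ := (finite_range A').bddAbove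
  have : ∀ᶠ r in 𝓝[>] (0 : ℝ), ∀ j, ball 0 r ⊆ Ub R ε (b0 j) := eventually_all.2 fun j =>
    (eventually_ball_subset ((isOpen_Ub R ε (b0 j)).mem_nhds (by simpa [Ub] using hb j))).filter_mono
      nhdsWithin_le_nhds
  obtain ⟨rb, h1, h2⟩ := (this.and self_mem_nhdsWithin).exists
  exact ⟨x0, x1, x2, max A0 0, rb, h2, le_max_right _ _, h1,
    fun j => exp_mono (e j) ((hA (mem_range_self j)).trans (le_max_left _ _))⟩

namespace Lm

variable (L : Lm E b0 R ε c x0 x1 x2 A rb)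
include L

theorem mem {b : κ → BI} (hb : b ∈ ball (0 : κ → BI) rb) (j : κ) : b j ∈ Ub R ε (b0 j) :=
  L.sub j (mem_ball_zero_iff.2 ((norm_le_pi_norm b j).trans_lt (mem_ball_zero_iff.1 hb)))

theorem ev : ∀ᶠ z in 𝓝 (0 : (κ → ℂ) × (κ → BI)), z.2 ∈ ball (0 : κ → BI) rb :=
  continuous_snd.continuousAt.eventually_mem (ball_mem_nhds _ L.rb_pos)

theorem diffAt {z : (κ → ℂ) × (κ → BI)} (hz : z.2 ∈ ball (0 : κ → BI) rb) :
    DifferentiableAt ℂ (EnO x0 x1 x2) z := by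
  refine differentiableAt_pi.2 fun j => ?_
  have n := (isOpen_Ub R ε (b0 j)).mem_nhds (L.mem hz j)
  have p : DifferentiableAt ℂ (fun z : (κ → ℂ) × (κ → BI) => z.2 j) z := by fun_prop
  have q : DifferentiableAt ℂ (fun z : (κ → ℂ) × (κ → BI) => z.1 j) z := by fun_prop
  exact ((((L.exp j).d0.differentiableAt n).comp z p).add
    (q.smul (((L.exp j).d1.differentiableAt n).comp z p))).add
    ((q.pow 2).smul (((L.exp j).d2.differentiableAt n).comp z p))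

theorem hol : Gl.HolAt (EnO x0 x1 x2) := L.ev.mono fun _ hz => L.diffAt hz

theorem zero (h : ∀ j, Tendsto (fun X : ℝ => E j (X, 0, wd (b0 j) 0)) atTop (𝓝 0)) :
    EnO x0 x1 x2 0 = 0 := funext fun j => by
  have := (L.exp j).t0 0 (L.sub j (mem_ball_self L.rb_pos))
  simp only [eW, add_zero] at this
  simpa [EnO] using tendsto_nhds_unique this (h j)


variable (F : Fm U R K ε ε1 C0 6015 c CD C c0) (H : ∀ j, RD U R K ε (E j)) {cw : W → W}
  (hb0 : ∀ j, Wi.cj (b0 j) = b0 j) (hc : ∀ j, ∀ z ∈ DD ℓ R K ε, E j (cz z) = cw (E j z))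
include F H hb0 hc

theorem cj (hw : IsCj cw) : ∀ᶠ z in 𝓝 (0 : (κ → ℂ) × (κ → BI)),
    EnO x0 x1 x2 (star z.1, fun j => Wi.cj (z.2 j)) = fun j => cw (EnO x0 x1 x2 z j) :=
  L.ev.mono fun z hz => funext fun j => by
    obtain ⟨M, A', h⟩ := H j
    obtain ⟨h0, h1, h2⟩ := F.real h (L.exp j) hw (hb0 j) (hc j) (L.mem hz j)
    simp [EnO, h0, h1, h2, hw.add, hw.smul]

/-- **the end map** -/
theorem ef : ∀ᶠ N : ℕ in atTop, ∃ X0 C' k, Gl.EF (EnO x0 x1 x2) (fun b j => Wi.cj (b j))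
    (fun w j => cw (w j)) rb (KK N - 1 / 4) (2 * A * (CD / c ^ 6) / ((N : ℝ) + 1)) (eN E b0 N) X0
    (1 / 16) C' k := by
  filter_upwards [big_ev (by linarith [F.sz.hR]) F.ε_pos K] with N ⟨hK, hX⟩
  obtain ⟨X1, hB, h4⟩ := hX.exists
  have x4 := hB.X4
  have k7 := Xi.EC.KK_ge N
  choose M A' h using H
  choose C1 X2 d using fun j => F.dr1N (h j) (b0 j) hB h4 (K' := KK N - 1 / 4) (by linarith)
    (by linarith)
  choose C2 k X3 p2 pk p3 _ e using fun j =>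
    (d j).near (L.exp j) (by linarith [F.c_le]) (by norm_num)
  obtain ⟨M0, hM⟩ := (finite_range M).bddAbove
  obtain ⟨C3, hC⟩ := (finite_range C2).bddAbove
  obtain ⟨X4, hX4⟩ := (finite_range X3).bddAbove
  obtain ⟨k0, hk, k0p⟩ := ((eventually_all.2 fun j => Ioc_mem_nhdsGT (pk j)).and
    (self_mem_nhdsWithin (a := (0 : ℝ)) (s := Ioi 0))).exists
  have hc0 := F.c_pos
  have hCD := F.CD_pos
  have hA := L.A_nonneg
  have ow : ∀ {z a : ℂ} {b : κ → BI} (j : κ), b ∈ ball (0 : κ → BI) rb → X1 < z.re →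
      |z.im| < z.re⁻¹ → Adm (KK N - 1 / 2) z.re a →
      ((z, a, b0 j + b j) : Pw) ∈ Ow R (KK N - 1 / 2) (13 / 8) ε X1 :=
    fun j hb h1 h2 h3 => ⟨h1, h2, h3, L.mem hb j⟩
  have dm : ∀ {q : Pw}, q ∈ Ow R (KK N - 1 / 2) (13 / 8) ε X1 →
      wf ℓ N q ∈ DD ℓ R K ε ∩ {z | 0 < z.1.re} := fun hq => ⟨hB.mem hK hq, by
    have := hq.1
    change 0 < Complex.re _
    simp only [wf]; linarith⟩
  have hd : ∀ j, DifferentiableOn ℂ (fun q => E j (wf ℓ N q)) (Ow R (KK N - 1 / 2) (13 / 8) ε X1) :=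
    fun j => (h j).hol.comp (fun _ hq => (hB.diff hq).differentiableWithinAt) fun _ hq => dm hq
  refine ⟨max (X1 + 1) X4, max C3 (32 * |M0|), k0, by linarith, by norm_num, k0p, ?_,
    fun X hX a ha b hb => ?_, fun q hq b hb => ?_, fun X hX a ha b hb => funext fun j => ?_⟩
  · refine differentiableOn_pi.2 fun j => (hd j).comp
      (f := fun z : (ℂ × (κ → ℂ)) × (κ → BI) => ((z.1.1, z.1.2 j, b0 j + z.2 j) : Pw))
      (by fun_prop) fun z hz => ?_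
    have h1 : X1 + 1 < z.1.1.re := (le_max_left _ _).trans_lt hz.1.1
    refine ow j hz.2 (by linarith) (hz.1.2.1.trans_le ?_) (adm_mono (hz.1.2.2 j) (by linarith))
    rw [inv_eq_one_div]
    exact div_le_div_of_nonneg_right (by norm_num) (by linarith)
  · have h1 : X1 + 1 < X := (le_max_left _ _).trans_lt hX
    have c3 : 0 ≤ max C3 (32 * |M0|) := le_max_of_le_right (by positivity)
    have x0 : 0 < X := by linarith
    refine (pi_norm_le_iff_of_nonneg (by positivity)).2 fun j => ?_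
    refine (e j X ((hX4 (mem_range_self j)).trans ((le_max_right _ _).trans hX.le)) _ (ha j) _
      (L.mem hb j)).trans ?_
    have a1 : (N : ℝ) + 1 ≤ KK N - 1 / 4 := by unfold KK; linarith [Nat.cast_nonneg (α := ℝ) N]
    have a2 : X ^ (-k j) ≤ X ^ (-k0) :=
      Real.rpow_le_rpow_of_exponent_le (by linarith) (by linarith [(hk j).2])
    have a3 := (hC (mem_range_self j)).trans (le_max_left C3 (32 * |M0|))
    gcongr
  · obtain ⟨z, a⟩ := q
    obtain ⟨h1, h2, h3⟩ := hq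
    dsimp only at h1 h2 h3 ⊢
    have h1 : X1 + 1 < z.re := (le_max_left _ _).trans_lt h1
    obtain ⟨X, hX⟩ : ∃ X, X = z.re := ⟨_, rfl⟩
    rw [← hX] at h1 h2 h3 ⊢
    have x0 : 0 < X := by linarith
    have r1 : 1 / (16 * X) ≤ 1 := by rw [div_le_one (by positivity)]; linarith
    have key : ∀ j, ∀ u ∈ ball (X : ℂ) (1 / (16 * X)),
        ((u, a j, b0 j + b j) : Pw) ∈ Ow R (KK N - 1 / 2) (13 / 8) ε X1 := fun j u hu => by
      have n := mem_ball_iff_norm.1 hu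
      have n1 := (abs_re_le_norm _).trans_lt n
      have n2 := (abs_im_le_norm _).trans_lt n
      simp only [sub_re, ofReal_re, sub_im, ofReal_im, sub_zero] at n1 n2
      have n3 := abs_lt.1 n1
      refine ow j hb (by linarith) (n2.trans_le ?_) ?_
      · rw [inv_eq_one_div]
        exact one_div_le_one_div_of_le (by linarith) (by linarith)
      · have := Gi.adm_step (d := 0) (by linarith) (by linarith)
          (by nlinarith) (h3 j) n1.le (by rw [norm_zero]; positivity)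
        rwa [add_sub_cancel, add_zero, show KK N - 1 / 4 - 1 / 4 = KK N - 1 / 2 by ring] at this
    have nz : ‖z - X‖ = |z.im| := by
      rw [show z - X = (z.im : ℂ) * I by rw [hX]; apply Complex.ext <;> simp]; simp
    refine (pi_norm_le_iff_of_nonneg (by positivity)).2 fun j => ?_
    have := H.lip_le (f := fun u => E j (wf ℓ N (u, a j, b0 j + b j))) (M := |M0|) (z := z)
      ((hd j).comp (f := fun u : ℂ => ((u, a j, b0 j + b j) : Pw)) (by fun_prop) (key j))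
      (fun u hu => ((h j).bd _ (dm (key j u hu)).1 (dm (key j u hu)).2).trans
        ((hM (mem_range_self j)).trans (le_abs_self _)))
      (by rw [mem_ball_iff_norm, nz, ← div_div]; exact h2)
    refine this.trans ?_
    rw [nz, show 2 * |M0| / (1 / (16 * X)) * |z.im| = 32 * |M0| * (X * |z.im|) by field_simp; ring]
    gcongr
    exact le_max_right _ _
  · have h1 : X1 + 1 < X := (le_max_left _ _).trans_lt hX
    have hq := mem_Ow (R := R) (ε := ε) (X1 := X1) (by linarith) (by linarith)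
      (adm_mono (ha j) (show KK N - 1 / 2 ≤ _ by linarith)) (L.mem hb j)
    exact (congrArg (E j) (wf_conj hB (hb0 j) hq)).trans (hc j _ (hB.mem hK hq))

end Lm

end Crest.Agent.N250.Em

end
end

-- ▼ part N250/R0/LEnd
section

/-!
# Row 250 (helper4): the leaf `EndL`
-/

set_option autoImplicit false
open Set Filter Topology Metric
open scoped ComplexConjugate
open Crest.GeometryTopology.MCF

noncomputable section

namespace Crest.Agent.N250.R0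

open WS B1 Em

namespace LEnd

variable {S : Mv} (T : St S) (j : Fin T.p)

theorem zn : EC.Zn T.G (T.e.Q j) (Ioo (T.R + 1 / 40) (T.R + 1)) (T.Kκ j) :=
  EC.zn_Kc (T.eR_lt (by norm_num)) isOpen_Ioo fun _ h => ⟨by linarith [h.1], by linarith [h.2]⟩

/-- the lift of a radial variation -/
def lf (g : ℝ × ℝ → ℂ) : T.G.SmC :=
  EC.lift T.G (T.e.Q j) (T.G.oR (T.κ j)) fun q => g q * T.nu j q

/-- the source of a radial variation -/
def Ts (g : ℝ × ℝ → ℂ) : T.G.SmC :=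
  T.G.oR T.G.ρ * (T.G.SC.LL (T.G.oR T.χ * lf T j g) - T.G.oR T.χ' * T.G.SC.LL (lf T j g))

theorem op_lf {I : Set ℝ} (Z : EC.Zn T.G (T.e.Q j) I (T.Kκ j)) (hI : I ⊆ Ioi T.e.R) :
    EC.Op T.G (T.e.Q j) I (T.Kκ j) 0 (lf T j) :=
  (EC.Op.lift ((T.sp_κ j).lift (T.nu j))).congr fun g hg => by
    rw [Z.lift_lift (T.sp_κ j) (T.ok_nu hI) hg, lf]
    simp only [mul_comm]

theorem op_Ts {I : Set ℝ} (Z : EC.Zn T.G (T.e.Q j) I (T.Kκ j)) (hI : I ⊆ Ioi T.e.R) :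
    EC.Op T.G (T.e.Q j) I (T.Kκ j) 2 (Ts T j) :=
  ((((op_lf T j Z hI).mul Z _).LL Z).sub Z (((op_lf T j Z hI).LL Z).mul Z _)).mul Z _



theorem vS_re (q : ℝ × ℝ) : T.vS j q = ((T.e.r j q ^ 2 / 2 : ℝ) : ℂ) := by simp [St.vS, St.rS]

variable {T}

/-- the source is a reading -/
theorem ra (h : T.Good) : Sg fun σ : Scale T.G => ∀ j, ∃ M A,
    RA T.U T.R T.k.K1 T.k.ε (T.R + 1 / 40) (T.R + 1) (T.rS j) (Ts T j) σ M A := by
  obtain ⟨c, CD, C, F⟩ := h.fm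
  have := T.eR_lt_R
  exact (eventually_all.2 fun j => F.ra (by linarith) (by linarith) le_rfl
    (rf_of (T.ok_rS (j := j) subset_rfl) isOpen_Ioi fun x hx => by
      change _ < x; linarith [hx.1]) (zn T j)
    (op_Ts T j (zn T j) fun x hx => by change _ < x; linarith [hx.1]) (T.compact_Kκ j)).mono
    fun _ h σ e j => h j σ e

theorem strip (h : T.Good) {t : ℝ} (ht : 0 < t) : ∀ᶠ X : ℝ in atTop,
    ((X : ℂ), 0, wd (T.b0 j) 0) ∈ T.Dm ∧ ∀ y : ℝ × ℝ, y.1 ∈ Icc T.R (T.R + 1) →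
      ‖T.vU ((X : ℂ), 0, wd (T.b0 j) 0) y - T.vS j y‖ ≤ t := by
  obtain ⟨δ, hδ, h⟩ := h.idn j t ht
  filter_upwards [h] with X h
  obtain ⟨h1, h2⟩ := h 0 0 (by simpa using hδ.le) (by simpa using hδ.le)
  refine ⟨h1, fun y hy => ?_⟩
  have := h2 (tS T.R y.1) y.2 0
  rw [xr_tS X hy] at this
  rw [vS_re]
  exact this

theorem isCj (σ : Scale T.G) : IsCj (CjE.cW1 T σ) :=
  ⟨fun _ _ => Prod.ext (map_add _ _ _) (funext fun _ => map_add _ _ _),
    fun _ _ => Prod.ext (σ.cj_smul _ _) (funext fun _ => map_mul _ _ _),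
    fun u => max_le_max (σ.norm_cj _).le ((pi_norm_le_iff_of_nonneg (norm_nonneg _)).2 fun _ =>
      (Complex.norm_conj _).le.trans (norm_le_pi_norm u.2 _))⟩

variable {j} {σ : Scale T.G} {M A : ℝ}

theorem rd (h : T.Good)
    (H : RA T.U T.R T.k.K1 T.k.ε (T.R + 1 / 40) (T.R + 1) (T.rS j) (Ts T j) σ M A) :
    RD T.U T.R T.k.K1 T.k.ε fun z => T.eV σ j (T.vU z) := by
  obtain ⟨c, CD, C, F⟩ := h.fm
  exact RD.prod ⟨M, A, H.rdg⟩ (RD.pi fun i => F.rd_fc ⟨le_rfl, by linarith⟩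
    (T.pd_vS T.eR_lt_R).cd.continuous _)

theorem lim (h : T.Good)
    (H : RA T.U T.R T.k.K1 T.k.ε (T.R + 1 / 40) (T.R + 1) (T.rS j) (Ts T j) σ M A) :
    Tendsto (fun X : ℝ => T.eV σ j (T.vU ((X : ℂ), 0, wd (T.b0 j) 0))) atTop (𝓝 0) := by
  obtain ⟨c, CD, C, F⟩ := h.fm
  have t1 : Tendsto (fun t : ℝ => max (A * (2 * t) ^ (65 / 66 : ℝ)) t) (𝓝[>] 0) (𝓝 0) := by
    have : Continuous fun t : ℝ => max (A * (2 * t) ^ (65 / 66 : ℝ)) t :=
      (continuous_const.mul ((Real.continuous_rpow_const (by norm_num)).comp (by fun_prop))).max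
        continuous_id
    simpa using (this.tendsto 0).mono_left nhdsWithin_le_nhds
  refine Metric.tendsto_nhds.2 fun s hs => ?_
  obtain ⟨t, h1, ht⟩ := ((t1.eventually (gt_mem_nhds hs)).and self_mem_nhdsWithin).exists
  have ht : 0 < t := ht
  filter_upwards [strip j h ht] with X ⟨hz, hX⟩
  rw [dist_zero_right]
  refine lt_of_le_of_lt (max_le_max (H.small _ hz _ (by positivity) fun y hy => ?_)
    ((pi_norm_le_iff_of_nonneg ht.le).2 fun i => Ra.fc_norm_le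
      (fun θ => hX (T.R, θ) ⟨le_rfl, by linarith⟩) _)) h1
  have hy' : y.1 ∈ Icc T.R (T.R + 1) := ⟨by linarith [hy.1], hy.2.le⟩
  have r1 := T.r_gt (j := j) (T.eR_lt_R.trans_le hy'.1)
  have e : T.rS j y = sq2 (T.vS j y) := by
    rw [vS_re, sq2_ofReal (by linarith)]; rfl
  rw [prof, e]
  refine (sq2_lip (le_trans (by norm_num) (F.re_vS hz hy')) ?_).trans (by gcongr; exact hX y hy')
  rw [vS_re, Complex.ofReal_re]
  nlinarith

end LEnd

/-- **the end maps** -/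
theorem endL : EndL := fun S T h => (LEnd.ra h).mono fun σ H => by
  obtain ⟨c, CD, C, F⟩ := h.fm
  choose M A H using H
  have hR := fun j => LEnd.rd h (H j)
  obtain ⟨x0, x1, x2, A', rb, L⟩ := F.exists_lm hR h.hb0
  have hc := fun j z hz => CjE.eV_vU_cj (T := T) (z := z) F.sz σ j hz
  have := F.c_pos
  have := F.CD_pos
  have := L.A_nonneg
  exact ⟨EnO x0 x1 x2, rb, 2 * A' * (CD / c ^ 6), L.rb_pos, by positivity, L.hol,
    L.zero fun j => LEnd.lim h (H j), L.cj F hR (CjE.b0_cj T) hc (LEnd.isCj σ),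
    fun j => ⟨c, A', x0 j, x1 j, x2 j, L.exp j, fun _ _ => rfl⟩,
    (L.ef F hR (CjE.b0_cj T) hc).mono fun N ⟨X0, C', k, e⟩ => ⟨X0, _, C', k, e⟩⟩

end Crest.Agent.N250.R0

end
end

-- ▼ part N250/Jc/Lin
section

/-!
# Row 250 (helper29): jets in the Wiener algebra as functions; regularity for the linearised equation
-/

set_option autoImplicit false
open Set Filter Topology Complex
open scoped ContDiff

noncomputable section

namespace Crest.Agent.N250.Jc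

open B1 Sm Po Lp

variable {ℓ : Ell} {R : ℝ} {X : ℂ} {τ : ℝ → II} {S : Set ℝ} {D : Jt ℓ} {y : ℝ × ℝ}

/-- the value at a point -/
def valL (ℓ : Ell) (s : II) (θ : ℝ) : Wi (om ℓ) →L[ℂ] ℂ :=
  (ContinuousMap.evalCLM ℂ s).comp (Wi.ev (om ℓ) θ).toContinuousLinearMap

@[simp] theorem valL_apply (s : II) (θ : ℝ) (u : Wi (om ℓ)) : valL ℓ s θ u = val u s θ := rfl

theorem norm_val_le (u : Wi (om ℓ)) (s : II) (θ : ℝ) : ‖val u s θ‖ ≤ ‖u‖ :=
  ((Wi.syn u θ).norm_coe_le_norm s).trans (Wi.norm_syn_le u θ)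

/-- the order of the components in `Lp.jet` -/
def pm : Fin 6 → Fin 6 := ![0, 1, 3, 2, 4, 5]

/-- the 2-jet at a point -/
def evJ (ℓ : Ell) (s : II) (θ : ℝ) : Jt ℓ →L[ℂ] (Fin 6 → ℂ) :=
  ContinuousLinearMap.pi fun i => (valL ℓ s θ).comp (ContinuousLinearMap.proj (pm i))

theorem evJ_apply (s : II) (θ : ℝ) (D : Jt ℓ) (i : Fin 6) : evJ ℓ s θ D i = val (D (pm i)) s θ := rfl

/-- the components as functions of `(x, θ)` -/
def fk (τ : ℝ → II) (D : Jt ℓ) (k : Fin 6) (y : ℝ × ℝ) : ℂ := val (D k) (τ y.1) y.2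

theorem fk_eq (k : Fin 6) : fk τ D k = Sy 0 (md τ (D k)) := funext fun y => val_eq _ _ y


theorem fk0 : fk τ D 0 = fun y => vk R X 0 D τ 0 y - 1 := by
  funext y; simp [fk, vk, vj, et]

theorem fk_c2 (h : IsJet (dgam R X) D) (hr : Rd R X τ S) (hS : UniqueDiffOn ℝ S) :
    ContDiffOn ℝ 2 (fk τ D 0) (S ×ˢ univ) := by
  rw [fk0 (R := R) (X := X)]; exact (h.c2 hr hS).sub contDiffOn_const

theorem jet_fk (h : IsJet (dgam R X) D) (hr : Rd R X τ S) (hy : S ∈ 𝓝 y.1) :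
    jet (fk τ D 0) y = evJ ℓ (τ y.1) y.2 D := by
  have e1 : d1 (fk τ D 0) = d1 fun w => ContinuousLinearMap.id ℝ ℂ (vk R X 0 D τ 0 w) := by
    funext q; rw [fk0 (R := R) (X := X), d1, fderiv_sub_const]; rfl
  have e2 : d2 (fk τ D 0) = d2 fun w => ContinuousLinearMap.id ℝ ℂ (vk R X 0 D τ 0 w) := by
    funext q; rw [fk0 (R := R) (X := X), d2, fderiv_sub_const]; rfl
  funext i
  induction i using fin6
  · rfl
  · rw [jet1, e1, h.d1_0 hr hy]; simp [vk, vj, evJ_apply, pm]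
  · rw [jet2, e2, h.d2_0 hr hy]; simp [vk, vj, evJ_apply, pm]
  · rw [jet3, e1, h.d11 hr hy]; simp [vk, vj, evJ_apply, pm]
  · rw [jet4, e2, h.d12 hr hy]; simp [vk, vj, evJ_apply, pm]
  · rw [jet5, e2, h.d22 hr hy]; simp [vk, vj, evJ_apply, pm]

/-! ### jets form a closed subspace -/

theorem isClosed_jet (c : CI) : IsClosed {J : Jt ℓ | IsJet c J} := by
  have hc : ∀ (i : Fin 6) (m : ℤ), Continuous fun J : Jt ℓ => Wi.co (J i) m := fun i m =>
    (Wi.coL (om ℓ) m).continuous.comp (continuous_apply i)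
  have hd : ∀ (i j : Fin 6) (m : ℤ), IsClosed {J : Jt ℓ | B1.Der (Wi.co (J i) m) (c * Wi.co (J j) m)} :=
    fun i j m => isClosed_eq (hc i m) ((cst.continuous.comp
      ((ContinuousMap.evalCLM ℂ i0).continuous.comp (hc i m))).add
        (pr.continuous.comp (continuous_const.mul (hc j m))))
  have ht : ∀ (i j : Fin 6) (m : ℤ) (t : ℂ), IsClosed {J : Jt ℓ | Wi.co (J i) m = t • Wi.co (J j) m} :=
    fun i j m t => isClosed_eq (hc i m) ((hc j m).const_smul t)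
  have e : {J : Jt ℓ | IsJet c J} = ⋂ m : ℤ, ({J : Jt ℓ | B1.Der (Wi.co (J 0) m) (c * Wi.co (J 1) m)} ∩
      {J | B1.Der (Wi.co (J 1) m) (c * Wi.co (J 2) m)} ∩
      {J | Wi.co (J 3) m = (m * I : ℂ) • Wi.co (J 0) m} ∩
      {J | Wi.co (J 4) m = (m * I : ℂ) • Wi.co (J 1) m} ∩
      {J | Wi.co (J 5) m = (-(m : ℂ) ^ 2) • Wi.co (J 0) m}) := by
    ext J
    simp only [mem_ofPred, mem_iInter, mem_inter_iff]
    exact ⟨fun h m => ⟨⟨⟨⟨h.d0 m, h.d1 m⟩, h.t0 m⟩, h.t1 m⟩, h.t2 m⟩, fun h =>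
      ⟨fun m => (h m).1.1.1.1, fun m => (h m).1.1.1.2, fun m => (h m).1.1.2, fun m => (h m).1.2,
        fun m => (h m).2⟩⟩
  rw [e]
  exact isClosed_iInter fun m =>
    ((((hd 0 1 m).inter (hd 1 2 m)).inter (ht 3 0 m _)).inter (ht 4 1 m _)).inter (ht 5 0 m _)

theorem isJet_lim {c : CI} {ι : Type*} {l : Filter ι} [l.NeBot] {J : ι → Jt ℓ}
    (h : ∀ᶠ i in l, IsJet c (J i)) (ht : Tendsto J l (𝓝 D)) : IsJet c D :=
  (isClosed_jet c).mem_of_tendsto ht h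

theorem isJet_deriv {c : CI} {J : ℂ → Jt ℓ} {t : ℂ} (h : ∀ᶠ u in 𝓝 t, IsJet c (J u))
    (hd : HasDerivAt J D t) : IsJet c D := by
  refine isJet_lim (l := 𝓝[≠] t) ?_ (hasDerivAt_iff_tendsto_slope.1 hd)
  filter_upwards [mem_nhdsWithin_of_mem_nhds h] with u hu
  rw [slope_def_module, sub_eq_add_neg (J u), ← neg_one_smul ℂ (J t)]
  exact (hu.add (h.self_of_nhds.smul _)).smul _

/-! ### bootstrap with smooth coefficients -/

section boot

variable {I : Set ℝ}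

/-- the class contains the smooth functions -/
def Has (C : Sm.Cl (univ : Set Unit) (I ×ˢ (univ : Set ℝ))) : Prop :=
  ∀ f : ℝ × ℝ → ℂ, ContDiffOn ℝ ∞ f (I ×ˢ univ) → C.S fun _ => f

theorem has_cc : Has (cc univ (I ×ˢ (univ : Set ℝ))) := fun _ hf _ _ => hf.continuousOn

theorem smo_dr (hI : IsOpen I) {f : ℝ × ℝ → ℂ} (hf : ContDiffOn ℝ ∞ f (I ×ˢ univ)) :
    ContDiffOn ℝ ∞ (d1 f) (I ×ˢ univ) ∧ ContDiffOn ℝ ∞ (d2 f) (I ×ˢ univ) ∧
      Dr (univ : Set Unit) (I ×ˢ univ) (fun _ => f) (fun _ => d1 f) fun _ => d2 f := by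
  have ho : IsOpen (I ×ˢ (univ : Set ℝ)) := hI.prod isOpen_univ
  have h1 : ContDiffOn ℝ ∞ (fderiv ℝ f) (I ×ˢ univ) := hf.fderiv_of_isOpen ho (by simp)
  refine ⟨h1.clm_apply contDiffOn_const, h1.clm_apply contDiffOn_const, fun _ _ y hy => ?_⟩
  refine ((hf.contDiffAt (ho.mem_nhds hy)).differentiableAt
    (by simp)).hasFDerivAt.hasFDerivWithinAt.congr_fderiv (ContinuousLinearMap.ext fun v => ?_)
  have : v = v.1 • ((1, 0) : ℝ × ℝ) + v.2 • ((0, 1) : ℝ × ℝ) := by ext <;> simp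
  conv_lhs => rw [this, map_add, map_smul, map_smul]
  simp [d1, d2]

theorem Has.up (hI : IsOpen I) {C : Sm.Cl (univ : Set Unit) (I ×ˢ (univ : Set ℝ))} (h : Has C) :
    ∀ n, Has (C.up n)
  | 0 => h
  | n + 1 => fun f hf => ⟨Has.up hI h n f hf, _, _, Has.up hI h n _ (smo_dr hI hf).1,
      Has.up hI h n _ (smo_dr hI hf).2.1, (smo_dr hI hf).2.2⟩

theorem Has.th (hI : IsOpen I) {C : Sm.Cl (univ : Set Unit) (I ×ˢ (univ : Set ℝ))} (h : Has C) :
    ∀ n, Has (C.it (derT univ I) n)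
  | 0 => h
  | n + 1 => fun f hf => ⟨Has.th hI h n f hf, _, _, Has.th hI h n _ (smo_dr hI hf).1,
      Has.th hI h n _ (smo_dr hI hf).2.1, (smo_dr hI hf).2.2.dt⟩

theorem boot' (hI : IsOpen I) (C : Sm.Cl (univ : Set Unit) (I ×ˢ (univ : Set ℝ))) (hC : Has C) (K : ℕ)
    {W Pp Q : ℕ → Fn Unit} (hW : ∀ i ≤ K + 2, C.S (W i)) (hP : ∀ i ≤ K + 1, C.S (Pp i))
    (dW : ∀ i ≤ K + 1, Dr univ (I ×ˢ univ) (W i) (Pp i) (W (i + 1)))
    (dP : ∀ i ≤ K, Dr univ (I ×ˢ univ) (Pp i) (Q i) (Pp (i + 1)))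
    (dQ : ∀ i < K, Dt univ (I ×ˢ univ) (Q i) (Q (i + 1)))
    (eq : ∀ C', Has (I := I) C' → C'.S (W 0) → C'.S (W 1) → C'.S (W 2) → C'.S (Pp 0) → C'.S (Pp 1) →
      C'.S (Q 0)) (n : ℕ) :
    (∀ i, i + n ≤ K + 2 → (C.up n).S (W i)) ∧ (∀ i, i + n ≤ K + 1 → (C.up n).S (Pp i)) ∧
      ∀ i, i + n ≤ K → (C.up n).S (Q i) := by
  have key : ∀ n, (∀ i, i + n ≤ K + 2 → (C.up n).S (W i)) →
      (∀ i, i + n ≤ K + 1 → (C.up n).S (Pp i)) → ∀ i, i + n ≤ K → (C.up n).S (Q i) := by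
    intro n h1 h2 i hi
    have a := th_mem (C := C.up n) (W := W) (N := i + 2) (fun l hl => h1 l (by omega))
      (fun l hl => (dW l (by omega)).dt) i
    have b := th_mem (C := C.up n) (W := Pp) (N := i + 1) (fun l hl => h2 l (by omega))
      (fun l hl => (dP l (by omega)).dt) i
    have := th_out (C := C.up n) (N := i) (fun l hl => dQ l (by omega)) i 0 (by omega)
      (eq _ ((hC.up hI n).th hI i) (a 0 (by omega)) (a 1 (by omega)) (a 2 (by omega))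
        (b 0 (by omega)) (b 1 (by omega)))
    simpa using this
  induction n with
  | zero =>
    exact ⟨fun i hi => hW i hi, fun i hi => hP i hi,
      key 0 (fun i hi => hW i hi) fun i hi => hP i hi⟩
  | succ n ih =>
    obtain ⟨h1, h2, h3⟩ := ih
    have a : ∀ i, i + (n + 1) ≤ K + 2 → (C.up (n + 1)).S (W i) := fun i hi =>
      Sm.Cl.up_succ (h1 i (by omega)) (h2 i (by omega)) (h1 (i + 1) (by omega)) (dW i (by omega))
    have b : ∀ i, i + (n + 1) ≤ K + 1 → (C.up (n + 1)).S (Pp i) := fun i hi =>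
      Sm.Cl.up_succ (h2 i (by omega)) (h3 i (by omega)) (h2 (i + 1) (by omega)) (dP i (by omega))
    exact ⟨a, b, key _ a b⟩

end boot

theorem lin_smooth (hS : IsOpen S) (hr : Rd R X τ S) (h : IsJet (dgam R X) D)
    (hg : ∀ n, ∃ B, ∀ x ∈ S, Gain (om ℓ) n B (τ x)) {c : Fin 6 → ℝ × ℝ → ℂ}
    (hc : ∀ i, ContDiffOn ℝ ∞ (c i) (S ×ˢ univ))
    (eq : ∀ y ∈ S ×ˢ (univ : Set ℝ), fk τ D 2 y = c 0 y * fk τ D 0 y + c 1 y * fk τ D 1 y +
      c 2 y * fk τ D 3 y + c 4 y * fk τ D 4 y + c 5 y * fk τ D 5 y) :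
    ContDiffOn ℝ ∞ (fk τ D 0) (S ×ˢ univ) := by
  refine contDiffOn_infty.2 fun n => ?_
  obtain ⟨B, hB⟩ := hg n
  have hm : ∀ k, Sm.Md S n (md τ (D k)) := fun k => md_Md hr.cont hB _
  have key := boot' hS _ has_cc n (W := fun i _ => Sy i (md τ (D 0)))
    (Pp := fun i _ => Sy i (md τ (D 1))) (Q := fun i _ => Sy i (md τ (D 2)))
    (fun i hi _ _ => (h.md0 hm).cSy hi) (fun i hi _ _ => (h.md1 hm).cSy hi)
    (fun i hi _ _ y hy => h.dW hr hm hi hy) (fun i hi _ _ y hy => h.dP hr hm hi hy)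
    (fun i hi _ _ y hy => (hm 2).dt hi hy.1) (fun C' hE w0 w1 w2 p0 p1 => ?_) n
  · rw [fk_eq]
    exact Sm.Cl.up_contDiffOn (hS.prod isOpen_univ).uniqueDiffOn (key.1 0 (by omega)) () trivial
  · refine C'.congr (C'.add (C'.add (C'.add (C'.add (C'.mul (hE _ (hc 0)) w0)
      (C'.mul (hE _ (hc 1)) p0)) (C'.mul (hE _ (hc 2)) w1)) (C'.mul (hE _ (hc 4)) p1))
      (C'.mul (hE _ (hc 5)) w2)) fun _ _ y hy => ?_
    have := eq y hy
    simp only [fk_eq, h.sy3, h.sy4, h.sy5] at this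
    exact this

/-! ### the coefficients of the linearised equation -/

/-- non degenerate jets -/
def Nd (j : Fin 6 → ℂ) : Prop := j 0 ≠ 0 ∧ QQj j ≠ 0 ∧ 4 * j 0 ^ 2 + j 2 ^ 2 ≠ 0

theorem cd_ELj {p : ℂ × (Fin 6 → ℂ)} (h0 : p.2 0 ≠ 0) (hQ : QQj p.2 ≠ 0) (n : WithTop ℕ∞) :
    ContDiffAt ℂ n (fun p : ℂ × (Fin 6 → ℂ) => ELj p.1 p.2) p := by
  have h1 : (2 : ℂ) * p.2 0 ≠ 0 := mul_ne_zero two_ne_zero h0
  have h2 : (2 : ℂ) * p.2 0 ^ 2 ≠ 0 := mul_ne_zero two_ne_zero (pow_ne_zero _ h0)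
  have h3 : (4 : ℂ) * p.2 0 ^ 2 ≠ 0 := mul_ne_zero (by norm_num) (pow_ne_zero _ h0)
  have h4 : (2 : ℂ) * (2 * p.2 0 + p.2 1 ^ 2 + p.2 2 ^ 2 / (2 * p.2 0)) ≠ 0 := mul_ne_zero two_ne_zero hQ
  unfold ELj EL QQ
  fun_prop (disch := assumption)

theorem cd_ELj' (x : ℂ) {j : Fin 6 → ℂ} (h : Nd j) : ContDiffAt ℂ 1 (ELj x) j :=
  (cd_ELj (p := (x, j)) h.1 h.2.1 1).comp j (contDiffAt_const.prodMk contDiffAt_id)

theorem cd_fderiv {p : ℂ × (Fin 6 → ℂ)} (h : Nd p.2) (v : Fin 6 → ℂ) :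
    ContDiffAt ℂ ∞ (fun p : ℂ × (Fin 6 → ℂ) => fderiv ℂ (ELj p.1) p.2 v) p := by
  have h1 : ContDiffAt ℂ ∞ (Function.uncurry fun (p : ℂ × (Fin 6 → ℂ)) j => ELj p.1 j) (p, p.2) :=
    (cd_ELj (p := (p.1, p.2)) h.1 h.2.1 ∞).comp (p, p.2)
      (f := fun q : (ℂ × (Fin 6 → ℂ)) × (Fin 6 → ℂ) => (q.1.1, q.2)) (by fun_prop)
  exact (h1.fderiv (m := ∞) contDiffAt_snd (by simp)).clm_apply contDiffAt_const

theorem lead_ne (x : ℂ) {j : Fin 6 → ℂ} (h : Nd j) : fderiv ℂ (ELj x) j (Pi.single 3 1) ≠ 0 := by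
  have h1 : HasDerivAt (fun t : ℂ => j + t • (Pi.single 3 1 : Fin 6 → ℂ)) (Pi.single 3 1) 0 := by
    simpa using ((hasDerivAt_id (0 : ℂ)).smul_const (Pi.single 3 1 : Fin 6 → ℂ)).const_add j
  have h2 := (diff_ELj x h.1 h.2.1).hasFDerivAt.comp_hasDerivAt_of_eq 0 h1 (by simp)
  have h0 := h.1
  have hQ : QQ (j 0) (j 1) (j 2) ≠ 0 := h.2.1
  have e : (ELj x ∘ fun t : ℂ => j + t • (Pi.single 3 1 : Fin 6 → ℂ)) =
      fun t => ELj x j + t * (1 - j 1 ^ 2 / QQ (j 0) (j 1) (j 2)) := by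
    funext t
    simp only [Function.comp, ELj, EL, Pi.add_apply, Pi.smul_apply, Pi.single_apply]
    simp
    field_simp
    ring
  rw [e] at h2
  have h3 := h2.unique (((hasDerivAt_id (0 : ℂ)).mul_const _).const_add _)
  rw [h3, one_mul, one_sub_div hQ]
  refine div_ne_zero (fun k => h.2.2 ?_) hQ
  rw [QQ] at k
  field_simp at k
  linear_combination k

theorem cd_jet {V : ℝ × ℝ → ℂ} (hS : IsOpen S) (hV : ContDiffOn ℝ ∞ V (S ×ˢ univ)) :
    ContDiffOn ℝ ∞ (jet V) (S ×ˢ univ) := by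
  obtain ⟨h1, h2, -⟩ := smo_dr hS hV
  refine contDiffOn_pi.2 fun i => ?_
  induction i using fin6
  exacts [hV, h1, h2, (smo_dr hS h1).1, (smo_dr hS h2).1, (smo_dr hS h2).2.1]

/-- **a jet that solves the linearised equation is smooth** -/
theorem lin_reg (hS : IsOpen S) (hr : Rd R X τ S) (h : IsJet (dgam R X) D)
    (hg : ∀ n, ∃ B, ∀ x ∈ S, Gain (om ℓ) n B (τ x)) {V : ℝ × ℝ → ℂ}
    (hV : ContDiffOn ℝ ∞ V (S ×ˢ univ)) (hn : ∀ y ∈ S ×ˢ (univ : Set ℝ), Nd (jet V y))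
    (eq : ∀ y ∈ S ×ˢ (univ : Set ℝ), linEL V (fk τ D 0) y = 0) :
    ContDiffOn ℝ ∞ (fk τ D 0) (S ×ˢ univ) := by
  set k : Fin 6 → ℝ × ℝ → ℂ := fun i y => fderiv ℂ (ELj y.1) (jet V y) (Pi.single i 1) with hk
  have ck : ∀ i, ContDiffOn ℝ ∞ (k i) (S ×ˢ univ) := fun i y hy =>
    ((cd_fderiv (p := ((y.1 : ℂ), jet V y)) (hn y hy) (Pi.single i 1)).restrict_scalars
      ℝ).comp_contDiffWithinAt (f := fun y : ℝ × ℝ => ((y.1 : ℂ), jet V y)) y
        ((ofRealCLM.contDiff.comp contDiff_fst).contDiffWithinAt.prodMk (cd_jet hS hV y hy))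
  have k3 : ∀ y ∈ S ×ˢ (univ : Set ℝ), k 3 y ≠ 0 := fun y hy => lead_ne _ (hn y hy)
  refine lin_smooth hS hr h hg (c := fun i y => -k i y * (k 3 y)⁻¹)
    (fun i => (ck i).neg.mul ((ck 3).inv k3)) fun y hy => ?_
  have e := eq y hy
  rw [linEL, jet_fk h hr (hS.mem_nhds hy.1), pi_eq_sum_univ' (evJ ℓ (τ y.1) y.2 D), map_sum,
    Fin.sum_univ_six] at e
  simp only [map_smul, smul_eq_mul] at e
  change fk τ D 0 y * k 0 y + fk τ D 1 y * k 1 y + fk τ D 3 y * k 2 y + fk τ D 2 y * k 3 y +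
    fk τ D 4 y * k 4 y + fk τ D 5 y * k 5 y = 0 at e
  have := k3 y hy
  field_simp
  linear_combination e

end Crest.Agent.N250.Jc

end
end

-- ▼ part N250/Jc/Jet
section

/-!
# Row 250 (helper29): the end family restricted to a fixed cut `T`, in the space of jets
-/

set_option autoImplicit false
open Set Filter Topology Metric Complex

noncomputable section

namespace Crest.Agent.N250.Jc

open B1 Em
open Gi (hat)

variable {ℓ : Ell} {R T X X' : ℝ}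

/-- half of the symbol -/
def hf (ℓ : Ell) : Ell where
  l m := ℓ.l m / 2
  zero := by simp [ℓ.zero]
  nonneg m := by have := ℓ.nonneg m; positivity
  sub j k := by linarith [ℓ.sub j k]
  neg m := by rw [ℓ.neg]

theorem hf_le (ℓ : Ell) : S9.Le (hf ℓ) ℓ := fun m => half_le_self (ℓ.nonneg m)

open Classical in
/-- restriction from the cut `X` to the cut `T` -/
def rs (ℓ : Ell) (R T X : ℝ) : Jt ℓ →L[ℂ] Jt (hf ℓ) :=
  if h : Cut2 R T X then ContinuousLinearMap.pi fun i =>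
    ((S9.cW (hf_le ℓ)).toContinuousLinearMap.comp (h.resL ℓ)).comp (ContinuousLinearMap.proj i)
  else 0

theorem rs_eq (h : Cut2 R T X) (J : Jt ℓ) :
    rs ℓ R T X J = S9.cJ (hf_le ℓ) fun i => h.resW (J i) := by
  rw [rs, dif_pos h]; rfl

theorem co_rs (h : Cut2 R T X) (J : Jt ℓ) (i : Fin 6) (m : ℤ) (s : II) :
    Wi.co (rs ℓ R T X J i) m s = Wi.co (J i) m (h.phi s) := by
  rw [rs_eq h, S9.co_cJ, h.co_resW_apply]

theorem isJet_rs (h : Cut2 R T X) {J : Jt ℓ} (hJ : IsJet (dgam R X) J) :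
    IsJet (dgam R T) (rs ℓ R T X J) := by
  have k := h.isJet hJ
  rw [rs_eq h]
  exact ⟨fun m => by simpa using k.d0 m, fun m => by simpa using k.d1 m,
    fun m => by simpa using k.t0 m, fun m => by simpa using k.t1 m, fun m => by simpa using k.t2 m⟩

theorem norm_rs (h : Cut2 R T X) (J : Jt ℓ) : ‖rs ℓ R T X J‖ ≤ ‖J‖ := by
  rw [rs_eq h]
  refine (pi_norm_le_iff_of_nonneg (norm_nonneg _)).2 fun i => ?_
  exact ((Nl.norm_tr_le (S9.om_bd (hf_le ℓ)) _).trans_eq (one_mul _)).trans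
    ((h.norm_resW _).trans (norm_le_pi_norm J i))

theorem phi_tX (h : Cut2 R T X) {x : ℝ} (hx : x ∈ Icc R T) : h.phi (tX R T x) = tX R X x := by
  rw [← tX_xr h.lo' (h.phi _), h.xr_phi, xr_tX h.lo hx]

theorem val_rs (h : Cut2 R T X) (J : Jt ℓ) (i : Fin 6) {x : ℝ} (hx : x ∈ Icc R T) (θ : ℝ) :
    val (rs ℓ R T X J i) (tX R T x) θ = val (J i) (tX R X x) θ := by
  rw [rs_eq h, S9.val_cJ, h.val_resW, phi_tX h hx]

theorem rs_sub_le (hR : 1 ≤ R) (h : Cut2 R T X) (hX : X ≤ X') {J J' : Jt ℓ} {N : ℝ} (hN : 0 ≤ N)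
    (k : Xc R X X' J' J N) : ‖rs ℓ R T X' J' - rs ℓ R T X J‖ ≤ N * T ^ 3 := by
  have h' : Cut2 R T X' := ⟨h.lo, h.le.trans hX⟩
  have hT : 1 ≤ T := by linarith [h.lo]
  refine (pi_norm_le_iff_of_nonneg (by positivity)).2 fun i => ?_
  obtain ⟨β, hs, hb, hm⟩ := k i
  refine (Wi.norm_le_of (hs.hasSum.mul_right (T ^ 3)) fun m => ?_).trans (by gcongr)
  have key : ∀ s : II, 0 ≤ β m ∧
      ‖((om (hf ℓ)).w m * Wi.co ((rs ℓ R T X' J' - rs ℓ R T X J) i) m) s‖ ≤ β m * T ^ 3 := fun s => by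
    have hx := xr_mem' h.lo s
    have h1 := hm m _ (h.mem s)
    have h2 : 1 ≤ xr R T s := hR.trans hx.1
    have h3 : xr R T s ^ (7 / 8 : ℝ) * xr R T s ^ (![0, 1, 2, 0, 1, 0] i : ℕ) ≤ T ^ 3 := by
      have a1 : xr R T s ^ (7 / 8 : ℝ) ≤ T :=
        (Real.rpow_le_self_of_one_le h2 (by norm_num)).trans hx.2
      have a2 : xr R T s ^ (![0, 1, 2, 0, 1, 0] i : ℕ) ≤ T ^ 2 :=
        (pow_le_pow_right₀ h2 (by fin_cases i <;> simp)).trans (pow_le_pow_left₀ (by linarith) hx.2 2)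
      calc _ ≤ T * T ^ 2 := mul_le_mul a1 a2 (by positivity) (by linarith)
        _ = T ^ 3 := by ring
    have h0 : 0 ≤ β m := nonneg_of_mul_nonneg_left (le_trans (by positivity) h1) (by positivity)
    refine ⟨h0, le_trans (le_of_eq ?_) (h1.trans (mul_le_mul_of_nonneg_left h3 h0))⟩
    rw [ContinuousMap.mul_apply, norm_mul, Pi.sub_apply, Wi.co_sub, ContinuousMap.sub_apply,
      co_rs h', co_rs h, Res.om_w, Res.eW_apply, norm_real, Real.norm_of_nonneg (Real.exp_pos _).le,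
      sig_xr' h.lo, h.comp_apply, h'.comp_apply, mul_div_assoc]
    rfl
  exact (ContinuousMap.norm_le _ (mul_nonneg (key i0).1 (by positivity))).2 fun s => (key s).2

/-- the jet of the constant `1` -/
def oneJ (ℓ : Ell) : Jt ℓ := ![1, 0, 0, 0, 0, 0]

theorem vJ_eq (R : ℝ) (X a : ℂ) (J : Jt ℓ) : vJ R X a J = J + a • qj ℓ R X + oneJ ℓ := by
  rw [vJ, add_assoc]
  congr 1
  funext i
  have e : (2 : CI) = cst 2 := by ext s; rw [cst_apply]; rfl
  fin_cases i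
  · change Wi.cst _ _ = a • Wi.cst _ (quad R X) + 1
    rw [← map_smul, ← map_one (Wi.cst (om ℓ)), ← map_add, add_comm, quad, smul_smul, e, sq]
    congr 3; ring
  · change Wi.cst _ _ = a • Wi.cst _ (gam R X) + 0
    rw [add_zero, map_smul]
  · change Wi.cst _ _ = a • Wi.cst _ (1 : CI) + 0
    rw [add_zero, map_smul]
  all_goals simp [qj, oneJ]

theorem isJet_one (c : CI) : IsJet c (oneJ ℓ) where
  d0 m := by
    change B1.Der (Wi.co 1 m) (c * Wi.co 0 m)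
    rw [Wi.co_one, Wi.co_zero, mul_zero]
    split_ifs
    exacts [Res.der_one, Res.der_zero]
  d1 m := by
    change B1.Der (Wi.co 0 m) (c * Wi.co 0 m)
    rw [Wi.co_zero, mul_zero]; exact Res.der_zero
  t0 m := by
    change Wi.co 0 m = _ • Wi.co 1 m
    ext s
    by_cases hm : m = 0 <;> simp [Wi.co_one, hm]
  t1 m := by
    change Wi.co 0 m = _ • Wi.co 0 m
    simp
  t2 m := by
    change Wi.co 0 m = _ • Wi.co 1 m
    ext s
    by_cases hm : m = 0 <;> simp [Wi.co_one, hm]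

theorem isJet_vJ {X a : ℂ} {J : Jt ℓ} (h : IsJet (dgam R X) J) : IsJet (dgam R X) (vJ R X a J) := by
  rw [vJ_eq]; exact (h.add ((isJet_qj ℓ R X).smul a)).add (isJet_one _)

theorem norm_qj (hR : 2 ≤ R) (h : R + 2 ≤ X) : ‖qj ℓ R X‖ ≤ X ^ 2 := by
  have k : ∀ y : CI, (∀ s, ‖y s‖ ≤ X ^ 2) → ‖Wi.single (om ℓ) 0 y‖ ≤ X ^ 2 := fun y hy =>
    (Wi.norm_cst y).trans_le ((ContinuousMap.norm_le _ (by positivity)).2 hy)
  refine (pi_norm_le_iff_of_nonneg (by positivity)).2 fun i => ?_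
  fin_cases i
  · refine k _ fun s => ?_
    have := xr_mem' h s
    have e : quad R X s = ((((xr R X s) ^ 2 - 2) / 2 : ℝ) : ℂ) := by
      rw [quad_apply, gam_real]; push_cast; rfl
    rw [e, norm_real, Real.norm_of_nonneg (by nlinarith [this.1])]
    nlinarith [this.1, this.2]
  · refine k _ fun s => ?_
    have := xr_mem' h s
    rw [gam_real, norm_real, Real.norm_of_nonneg (by linarith [this.1])]
    nlinarith [this.2]
  · exact k _ fun s => by rw [ContinuousMap.one_apply, norm_one]; nlinarith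
  all_goals simpa [qj] using sq_nonneg X

theorem norm_oneJ : ‖oneJ ℓ‖ ≤ 1 := by
  refine (pi_norm_le_iff_of_nonneg zero_le_one).2 fun i => ?_
  fin_cases i <;> simp [oneJ]

variable (U : Par ℓ → Jt ℓ) (R) (b0 : Wi (omP 2))

/-- the working parameters without far slope -/
def zb (X : ℝ) (a : ℂ) (b : Wi (omP 2)) : Par ℓ := ((X : ℂ), a, wd (b0 + b) 0)

/-- the end function -/
def vv (X : ℝ) (a : ℂ) (b : Wi (omP 2)) : ℝ × ℝ → ℂ := vX R X a (U (zb b0 X a b))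

/-- its jet restricted to the cut `T` -/
def eT (T X : ℝ) (a : ℂ) (b : Wi (omP 2)) : Jt (hf ℓ) := rs ℓ R T X (vJ R X a (U (zb b0 X a b)))

variable {U R b0} {K ε ε1 C0 Ch c CD C c0 : ℝ} {a : ℂ} {b : Wi (omP 2)}

theorem fk_eT (h : Cut2 R T X) (k : Fin 6) {y : ℝ × ℝ} (hy : y.1 ∈ Icc R T) :
    fk (tX R T) (eT R U b0 T X a b) k y = vk R X a (U (zb b0 X a b)) (tX R X) k y := by
  rw [fk, eT, val_rs h _ _ hy, Ce.val_vJ]; rfl

/-- the easy regime -/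
structure Ez (R K c X : ℝ) (a : ℂ) : Prop where
  h1 : 2 * R + 4 < X
  h2 : 2 * √K < X
  ha : ‖a‖ ≤ 4 * c / X ^ 2

theorem ev_ez (R K : ℝ) : ∀ᶠ X : ℝ in atTop, 2 * R + 4 < X ∧ 2 * √K < X :=
  (eventually_gt_atTop _).and (eventually_gt_atTop _)

section fm

variable (F : Fm U R K ε ε1 C0 Ch c CD C c0)
include F

theorem Ez.pos (h : Ez R K c X a) : 8 < X := by linarith [h.h1, F.sz.hR]

theorem Ez.one (h : Ez R K c X a) : ‖a‖ ≤ 1 / X ^ 2 :=
  h.ha.trans (by gcongr; linarith [F.c_le])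

theorem Ez.adm (h : Ez R K c X a) : Adm K X a := by
  have := Real.sq_sqrt F.K_pos.le
  exact Xi.adm_small (by linarith [h.pos F]) (by nlinarith [Real.sqrt_nonneg K, h.h2]) (h.one F)

theorem Ez.dom (h : Ez R K c X a) (hb : b ∈ Ub R ε b0) :
    zb b0 X a b ∈ Dom (ℓ := ℓ) R K (13 / 8) (7 / 4) ε :=
  mem_dom h.h1 h.h2 (by linarith [h.pos F]) (h.adm F) hb
    (by simp only [norm_zero, mul_zero]; linarith [F.ε_pos])

theorem Ez.norm_U (h : Ez R K c X a) (hb : b ∈ Ub R ε b0) : ‖U (zb b0 X a b)‖ ≤ 6 * ε1 :=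
  S9.inB_norm ex_138 F.sz.hR (by linarith [F.sz.hK]) (h.dom F hb) (F.sl (h.dom F hb)).inb

theorem diff_eT {P : Type*} [NormedAddCommGroup P] [NormedSpace ℂ P] {V : Set P} {a : P → ℂ}
    {b : P → Wi (omP 2)} (h1 : DifferentiableOn ℂ a V) (h2 : DifferentiableOn ℂ b V)
    (hm : ∀ p ∈ V, Ez R K c X (a p) ∧ b p ∈ Ub R ε b0) :
    DifferentiableOn ℂ (fun p => eT R U b0 T X (a p) (b p)) V := by
  have h3 : DifferentiableOn ℂ (fun p => U (zb b0 X (a p) (b p))) V :=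
    F.isEnd.hol.comp (f := fun p => zb b0 X (a p) (b p)) ((differentiableOn_const _).prodMk
      (h1.prodMk (differentiable_wd.comp_differentiableOn (f := fun p => (b0 + b p, (0 : ℂ)))
        ((h2.const_add b0).prodMk (differentiableOn_const _))))) fun p hp =>
      (hm p hp).1.dom F (hm p hp).2
  simp only [eT, vJ_eq]
  exact (rs ℓ R T X).differentiable.comp_differentiableOn
    ((h3.add (h1.smul_const _)).add_const _)

theorem dr0 (hT : R + 2 ≤ T) : ∃ C' X1, El.Dr0 (eT R U b0 T) (Ub R ε b0) c (1 / 8) C' X1 := by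
  obtain ⟨X1, h1⟩ := eventually_atTop.1 ((ev_ez R K).and (eventually_ge_atTop T))
  have hc := F.c_pos
  have hc' := F.c_le
  have hCD := F.CD_pos
  have hC := F.C_pos
  have he := F.ε1_nonneg
  have hR := F.sz.hR
  have hT0 : 0 < T := by linarith
  have ez : ∀ X, X1 ≤ X → ∀ a : ℂ, ‖a‖ ≤ 4 * c / X ^ 2 → Ez R K c X a := fun X hX a ha =>
    ⟨(h1 X hX).1.1, (h1 X hX).1.2, ha⟩
  refine ⟨6 * ε1 + 2 + 3 * CD + C * T ^ 3, X1, isOpen_Ub _ _ _, hc, hc', by norm_num, by norm_num,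
    fun X hX b hb => diff_eT F differentiableOn_id (differentiableOn_const _)
      fun a ha => ⟨ez X hX a (mem_ball_zero_iff.1 ha).le, hb⟩,
    fun X hX a ha => diff_eT F (differentiableOn_const _) differentiableOn_id
      fun b hb => ⟨ez X hX a (mem_ball_zero_iff.1 ha).le, hb⟩,
    fun X hX a ha b hb => ?_, fun X X' hX hXX _ a ha ha' b hb => ?_⟩
  · have h := ez X hX a (mem_ball_zero_iff.1 ha).le
    have k : Cut2 R T X := ⟨hT, (h1 X hX).2⟩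
    refine (norm_rs k _).trans ?_
    rw [vJ_eq]
    have h2 : ‖a • qj ℓ R X‖ ≤ 1 := by
      have := h.one F
      rw [le_div_iff₀ (by have := h.pos F; positivity)] at this
      rw [norm_smul]
      exact (mul_le_mul_of_nonneg_left (norm_qj hR k.lo') (norm_nonneg _)).trans this
    have := norm_add₃_le (a := U (zb b0 X a b)) (b := a • qj ℓ R X) (c := oneJ ℓ)
    have := h.norm_U F hb
    have := norm_oneJ (ℓ := ℓ)
    have : 0 ≤ C * T ^ 3 := by positivity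
    linarith
  · have h' := ez X' (hX.trans hXX) a ha
    obtain ⟨⟨k1, k2⟩, k3⟩ := h1 X hX
    have hX0 : 0 < X := by linarith
    have hz' := h'.dom F hb
    have S' := F.sl hz'
    obtain ⟨d1, d2⟩ := F.drift X X' a 0 (b0 + b) _ k1.le k2.le hXX (h'.adm F)
      (by rwa [le_div_iff₀ (by positivity)] at ha')
      (by rw [norm_zero]; have := F.Ch_nonneg; have := h'.pos F; positivity) S'.sol S'.inb
    have t1 := F.tau_sub hz' k1.le hXX
    change ‖tauX R X X' a (U (zb b0 X' a b)) - a‖ ≤ _ at t1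
    set τ := tauX R X X' a (U (zb b0 X' a b))
    have t2 : ‖τ‖ ≤ 2 * c / X ^ 2 := by
      have := norm_add_le (τ - a) a
      rw [sub_add_cancel] at this
      rw [mul_div_assoc]; linarith
    have h : Ez R K c X τ := ⟨k1, k2, t2.trans (by gcongr; norm_num)⟩
    have S := F.sl (h.dom F hb)
    have d3 := d2 0 _ (by rw [norm_zero]; have := F.Ch_nonneg; positivity) S.sol S.inb
    have d4 := rs_sub_le (by linarith) ⟨hT, k3⟩ hXX (by positivity) d3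
    have e : X ^ (-33 / 8 : ℝ) = X ^ (-(4 + 1 / 8) : ℝ) := by norm_num
    have hp : 0 < X ^ (-(4 + 1 / 8) : ℝ) := by positivity
    have h8 : 0 ≤ C * T ^ 3 := by positivity
    refine ⟨τ, t2, d1.trans ?_, d4.trans ?_⟩
    · have h5 := Xi.re_et (by linarith [h'.pos F]) (h'.one F)
      have h6 : 1 / X ^ 5 ≤ X ^ (-(4 + 1 / 8) : ℝ) := by
        have := Real.rpow_le_rpow_of_exponent_le (show 1 ≤ X by linarith)
          (show (-(5 : ℕ) : ℝ) ≤ -(4 + 1 / 8) by norm_num)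
        rwa [Real.rpow_neg hX0.le, Real.rpow_natCast, ← one_div] at this
      have h7 : 1 / (X ^ 6 * (et a X').re) ≤ 2 * (1 / X ^ 5) := by
        rw [div_le_iff₀ (by positivity)]
        have : 2 * (1 / X ^ 5) * (X ^ 6 * (et a X').re) = 2 * X * (et a X').re := by field_simp
        rw [this]; nlinarith
      nlinarith [mul_nonneg he hp.le, mul_nonneg h8 hp.le]
    · rw [e]; nlinarith [mul_nonneg he hp.le, mul_nonneg hCD.le hp.le]

theorem exp (hT : R + 2 ≤ T) : ∃ z0 z1 z2 A, El.Exp (eT R U b0 T) (Ub R ε b0) c z0 z1 z2 A := by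
  obtain ⟨_, _, h⟩ := dr0 (b0 := b0) F hT
  exact h.exp

end fm

end Crest.Agent.N250.Jc

end
end

-- ▼ part N250/El/Tail
section

/-!
# Row 250 (helper19): explicit increments of the derivative in the far parameter
-/

set_option autoImplicit false
open Set Filter Topology Metric

noncomputable section

namespace Crest.Agent.N250.El

open Gi B1

variable {W : Type*} [NormedAddCommGroup W] [NormedSpace ℂ W]

theorem lip_small {f : ℂ → W} {r M : ℝ} (hr : 0 < r) (hd : DifferentiableOn ℂ f (ball 0 (2 * r)))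
    (hM : ∀ a ∈ ball (0 : ℂ) (2 * r), ‖f a‖ ≤ M) {a a' : ℂ} (ha : ‖a‖ ≤ r) (ha' : ‖a'‖ ≤ r) :
    ‖f a - f a'‖ ≤ 2 * M / r * ‖a - a'‖ := by
  have hs : ∀ w ∈ closedBall (0 : ℂ) r, ball w r ⊆ ball 0 (2 * r) := fun w hw =>
    ball_subset_ball' (by rw [mem_closedBall] at hw; linarith)
  exact (convex_closedBall (0 : ℂ) r).norm_image_sub_le_of_norm_fderiv_le (𝕜 := ℂ)
    (fun w hw => hd.differentiableAt (isOpen_ball.mem_nhds (hs w hw (mem_ball_self hr))))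
    (fun w hw => H.fd_le hr (hd.mono (hs w hw)) fun v hv => hM v (hs w hw hv))
    (mem_closedBall_zero_iff.2 ha') (mem_closedBall_zero_iff.2 ha)

theorem norm_deriv_le {f : ℂ → W} {z : ℂ} {r M : ℝ} (hr : 0 < r)
    (hd : DifferentiableOn ℂ f (ball z r)) (hM : ∀ a ∈ ball z r, ‖f a‖ ≤ M) :
    ‖deriv f z‖ ≤ 2 * M / r := by
  rw [norm_deriv_eq_norm_fderiv]; exact H.fd_le hr hd hM

/-- closeness in the renormalised parameter -/
theorem step_val {f f' : ℂ → W} {c M δ ε X X' : ℝ} (hX : 10 ≤ X) (hXX : X ≤ X') (hc' : c ≤ 1 / 4)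
    (hd : DifferentiableOn ℂ f (ball 0 (1 / X ^ 2))) (hM : ∀ a ∈ ball (0 : ℂ) (1 / X ^ 2), ‖f a‖ ≤ M)
    (hdr : ∀ a : ℂ, ‖a‖ ≤ c / X' ^ 2 → ∃ τ : ℂ, ‖τ‖ ≤ 2 * c / X ^ 2 ∧ ‖hat X τ - hat X' a‖ ≤ δ ∧
      ‖f' a - f τ‖ ≤ ε) {w : ℂ} (hw : ‖w‖ < c / (2 * X' ^ 2)) :
    ‖f' (hi X' w) - f (hi X w)‖ ≤ ε + 8 * M * X ^ 2 * δ := by
  have hX' : 10 ≤ X' := hX.trans hXX
  have p := sq_pos hX
  have p' := sq_pos hX'
  have hsq : X ^ 2 ≤ X' ^ 2 := by gcongr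
  have hc : 0 < c := by
    have := (norm_nonneg w).trans_lt hw
    rwa [div_pos_iff_of_pos_right (by positivity)] at this
  have e1 : c / X' ^ 2 = 2 * (c / (2 * X' ^ 2)) := by field_simp
  have w1 : ‖w‖ < 1 / (2 * X' ^ 2) := hw.trans_le (by gcongr; linarith)
  have w2 : ‖w‖ < 1 / (2 * X ^ 2) := w1.trans_le (by gcongr)
  obtain ⟨τ, t1, t2, t3⟩ := hdr (hi X' w) ((norm_hi hX' w1).trans (by linarith))
  rw [hat_hi hX' w1] at t2
  have t4 : ‖τ‖ ≤ 1 / (2 * X ^ 2) := t1.trans (by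
    rw [div_le_div_iff₀ p (by positivity)]; nlinarith)
  have t5 : ‖hi X w‖ ≤ 1 / (2 * X ^ 2) := by
    refine (norm_hi hX w2).trans ?_
    have : c / X' ^ 2 ≤ 1 / (2 * X ^ 2) := by
      rw [div_le_div_iff₀ p' (by positivity)]; nlinarith
    linarith
  have e2 : 2 * (1 / (2 * X ^ 2)) = 1 / X ^ 2 := by field_simp
  have t6 := lip_small (r := 1 / (2 * X ^ 2)) (by positivity) (e2 ▸ hd) (e2 ▸ hM) t4 t5
  have t7 := sub_hi hX (t4.trans (by rw [← e2]; linarith [norm_nonneg τ])) w2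
  have hM0 : 0 ≤ M := (norm_nonneg _).trans (hM 0 (mem_ball_self (by positivity)))
  have t8 : 2 * M / (1 / (2 * X ^ 2)) * ‖τ - hi X w‖ ≤ 8 * M * X ^ 2 * δ := by
    calc _ ≤ 2 * M / (1 / (2 * X ^ 2)) * (2 * δ) := by gcongr; linarith
      _ = _ := by field_simp; ring
  have := norm_sub_le_norm_sub_add_norm_sub (f' (hi X' w)) (f τ) (f (hi X w))
  linarith

theorem deriv_hi {f : ℂ → W} {X : ℝ} (hX : 10 ≤ X) (hd : DifferentiableOn ℂ f (ball 0 (1 / X ^ 2))) :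
    HasDerivAt (fun w => f (hi X w)) (deriv f 0) 0 := by
  have h1 : HasDerivAt f (deriv f 0) (hi X 0) := by
    rw [hi_zero hX]
    exact (hd.differentiableAt (ball_mem_nhds _ (by have := sq_pos hX; positivity))).hasDerivAt
  exact (h1.scomp 0 (hasDerivAt_hi hX)).congr_deriv (one_smul _ _)

theorem diff_hi {f : ℂ → W} {X : ℝ} (hX : 10 ≤ X) (hd : DifferentiableOn ℂ f (ball 0 (1 / X ^ 2))) :
    DifferentiableOn ℂ (fun w => f (hi X w)) (ball 0 (1 / (2 * X ^ 2))) :=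
  hd.comp (hi_diff hX) fun _ hw => mem_ball_zero_iff.2 (hi_lt hX (mem_ball_zero_iff.1 hw))

/-- the increment of the derivative at `a = 0` -/
theorem step_le {f f' : ℂ → W} {c M δ ε X X' : ℝ} (hX : 10 ≤ X) (hXX : X ≤ X') (hc : 0 < c)
    (hc' : c ≤ 1 / 4) (hd : DifferentiableOn ℂ f (ball 0 (1 / X ^ 2)))
    (hd' : DifferentiableOn ℂ f' (ball 0 (1 / X' ^ 2)))
    (hM : ∀ a ∈ ball (0 : ℂ) (1 / X ^ 2), ‖f a‖ ≤ M)
    (hdr : ∀ a : ℂ, ‖a‖ ≤ c / X' ^ 2 → ∃ τ : ℂ, ‖τ‖ ≤ 2 * c / X ^ 2 ∧ ‖hat X τ - hat X' a‖ ≤ δ ∧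
      ‖f' a - f τ‖ ≤ ε) :
    ‖deriv f' 0 - deriv f 0‖ ≤ 4 * X' ^ 2 / c * (ε + 8 * M * X ^ 2 * δ) := by
  have hX' : 10 ≤ X' := hX.trans hXX
  have p := sq_pos hX
  have p' := sq_pos hX'
  have s1 : c / (2 * X' ^ 2) ≤ 1 / (2 * X' ^ 2) := by gcongr; linarith
  have s2 : 1 / (2 * X' ^ 2) ≤ 1 / (2 * X ^ 2) := by gcongr
  have h1 := norm_deriv_le (f := fun w => f' (hi X' w) - f (hi X w)) (z := 0)
    (r := c / (2 * X' ^ 2)) (by positivity)
    (((diff_hi hX' hd').mono (ball_subset_ball s1)).sub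
      ((diff_hi hX hd).mono (ball_subset_ball (s1.trans s2))))
    fun w hw => step_val hX hXX hc' hd hM hdr (mem_ball_zero_iff.1 hw)
  rw [((deriv_hi hX' hd').fun_sub (deriv_hi hX hd)).deriv] at h1
  refine h1.trans_eq ?_
  field_simp; ring

/-- summation of dyadic increments -/
theorem dyadic {V : Type*} [NormedAddCommGroup V] {g : ℝ → V} {X1 C : ℝ} (h1 : 0 < X1) (hC : 0 ≤ C)
    (h : ∀ X X', X1 ≤ X → X ≤ X' → X' ≤ 2 * X → ‖g X' - g X‖ ≤ C / X) {X X' : ℝ} (hX : X1 ≤ X)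
    (hXX : X ≤ X') : ‖g X' - g X‖ ≤ 2 * C / X := by
  have key : ∀ n : ℕ, ∀ X, X1 ≤ X → X ≤ X' → X' ≤ 2 ^ n * X → ‖g X' - g X‖ ≤ 2 * C / X := by
    intro n
    induction n with
    | zero =>
      intro X a b c
      have : X' = X := le_antisymm (by simpa using c) b
      have hp : 0 < X := h1.trans_le a
      rw [this, sub_self, norm_zero]; positivity
    | succ n ih =>
      intro X a b c
      have hp : 0 < X := h1.trans_le a
      have e : 2 * C / X = C / X + C / X := by ring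
      have hq : 0 ≤ C / X := by positivity
      rcases le_total X' (2 * X) with d | d
      · linarith [h X X' a b d]
      · have k1 := ih (2 * X) (by linarith) d (by rw [pow_succ] at c; linarith)
        have k2 := h X (2 * X) a (by linarith) le_rfl
        have k3 := norm_sub_le_norm_sub_add_norm_sub (g X') (g (2 * X)) (g X)
        have e2 : 2 * C / (2 * X) = C / X := by field_simp
        linarith
  have hp : 0 < X := h1.trans_le hX
  obtain ⟨n, hn⟩ := pow_unbounded_of_one_lt (X' / X) (by norm_num : (1 : ℝ) < 2)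
  exact key n X hX hXX (by rw [div_lt_iff₀ hp] at hn; exact hn.le)

end Crest.Agent.N250.El

end
end

-- ▼ part N250/El/Gro
section

/-!
# Row 250 (helper19): growth of the variations of the end family, uniformly in the cut
-/

set_option autoImplicit false
open Set Filter Topology Metric Complex

noncomputable section

namespace Crest.Agent.N250.El

open B1 Em
open Gi (hat)

variable {ℓ : Ell}

theorem hasSum_vX (R X : ℝ) (a : ℂ) (J : Jt ℓ) (q : ℝ × ℝ) :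
    HasSum (fun m => Wi.ex m q.2 * mo R X (vJ R X a J) 0 m q.1) (vX R X a J q) := by
  have := Rg.hasSum_val (vJ R X a J 0) (tX R X q.1) q.2
  rwa [val_vJ] at this

/-- weak closeness gives closeness of the values -/
theorem xc_val {R X X' N : ℝ} {a a' : ℂ} {J J' : Jt ℓ}
    (h : Xc R X X' (vJ R X' a' J') (vJ R X a J) N) {q : ℝ × ℝ} (hR : 0 ≤ R) (hq : q.1 ∈ Icc R X) :
    ‖vX R X' a' J' q - vX R X a J q‖ ≤ N * q.1 ^ (7 / 8 : ℝ) := by
  obtain ⟨β, hs, hN, hb⟩ := h 0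
  have h0 : 0 ≤ q.1 := hR.trans hq.1
  have := ((hasSum_vX R X' a' J' q).sub (hasSum_vX R X a J q)).norm_le_of_bounded
    (hs.hasSum.mul_right (q.1 ^ (7 / 8 : ℝ))) fun m => by
      have k := hb m q.1 hq
      simp only [Matrix.cons_val_zero, pow_zero, mul_one] at k
      rw [← mul_sub, norm_mul, Wi.norm_ex, one_mul]
      refine le_trans (le_mul_of_one_le_left (norm_nonneg _) (Real.one_le_exp ?_)) k
      have := sig_nonneg (u := q.1 - R) (by linarith [hq.1])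
      have := ℓ.nonneg m
      positivity
  exact this.trans (mul_le_mul_of_nonneg_right hN (by positivity))

theorem vX_eq {R X : ℝ} (h : R + 2 ≤ X) (a : ℂ) (J : Jt ℓ) {q : ℝ × ℝ} (hq : q.1 ∈ Icc R X) :
    vX R X a J q = et a q.1 + Gi.valL ℓ 0 (tX R X q.1) q.2 J := by
  simp only [vX, vk, vj, Matrix.cons_val_zero, Gi.valL_apply, gam_real, xr_tX h hq]

/-- the value of the end function with no far slope -/
def vE (U : Par ℓ → Jt ℓ) (R X : ℝ) (a : ℂ) (b : Wi (omP 2)) (q : ℝ × ℝ) : ℂ :=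
  vX R X a (U ((X : ℂ), a, wd b 0)) q

/-- its non explicit part -/
def wE (U : Par ℓ → Jt ℓ) (R X : ℝ) (a : ℂ) (b : Wi (omP 2)) (q : ℝ × ℝ) : ℂ :=
  Gi.valL ℓ 0 (tX R X q.1) q.2 (U ((X : ℂ), a, wd b 0))

/-- the first admissible cut -/
def XF (R K : ℝ) : ℝ := max 10 (max (2 * R + 5) (2 * √K + 1))

theorem XF_ge (R K : ℝ) : 10 ≤ XF R K := le_max_left _ _

section

variable {U : Par ℓ → Jt ℓ} {R K ε ε1 C0 Ch c CD C c0 : ℝ} (F : Fm U R K ε ε1 C0 Ch c CD C c0)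
  {X : ℝ} {a : ℂ} {b : Wi (omP 2)} {q : ℝ × ℝ}

theorem XF_le (hX : XF R K ≤ X) : 10 ≤ X ∧ 2 * R + 4 < X ∧ 2 * √K < X := by
  simp only [XF, max_le_iff] at hX
  exact ⟨hX.1, by linarith [hX.2.1], by linarith [hX.2.2]⟩

include F

theorem dom0 (hX : XF R K ≤ X) (ha : ‖a‖ ≤ 1 / X ^ 2) (hb : R ^ (13 / 8 : ℝ) * ‖b‖ < ε) :
    ((X : ℂ), a, wd (ℓ := ℓ) b 0) ∈ Dom R K (13 / 8) (7 / 4) ε := by
  obtain ⟨h1, h2, h3⟩ := XF_le hX
  have hK : 4 * K < X ^ 2 := by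
    have := Real.sq_sqrt F.K_pos.le
    nlinarith [Real.sqrt_nonneg K]
  refine ⟨h2, h3, by simpa using (by linarith : 0 < X), adm_small (by simpa using (by linarith : 0 < X))
    (by simpa using hK) (by simpa using ha), ?_⟩
  rw [dn_wd]; simpa using hb

theorem vE_eq (hX : XF R K ≤ X) (hq : q.1 ∈ Icc R X) :
    vE U R X a b q = et a q.1 + wE U R X a b q :=
  vX_eq (by linarith [(XF_le hX).2.1, F.sz.hR]) _ _ hq

theorem norm_et_le (hX : XF R K ≤ X) (ha : ‖a‖ ≤ 1 / X ^ 2) (hq : q.1 ∈ Icc R X) :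
    ‖et a q.1‖ ≤ 3 / 2 := by
  have h10 := (XF_le hX).1
  have h2 : 2 ≤ q.1 := F.sz.hR.trans hq.1
  have e : ((q.1 : ℂ) ^ 2 - 2) = ((q.1 ^ 2 - 2 : ℝ) : ℂ) := by push_cast; ring
  refine (norm_add_le _ _).trans ?_
  rw [norm_one, norm_div, norm_mul, e, norm_real, Real.norm_of_nonneg (by nlinarith), Complex.norm_two]
  rw [le_div_iff₀ (sq_pos h10)] at ha
  have : q.1 ^ 2 ≤ X ^ 2 := by have := hq.2; gcongr
  nlinarith [norm_nonneg a]

theorem norm_wE (hX : XF R K ≤ X) (ha : ‖a‖ ≤ 1 / X ^ 2) (hb : R ^ (13 / 8 : ℝ) * ‖b‖ < ε)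
    (hq : q.1 ∈ Icc R X) : ‖wE U R X a b q‖ ≤ 1 / 16 := by
  have S := F.sl (dom0 F hX ha hb)
  have h2 : R + 2 ≤ X := by linarith [(XF_le hX).2.1, F.sz.hR]
  have hp := S.pt F.sz (tX R X q.1)
  have hb0 := S.inb.b0
  simp only [ofReal_re] at hp hb0
  have h3 := hp.W_le_sq (g := 13 / 8) (g' := 7 / 4) (by norm_num) (by norm_num) (by norm_num)
  have h4 := norm_et_le F hX ha hq
  have h5 := Rg.val_le hb0 (tX R X q.1) q.2 (F := 9 / 4) hp.rho_pos (hp.W_pos _ _)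
    (Or.inl (by linarith [hp.rho_le_one])) (h3.trans (by
      rw [xr_tX h2 hq]; nlinarith [norm_nonneg (et a q.1)]))
  refine h5.trans ?_
  linarith [F.sz.he]

theorem norm_vE (hX : XF R K ≤ X) (ha : ‖a‖ ≤ 1 / X ^ 2) (hb : R ^ (13 / 8 : ℝ) * ‖b‖ < ε)
    (hq : q.1 ∈ Icc R X) : ‖vE U R X a b q‖ ≤ 2 := by
  rw [vE_eq F hX hq]
  linarith [norm_add_le (et a q.1) (wE U R X a b q), norm_wE F hX ha hb hq, norm_et_le F hX ha hq]

theorem wE_diff {P : Type*} [NormedAddCommGroup P] [NormedSpace ℂ P] {V : Set P} {a : P → ℂ}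
    {b : P → Wi (omP 2)} (hX : XF R K ≤ X) (h1 : DifferentiableOn ℂ a V) (h2 : DifferentiableOn ℂ b V)
    (hm : ∀ p ∈ V, ‖a p‖ ≤ 1 / X ^ 2 ∧ R ^ (13 / 8 : ℝ) * ‖b p‖ < ε) (q : ℝ × ℝ) :
    DifferentiableOn ℂ (fun p => wE U R X (a p) (b p) q) V :=
  (Gi.valL ℓ 0 (tX R X q.1) q.2).differentiable.comp_differentiableOn
    (F.isEnd.hol.comp (f := fun p => ((X : ℂ), a p, wd (ℓ := ℓ) (b p) 0))
      ((differentiableOn_const _).prodMk (h1.prodMk (differentiable_wd.comp_differentiableOn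
        (f := fun p => (b p, (0 : ℂ))) (h2.prodMk (differentiableOn_const _)))))
      fun p hp => dom0 F hX (hm p hp).1 (hm p hp).2)

theorem wE_diff_a (hX : XF R K ≤ X) (hb : R ^ (13 / 8 : ℝ) * ‖b‖ < ε) (q : ℝ × ℝ) :
    DifferentiableOn ℂ (fun a => wE U R X a b q) (ball 0 (1 / X ^ 2)) :=
  wE_diff F hX differentiableOn_id (differentiableOn_const _)
    (fun _ ha => ⟨(mem_ball_zero_iff.1 ha).le, hb⟩) q

theorem vE_diff_a (hX : XF R K ≤ X) (hb : R ^ (13 / 8 : ℝ) * ‖b‖ < ε) (hq : q.1 ∈ Icc R X) :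
    DifferentiableOn ℂ (fun a => vE U R X a b q) (ball 0 (1 / X ^ 2)) := by
  simp only [vE_eq F hX hq]
  exact (by unfold et; fun_prop : Differentiable ℂ fun a => et a q.1).differentiableOn.add
    (wE_diff_a F hX hb q)

/-- the derivative at the cut `X` -/
theorem dA_sub (hX : XF R K ≤ X) (hb : R ^ (13 / 8 : ℝ) * ‖b‖ < ε) (hq : q.1 ∈ Icc R X) :
    ‖deriv (fun a => vE U R X a b q) 0 - ((q.1 : ℂ) ^ 2 - 2) / 2‖ ≤ X ^ 2 / 8 := by
  have p := sq_pos (XF_le hX).1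
  have h1 : HasDerivAt (fun a => et a q.1) (((q.1 : ℂ) ^ 2 - 2) / 2) 0 := by
    simpa [et] using (((hasDerivAt_id (0 : ℂ)).mul_const ((q.1 : ℂ) ^ 2 - 2)).div_const 2).const_add 1
  have h2 := ((wE_diff_a F hX hb q).differentiableAt (ball_mem_nhds _ (by positivity))).hasDerivAt
  simp only [vE_eq F hX hq]
  rw [(h1.fun_add h2).deriv, add_sub_cancel_left]
  refine (norm_deriv_le (by positivity) (wE_diff_a F hX hb q)
    fun a ha => norm_wE F hX (mem_ball_zero_iff.1 ha).le hb hq).trans_eq ?_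
  field_simp; ring

/-- one step of the drift at a point -/
theorem drift_pt {X' : ℝ} (hX : XF R K ≤ X) (hXX : X ≤ X') (ha : ‖a‖ ≤ c / X' ^ 2)
    (hb : R ^ (13 / 8 : ℝ) * ‖b‖ < ε) : ∃ τ : ℂ, ‖τ‖ ≤ 2 * c / X ^ 2 ∧
      ‖hat X τ - hat X' a‖ ≤ 2 * CD / X ^ 5 ∧ ∀ q : ℝ × ℝ, q.1 ∈ Icc R X →
        ‖vE U R X' a b q - vE U R X τ b q‖ ≤ C * X ^ (-33 / 8 : ℝ) * q.1 ^ (7 / 8 : ℝ) := by
  obtain ⟨h1, h2, h3⟩ := XF_le hX
  have hc := F.c_pos
  have hc' := F.c_le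
  have p := sq_pos h1
  have hX' := hX.trans hXX
  have ha1 : ‖a‖ ≤ 1 / X' ^ 2 := ha.trans (by gcongr; linarith)
  have ha2 : ‖a‖ ≤ c / X ^ 2 := ha.trans (by gcongr)
  have hz' := dom0 F hX' ha1 hb
  have S' := F.sl hz'
  obtain ⟨d1, d2⟩ := F.drift X X' a 0 b _ h2.le h3.le hXX (by simpa using hz'.2.2.2.1)
    (by rwa [le_div_iff₀ p] at ha2) (by
      have : 0 < X' := by linarith
      rw [norm_zero]; have := F.Ch_nonneg; positivity) S'.sol (by simpa using S'.inb)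
  have t1 := F.tau_sub hz' h2.le hXX
  set τ := tauX R X X' a (U ((X' : ℂ), a, wd b 0))
  have t2 : ‖τ‖ ≤ 2 * c / X ^ 2 := by
    have := norm_add_le (τ - a) a
    rw [sub_add_cancel] at this
    rw [mul_div_assoc]; linarith
  have hz := dom0 F hX (t2.trans (by gcongr; linarith)) hb
  have S := F.sl hz
  have d3 := d2 0 _ (by rw [norm_zero]; have := F.Ch_nonneg; positivity) S.sol (by simpa using S.inb)
  refine ⟨τ, t2, d1.trans ?_, fun q hq => xc_val d3 (by linarith [F.sz.hR]) hq⟩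
  have h5 := et_re (h1.trans hXX) ha1
  have h7 : 1 / (X ^ 6 * (et a X').re) ≤ 1 / X ^ 5 := by
    refine one_div_le_one_div_of_le (by positivity) ?_
    have : X ^ 6 * (et a X').re = X ^ 5 * (X * (et a X').re) := by ring
    rw [this]
    exact le_mul_of_one_le_right (by positivity) (by nlinarith)
  have := mul_le_mul_of_nonneg_left (add_le_add h7 (le_refl (1 / X ^ 5))) F.CD_pos.le
  refine this.trans_eq (by ring)

/-- the derivative in `a` is uniformly Cauchy in the cut -/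
theorem dA_tail {X' : ℝ} (hX : XF R K ≤ X) (hXX : X ≤ X') (hb : R ^ (13 / 8 : ℝ) * ‖b‖ < ε)
    (hq : q.1 ∈ Icc R X) :
    ‖deriv (fun a => vE U R X' a b q) 0 - deriv (fun a => vE U R X a b q) 0‖ ≤
      2 * (16 / c * (C + 32 * CD)) / X := by
  have hc := F.c_pos
  have hC := F.C_pos
  have hCD := F.CD_pos
  have h10 := (XF_le hX).1
  refine dyadic (g := fun X => deriv (fun a => vE U R X a b q) 0) (X1 := X) (by linarith)
    (by positivity) (fun Y Y' hY hYY h2 => ?_) le_rfl hXX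
  have hY' := hX.trans hY
  have hY10 := h10.trans hY
  have hY0 : 0 < Y := by linarith
  have hq1 : q.1 ∈ Icc R Y := ⟨hq.1, hq.2.trans hY⟩
  have hq2 : q.1 ∈ Icc R Y' := ⟨hq.1, hq1.2.trans hYY⟩
  have h0 : 0 ≤ q.1 := by linarith [hq.1, F.sz.hR]
  have e1 : C * Y ^ (-33 / 8 : ℝ) * q.1 ^ (7 / 8 : ℝ) ≤ C / Y ^ 3 := by
    have k1 : q.1 ^ (7 / 8 : ℝ) ≤ Y ^ (7 / 8 : ℝ) := Real.rpow_le_rpow h0 hq1.2 (by norm_num)
    have k2 : Y ^ (-33 / 8 : ℝ) * Y ^ (7 / 8 : ℝ) ≤ (Y ^ 3)⁻¹ := by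
      rw [← Real.rpow_add hY0, ← Real.rpow_natCast, ← Real.rpow_neg hY0.le]
      exact Real.rpow_le_rpow_of_exponent_le (by linarith) (by norm_num)
    rw [mul_assoc, div_eq_mul_inv]
    exact mul_le_mul_of_nonneg_left ((mul_le_mul_of_nonneg_left k1 (by positivity)).trans k2) hC.le
  refine (step_le (M := 2) (δ := 2 * CD / Y ^ 5) (ε := C / Y ^ 3) hY10 hYY hc (by linarith [F.c_le])
    (vE_diff_a F hY' hb hq1) (vE_diff_a F (hY'.trans hYY) hb hq2)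
    (fun a ha => norm_vE F hY' (mem_ball_zero_iff.1 ha).le hb hq1) fun a ha => ?_).trans ?_
  · obtain ⟨τ, t1, t2, t3⟩ := drift_pt F hY' hYY ha hb
    exact ⟨τ, t1, t2, (t3 q hq1).trans e1⟩
  · calc _ ≤ 4 * (2 * Y) ^ 2 / c * (C / Y ^ 3 + 8 * 2 * Y ^ 2 * (2 * CD / Y ^ 5)) := by
          gcongr; linarith
      _ = _ := by field_simp; ring

/-- **growth of the derivative in `a`** -/
theorem gro_a : ∃ C' x1 : ℝ, ∀ b : Wi (omP 2), R ^ (13 / 8 : ℝ) * ‖b‖ < ε → ∀ q : ℝ × ℝ, R ≤ q.1 →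
    ∀ X, max (XF R K) q.1 ≤ X → ‖deriv (fun a => vE U R X a b q) 0‖ ≤ C' * q.1 ^ 2 ∧
      (x1 ≤ q.1 → q.1 ^ 2 / 4 ≤ ‖deriv (fun a => vE U R X a b q) 0‖) := by
  set D := 2 * (16 / c * (C + 32 * CD)) with hD
  have hD0 : 0 ≤ D := by have := F.c_pos; have := F.C_pos; have := F.CD_pos; positivity
  have h10 := XF_ge R K
  refine ⟨1 + XF R K ^ 2 + D, max (XF R K) (D + 4), fun b hb q hq X hX => ?_⟩
  set Y := max (XF R K) q.1 with hY
  have h2 : 2 ≤ q.1 := F.sz.hR.trans hq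
  have hq1 : q.1 ∈ Icc R Y := ⟨hq, le_max_right _ _⟩
  have hY10 : 10 ≤ Y := h10.trans (le_max_left _ _)
  have hXY : XF R K ≤ Y := le_max_left _ _
  have t1 := dA_tail F hXY hX hb hq1
  have t2 := dA_sub F hXY hb hq1
  have t3 : D / Y ≤ D := div_le_self hD0 (by linarith)
  have e : ((q.1 : ℂ) ^ 2 - 2) / 2 = (((q.1 ^ 2 - 2) / 2 : ℝ) : ℂ) := by push_cast; ring
  have t4 : ‖((q.1 : ℂ) ^ 2 - 2) / 2‖ = (q.1 ^ 2 - 2) / 2 := by
    rw [e, norm_real, Real.norm_of_nonneg (by nlinarith)]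
  have t5 := norm_sub_le_norm_sub_add_norm_sub (deriv (fun a => vE U R X a b q) 0)
    (deriv (fun a => vE U R Y a b q) 0) (((q.1 : ℂ) ^ 2 - 2) / 2)
  have t6 := abs_le.1 (abs_norm_sub_norm_le (deriv (fun a => vE U R X a b q) 0)
    (((q.1 : ℂ) ^ 2 - 2) / 2))
  rw [← hD] at t1
  refine ⟨?_, fun hx => ?_⟩
  · have : Y ^ 2 ≤ XF R K ^ 2 + q.1 ^ 2 := by
      rcases le_total (XF R K) q.1 with h | h
      · rw [hY, max_eq_right h]; nlinarith
      · rw [hY, max_eq_left h]; nlinarith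
    have k : 1 ≤ q.1 ^ 2 := by nlinarith
    nlinarith [mul_le_mul_of_nonneg_left k (by positivity : 0 ≤ XF R K ^ 2 + D)]
  · have h3 : Y = q.1 := max_eq_right ((le_max_left _ _).trans hx)
    have h4 : D + 4 ≤ q.1 := (le_max_right _ _).trans hx
    have h5 : D / Y ≤ 1 := by rw [div_le_one (by linarith)]; linarith
    have h6 : Y ^ 2 = q.1 ^ 2 := by rw [h3]
    nlinarith


/-- pointwise limits of the derivatives in `a` -/
theorem lim_a (hb : R ^ (13 / 8 : ℝ) * ‖b‖ < ε) {d : ℝ × ℝ → ℂ}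
    (hd : ∀ q : ℝ × ℝ, R < q.1 →
      Tendsto (fun X => deriv (fun a => vE U R X a b q) 0) atTop (𝓝 (d q))) :
    (∃ (C' : ℝ) (N : ℕ), ∀ q : ℝ × ℝ, R < q.1 → ‖d q‖ ≤ C' * q.1 ^ N) ∧ Lg.Unb d := by
  obtain ⟨C', x1, h⟩ := gro_a F
  refine ⟨⟨C', 2, fun q hq => le_of_tendsto (hd q hq).norm ?_⟩, fun A x0 => ?_⟩
  · filter_upwards [eventually_ge_atTop (max (XF R K) q.1)] with X hX using (h b hb q hq.le X hX).1
  · set x := max (max x0 x1) (max (R + 1) (4 * |A| + 1)) with hx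
    have k1 : R + 1 ≤ x := (le_max_left _ _).trans (le_max_right _ _)
    have k2 : 4 * |A| + 1 ≤ x := (le_max_right _ _).trans (le_max_right _ _)
    have k3 : x ^ 2 / 4 ≤ ‖d (x, 0)‖ := ge_of_tendsto (hd (x, 0) (by linarith)).norm (by
      filter_upwards [eventually_ge_atTop (max (XF R K) x)] with X hX using
        (h b hb (x, 0) (by linarith) X hX).2 ((le_max_right _ _).trans (le_max_left _ _)))
    refine ⟨(x, 0), (le_max_left _ _).trans (le_max_left _ _), lt_of_lt_of_le ?_ k3⟩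
    nlinarith [le_abs_self A, abs_nonneg A]


end

end Crest.Agent.N250.El

end
end

-- ▼ part N250/Jc/Main
section

/-!
# Row 250 (helper29): the Jacobi fields `dP β`, `dJ` of an end
-/

set_option autoImplicit false
set_option linter.unusedSectionVars false
open Set Filter Topology Metric Complex
open scoped ContDiff

noncomputable section

namespace Crest.Agent.N250.Jc

open B1 Em Lp

section abs

variable {B E G : Type*} [NormedAddCommGroup B] [NormedSpace ℂ B] [NormedAddCommGroup E]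
  [NormedSpace ℂ E] [NormedAddCommGroup G] [NormedSpace ℂ G]

theorem lkP {z : ℝ → B → E} {z0 : B → E} {Ψ : E → G} {φ : B → G}
    (hz : ∀ᶠ b in 𝓝 0, Tendsto (fun X => z X b) atTop (𝓝 (z0 b))) (hd : DifferentiableAt ℂ z0 0)
    (hΨ : ContDiffAt ℂ 1 Ψ (z0 0))
    (hφ : ∀ᶠ b in 𝓝 0, Tendsto (fun X => Ψ (z X b)) atTop (𝓝 (φ b))) :
    HasFDerivAt φ ((fderiv ℂ Ψ (z0 0)).comp (fderiv ℂ z0 0)) 0 := by
  refine ((hΨ.differentiableAt one_ne_zero).hasFDerivAt.comp 0 hd.hasFDerivAt).congr_of_eventuallyEq ?_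
  filter_upwards [hz, hφ, hd.continuousAt.eventually (hΨ.eventually (by simp))] with b h1 h2 h3
  exact tendsto_nhds_unique h2 (h3.continuousAt.tendsto.comp h1)

theorem lkJ {y : ℝ → ℂ → E} {y0 y1 : E} {Ψ : E → G}
    (hy : ∀ᶠ X in atTop, DifferentiableAt ℂ (y X) 0) (h0 : Tendsto (fun X => y X 0) atTop (𝓝 y0))
    (h1 : Tendsto (fun X => deriv (y X) 0) atTop (𝓝 y1)) (hΨ : ContDiffAt ℂ 1 Ψ y0) :
    Tendsto (fun X => deriv (fun a => Ψ (y X a)) 0) atTop (𝓝 (fderiv ℂ Ψ y0 y1)) := by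
  have h2 := (hΨ.continuousAt_fderiv one_ne_zero).tendsto.comp h0
  refine ((isBoundedBilinearMap_apply.continuous.tendsto _).comp (h2.prodMk_nhds h1)).congr' ?_
  filter_upwards [hy, h0.eventually (hΨ.eventually (by simp))] with X k1 k2
  exact ((k2.differentiableAt one_ne_zero).hasFDerivAt.comp_hasDerivAt 0 k1.hasDerivAt).deriv.symm

end abs

variable {ℓ : Ell} (R : ℝ) (U : Par ℓ → Jt ℓ) (b0 : Wi (omP 2))

/-- the limit end with the datum `b0 + b` -/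
def vI (b : Wi (omP 2)) (q : ℝ × ℝ) : ℂ := limUnder atTop fun X => vv R U b0 X 0 b q

/-- the derivative in the datum -/
def dP (β : Wi (omP 2)) (q : ℝ × ℝ) : ℂ := fderiv ℂ (fun b => vI R U b0 b q) 0 β

/-- the derivative in the far parameter -/
def dJ (q : ℝ × ℝ) : ℂ := limUnder atTop fun X => deriv (fun a => vv R U b0 X a 0 q) 0

variable {R U b0} {K ε ε1 C0 Ch c CD C c0 T X A : ℝ} {V : ℝ × ℝ → ℂ} {q : ℝ × ℝ} {a : ℂ}
  {b : Wi (omP 2)} {z0 z1 z2 : Wi (omP 2) → Jt (hf ℓ)}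

/-- the setting: the family converges to `V` at the datum `b0` -/
structure Se (U : Par ℓ → Jt ℓ) (R K ε ε1 C0 Ch c CD C c0 : ℝ) (b0 : Wi (omP 2))
    (V : ℝ × ℝ → ℂ) : Prop where
  F : Fm U R K ε ε1 C0 Ch c CD C c0
  hb : R ^ (13 / 8 : ℝ) * ‖b0‖ < ε / 2
  sm : ContDiffOn ℝ ∞ V (Ioi R ×ˢ univ)
  lim : ∀ q : ℝ × ℝ, R ≤ q.1 → Tendsto (fun X => vv R U b0 X 0 0 q) atTop (𝓝 (V q))

/-- the value at a point -/
def vL (ℓ : Ell) (R T : ℝ) (k : Fin 6) (q : ℝ × ℝ) : Jt ℓ →L[ℂ] ℂ :=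
  (valL ℓ (tX R T q.1) q.2).comp (ContinuousLinearMap.proj k)


theorem jet_tX (hT : R + 2 ≤ T) {D : Jt ℓ} (h : IsJet (dgam R T) D) (hq : q.1 ∈ Ioo R T)
    {f : ℝ × ℝ → ℂ} (e : ∀ y : ℝ × ℝ, y.1 ∈ Icc R T → f y = fk (tX R T) D 0 y) :
    jet f q = evJ ℓ (tX R T q.1) q.2 D := by
  rw [← jet_fk h (rd_real hT) (Icc_mem_nhds hq.1 hq.2)]
  exact jet_congr ((continuous_fst.continuousAt.eventually_mem (Icc_mem_nhds hq.1 hq.2)).mono e)

theorem fc_fk (hT : R + 2 ≤ T) (D : Jt ℓ) (m : ℤ) :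
    Lg.bc R (fk (tX R T) D 0) m = Wi.co (D 0) m i0 := by
  have e : tX R T R = i0 := by simpa [xr_i0] using tX_xr hT i0
  have h := Sm.integral_Sy ((rd_real hT).md (D 0)) le_rfl (x := R) ⟨le_rfl, by linarith⟩ m
  have h2 : ((2 * Real.pi : ℝ) : ℂ) ≠ 0 := ofReal_ne_zero.2 (by positivity)
  rw [Lg.bc, Ra.fc, fk_eq, h, pow_zero, one_mul, Sm.md, e, inv_mul_cancel_left₀ h2]

theorem bc_congr {f g : ℝ × ℝ → ℂ} (e : ∀ θ, f (R, θ) = g (R, θ)) (m : ℤ) :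
    Lg.bc R f m = Lg.bc R g m := by simp only [Lg.bc, e]

/-- a family of jets at all cuts defines a Jacobi field -/
theorem reg_of {d : ℝ × ℝ → ℂ} {c1 : ℝ} (hc : 0 < c1) (hl : ∀ m : ℤ, c1 * |(m : ℝ)| ≤ ℓ.l m)
    (hV : ContDiffOn ℝ ∞ V (Ioi R ×ˢ univ)) (hn : ∀ q : ℝ × ℝ, R < q.1 → Nd (jet V q))
    (he : ∀ q : ℝ × ℝ, R < q.1 → linEL V d q = 0)
    (hD : ∀ T, R + 2 ≤ T → ∃ D : Jt ℓ, IsJet (dgam R T) D ∧
      ∀ y : ℝ × ℝ, y.1 ∈ Icc R T → d y = fk (tX R T) D 0 y) :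
    ContDiffOn ℝ ∞ d (Ioi R ×ˢ univ) ∧ ContDiffOn ℝ 2 d (Ici R ×ˢ univ) := by
  refine ⟨fun y hy => ?_, fun y hy => ?_⟩
  · have h1 : R < y.1 := hy.1
    obtain ⟨D, hj, e⟩ := hD (y.1 + 2) (by linarith)
    have hT : R + 2 ≤ y.1 + 2 := by linarith
    have hs : Ioo (R + (y.1 - R) / 2) (y.1 + 2) ⊆ Ioo R (y.1 + 2) := Ioo_subset_Ioo_left (by linarith)
    have hs' := hs.trans Ioo_subset_Icc_self
    have k := lin_reg isOpen_Ioo ((rd_real hT).mono (convex_Ioo _ _) hs') hj (fun n => ?_)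
      (hV.mono (prod_mono (fun x hx => (hs hx).1) subset_rfl)) (fun w hw => hn w (hs hw.1).1)
      fun w hw => ?_
    · have m : Ioo (R + (y.1 - R) / 2) (y.1 + 2) ×ˢ (univ : Set ℝ) ∈ 𝓝 y :=
        prod_mem_nhds (Ioo_mem_nhds (by linarith) (by linarith)) univ_mem
      exact ((k.congr fun w hw => e w (hs' hw.1)).contDiffAt m).contDiffWithinAt
    · obtain ⟨B, hB⟩ := exists_gn hc hl (sig_pos (u := (y.1 - R) / 2) (by linarith)) n
      exact ⟨B, fun x hx => hB.gain (by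
        rw [← sig_xr' hT, xr_tX hT (hs' hx)]; exact sig_mono (by linarith [hx.1]))⟩
    · rw [← he w (hs hw.1).1]
      exact (linEL_congr ((continuous_fst.continuousAt.eventually_mem
        (Icc_mem_nhds (hs hw.1).1 (hs hw.1).2)).mono e)).symm
  · have h1 : R ≤ y.1 := hy.1
    obtain ⟨D, hj, e⟩ := hD (y.1 + 2) (by linarith)
    have k := (fk_c2 hj (rd_real (by linarith)) (uniqueDiffOn_Icc (by linarith))).congr
      fun w hw => e w hw.1
    refine (k y ⟨⟨h1, by linarith⟩, trivial⟩).mono_of_mem_nhdsWithin ?_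
    have ho : {w : ℝ × ℝ | w.1 < y.1 + 2} ∈ 𝓝 y :=
      (isOpen_lt continuous_fst continuous_const).mem_nhds (by simp)
    filter_upwards [mem_nhdsWithin_of_mem_nhds ho, self_mem_nhdsWithin] with w k1 k2
    exact ⟨⟨k2.1, le_of_lt k1⟩, trivial⟩

theorem vv_per (x θ : ℝ) : vv R U b0 X a b (x, θ + 2 * Real.pi) = vv R U b0 X a b (x, θ) :=
  vk_per 0 x θ

theorem dP_per (β : Wi (omP 2)) : Po.Per (dP R U b0 β) := fun x θ => by simp only [dP, vI, vv_per]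

theorem dJ_per : Po.Per (dJ R U b0) := fun x θ => by simp only [dJ, vv_per]

/-- large cuts -/
structure Lc (R K c T X : ℝ) : Prop where
  cut : Cut2 R T X
  ez : ∀ a : ℂ, ‖a‖ ≤ 4 * c / X ^ 2 → Ez R K c X a
  ev : ∀ᶠ a : ℂ in 𝓝 0, Ez R K c X a

theorem ev_lc (hc : 0 < c) (hT : R + 2 ≤ T) : ∀ᶠ X in atTop, Lc R K c T X := by
  filter_upwards [ev_ez R K, eventually_ge_atTop T, eventually_gt_atTop 0] with X h1 h2 h3
  refine ⟨⟨hT, h2⟩, fun a ha => ⟨h1.1, h1.2, ha⟩, ?_⟩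
  filter_upwards [closedBall_mem_nhds (0 : ℂ) (show 0 < 4 * c / X ^ 2 by positivity)] with a ha
  exact ⟨h1.1, h1.2, mem_closedBall_zero_iff.1 ha⟩

namespace Se

variable (H : Se U R K ε ε1 C0 Ch c CD C c0 b0 V)
include H

theorem mem0 : (0 : Wi (omP 2)) ∈ Ub R ε b0 := by simpa [Ub] using H.hb

theorem ub : Ub R ε b0 ∈ 𝓝 (0 : Wi (omP 2)) := (isOpen_Ub R ε b0).mem_nhds H.mem0

theorem jet_eT (h : Lc R K c T X) (ha : Ez R K c X a) (hb : b ∈ Ub R ε b0) :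
    IsJet (dgam R T) (eT R U b0 T X a b) :=
  isJet_rs h.cut (isJet_vJ (H.F.isEnd.sol _ (ha.dom H.F hb)).jet)

theorem jet_vv (h : Lc R K c T X) (ha : Ez R K c X a) (hb : b ∈ Ub R ε b0) (hq : q.1 ∈ Ioo R T) :
    jet (vv R U b0 X a b) q = evJ _ (tX R T q.1) q.2 (eT R U b0 T X a b) :=
  jet_tX h.cut.lo (H.jet_eT h ha hb) hq fun _ hy => (fk_eT h.cut 0 hy).symm

theorem diff_a (h : Lc R K c T X) (hb : b ∈ Ub R ε b0) :
    DifferentiableAt ℂ (fun a => eT R U b0 T X a b) 0 :=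
  (diff_eT H.F differentiableOn_id (differentiableOn_const _) fun _ ha => ⟨ha, hb⟩).differentiableAt
    h.ev

section cut

variable (hT : R + 2 ≤ T) (hE : El.Exp (eT R U b0 T) (Ub R ε b0) c z0 z1 z2 A)
include hT hE

theorem vI_eq (hb : b ∈ Ub R ε b0) (hq : q.1 ∈ Icc R T) :
    Tendsto (fun X => vv R U b0 X 0 b q) atTop (𝓝 (vL _ R T 0 q (z0 b))) :=
  (((vL _ R T 0 q).continuous.tendsto _).comp (hE.t0 b hb)).congr'
    ((ev_lc (R := R) (K := K) H.F.c_pos hT).mono fun _ h => fk_eT h.cut 0 hq)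

theorem V_eq (hq : q.1 ∈ Icc R T) : V q = fk (tX R T) (z0 0) 0 q :=
  tendsto_nhds_unique (H.lim q hq.1) (H.vI_eq hT hE H.mem0 hq)

theorem d0 : DifferentiableAt ℂ z0 0 := hE.d0.differentiableAt H.ub

theorem dP_eq (β : Wi (omP 2)) (hq : q.1 ∈ Icc R T) :
    dP R U b0 β q = fk (tX R T) (fderiv ℂ z0 0 β) 0 q := by
  have h := ((vL _ R T 0 q).hasFDerivAt.comp 0 (H.d0 hT hE).hasFDerivAt).congr_of_eventuallyEq
    (f₁ := fun b => vI R U b0 b q) (mem_of_superset H.ub fun b hb => (H.vI_eq hT hE hb hq).limUnder_eq)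
  rw [dP, h.fderiv]; rfl

theorem dJ_lim (hq : q.1 ∈ Icc R T) : Tendsto (fun X => deriv (fun a => vv R U b0 X a 0 q) 0) atTop
    (𝓝 (fk (tX R T) (z1 0) 0 q)) := by
  refine (((vL _ R T 0 q).continuous.tendsto _).comp (hE.t1 0 H.mem0)).congr'
    ((ev_lc (R := R) (K := K) H.F.c_pos hT).mono fun X h => ?_)
  have := ((vL _ R T 0 q).hasFDerivAt.comp_hasDerivAt 0 (H.diff_a h H.mem0).hasDerivAt).deriv
  refine this.symm.trans ?_
  congr 1
  funext a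
  exact fk_eT h.cut 0 hq

theorem dJ_eq (hq : q.1 ∈ Icc R T) : dJ R U b0 q = fk (tX R T) (z1 0) 0 q :=
  (H.dJ_lim hT hE hq).limUnder_eq

theorem jet_z0 (hb : b ∈ Ub R ε b0) : IsJet (dgam R T) (z0 b) :=
  isJet_lim ((ev_lc (R := R) (K := K) H.F.c_pos hT).mono fun _ h => H.jet_eT h h.ev.self_of_nhds hb)
    (hE.t0 b hb)

theorem jet_zP (β : Wi (omP 2)) : IsJet (dgam R T) (fderiv ℂ z0 0 β) := by
  have h1 : HasDerivAt (fun t : ℂ => t • β) β 0 := by simpa using (hasDerivAt_id (0 : ℂ)).smul_const β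
  refine isJet_deriv (J := fun t : ℂ => z0 (t • β)) ?_
    ((H.d0 hT hE).hasFDerivAt.comp_hasDerivAt_of_eq 0 h1 (by simp))
  exact (h1.continuousAt.eventually_mem (by simpa using H.ub)).mono fun t ht => H.jet_z0 hT hE ht

theorem jet_z1 : IsJet (dgam R T) (z1 0) :=
  isJet_lim ((ev_lc (R := R) (K := K) H.F.c_pos hT).mono fun _ h => isJet_deriv
    (h.ev.mono fun _ ha => H.jet_eT h ha H.mem0) (H.diff_a h H.mem0).hasDerivAt) (hE.t1 0 H.mem0)

theorem jet_V (hq : q.1 ∈ Ioo R T) : jet V q = evJ _ (tX R T q.1) q.2 (z0 0) :=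
  jet_tX hT (H.jet_z0 hT hE H.mem0) hq fun _ hy => H.V_eq hT hE hy

theorem jet_dP (β : Wi (omP 2)) (hq : q.1 ∈ Ioo R T) :
    jet (dP R U b0 β) q = evJ _ (tX R T q.1) q.2 (fderiv ℂ z0 0 β) :=
  jet_tX hT (H.jet_zP hT hE β) hq fun _ hy => H.dP_eq hT hE β hy

theorem jet_dJ (hq : q.1 ∈ Ioo R T) : jet (dJ R U b0) q = evJ _ (tX R T q.1) q.2 (z1 0) :=
  jet_tX hT (H.jet_z1 hT hE) hq fun _ hy => H.dJ_eq hT hE hy

end cut

section link

variable {G : Type*} [NormedAddCommGroup G] [NormedSpace ℂ G] {Ψ : (Fin 6 → ℂ) → G}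

theorem jet_lim (hq : R < q.1) :
    Tendsto (fun X => jet (vv R U b0 X 0 0) q) atTop (𝓝 (jet V q)) := by
  have hT : R + 2 ≤ q.1 + 2 := by linarith
  have hq' : q.1 ∈ Ioo R (q.1 + 2) := ⟨hq, by linarith⟩
  obtain ⟨z0, z1, z2, A, hE⟩ := exp (b0 := b0) H.F hT
  rw [H.jet_V hT hE hq']
  exact (((evJ _ _ _).continuous.tendsto _).comp (hE.t0 0 H.mem0)).congr'
    ((ev_lc (R := R) (K := K) H.F.c_pos hT).mono fun _ h => (H.jet_vv h h.ev.self_of_nhds H.mem0 hq').symm)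

/-- limits of functions of the 2-jet, derivative in the datum -/
theorem lP (hq : R < q.1) (hΨ : ContDiffAt ℂ 1 Ψ (jet V q)) {φ : Wi (omP 2) → G}
    (hφ : ∀ᶠ b in 𝓝 0, Tendsto (fun X => Ψ (jet (vv R U b0 X 0 b) q)) atTop (𝓝 (φ b)))
    (β : Wi (omP 2)) : fderiv ℂ φ 0 β = fderiv ℂ Ψ (jet V q) (jet (dP R U b0 β) q) := by
  have hT : R + 2 ≤ q.1 + 2 := by linarith
  have hq' : q.1 ∈ Ioo R (q.1 + 2) := ⟨hq, by linarith⟩
  obtain ⟨z0, z1, z2, A, hE⟩ := exp (b0 := b0) H.F hT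
  set L := evJ (hf ℓ) (tX R (q.1 + 2) q.1) q.2
  have hd := L.hasFDerivAt.comp 0 (H.d0 hT hE).hasFDerivAt
  rw [H.jet_V hT hE hq'] at hΨ ⊢
  have := lkP (z := fun X b => jet (vv R U b0 X 0 b) q) (z0 := L ∘ z0) (mem_of_superset H.ub
    fun b hb => ((L.continuous.tendsto _).comp (hE.t0 b hb)).congr' ((ev_lc (R := R) (K := K) H.F.c_pos
      hT).mono fun _ h => (H.jet_vv h h.ev.self_of_nhds hb hq').symm)) hd.differentiableAt hΨ hφ
  rw [this.fderiv, hd.fderiv, H.jet_dP hT hE β hq']; rfl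

/-- the same for the far parameter -/
theorem lJ (hq : R < q.1) (hΨ : ContDiffAt ℂ 1 Ψ (jet V q)) :
    Tendsto (fun X => deriv (fun a => Ψ (jet (vv R U b0 X a 0) q)) 0) atTop
      (𝓝 (fderiv ℂ Ψ (jet V q) (jet (dJ R U b0) q))) := by
  have hT : R + 2 ≤ q.1 + 2 := by linarith
  have hq' : q.1 ∈ Ioo R (q.1 + 2) := ⟨hq, by linarith⟩
  obtain ⟨z0, z1, z2, A, hE⟩ := exp (b0 := b0) H.F hT
  set L := evJ (hf ℓ) (tX R (q.1 + 2) q.1) q.2
  have k : ∀ᶠ X in atTop, HasDerivAt (fun a => jet (vv R U b0 X a 0) q)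
      (L (deriv (fun a => eT R U b0 (q.1 + 2) X a 0) 0)) 0 :=
    (ev_lc (R := R) (K := K) H.F.c_pos hT).mono fun X h =>
      (L.hasFDerivAt.comp_hasDerivAt 0 (H.diff_a h H.mem0).hasDerivAt).congr_of_eventuallyEq
        (h.ev.mono fun a ha => H.jet_vv h ha H.mem0 hq')
  refine lkJ (k.mono fun _ h => h.differentiableAt) (H.jet_lim hq) ?_ hΨ
  rw [H.jet_dJ hT hE hq']
  exact ((L.continuous.tendsto _).comp (hE.t1 0 H.mem0)).congr' (k.mono fun _ h => h.deriv.symm)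

end link

theorem jet_vk (h : Lc R K c T X) (ha : Ez R K c X a) (hb : b ∈ Ub R ε b0) (hq : q.1 ∈ Ioo R T)
    (i : Fin 6) : jet (vv R U b0 X a b) q i =
      vj R X a (U (zb b0 X a b)) (tX R X q.1) q.2 (pm i) := by
  rw [H.jet_vv h ha hb hq]
  exact fk_eT h.cut (pm i) (Ioo_subset_Icc_self hq)

theorem el_vv (h : Lc R K c T X) (ha : Ez R K c X a) (hb : b ∈ Ub R ε b0) (hq : q.1 ∈ Ioo R T) :
    ELj q.1 (jet (vv R U b0 X a b) q) = 0 :=
  (H.F.isEnd.sol _ (ha.dom H.F hb)).eq_d (rd_real h.cut.lo')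
    (Icc_mem_nhds hq.1 (hq.2.trans_le h.cut.le)) rfl

theorem nd (hq : R < q.1) : Nd (jet V q) ∧ 0 < (V q).re := by
  have hT : R + 2 ≤ q.1 + 2 := by linarith
  have hq' : q.1 ∈ Ioo R (q.1 + 2) := ⟨hq, by linarith⟩
  have hl := fun i => (continuous_apply i).continuousAt.tendsto.comp (H.jet_lim hq)
  have k : ∀ᶠ X in atTop, 7 / 8 ≤ (jet (vv R U b0 X 0 0) q 0).re ∧
      ‖QQj (jet (vv R U b0 X 0 0) q) - 2‖ ≤ 3 / 4 + 1 / 100 ∧
      3 ≤ ‖4 * jet (vv R U b0 X 0 0) q 0 ^ 2 + jet (vv R U b0 X 0 0) q 2 ^ 2‖ := by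
    filter_upwards [ev_lc (R := R) (K := K) H.F.c_pos hT] with X h
    have S := H.F.sl (h.ev.self_of_nhds.dom H.F H.mem0)
    have h1 := Rg.reg_q H.F.sz.ex H.F.sz.hR H.F.sz.hK H.F.sz.he S.dom (Rg.IsJet.co3 S.sol.jet) S.inb
      (tX R X q.1) q.2
    have h2 := (S.lower H.F.sz (tX R X q.1) q.2).2
    simp only [QQj, H.jet_vk h h.ev.self_of_nhds H.mem0 hq']
    simpa [zb, et, pm] using And.intro h1.1 (And.intro h1.2 h2)
  have h0 : 7 / 8 ≤ (jet V q 0).re :=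
    ge_of_tendsto (continuous_re.continuousAt.tendsto.comp (hl 0)) (k.mono fun _ h => h.1)
  have h1 : jet V q 0 ≠ 0 := fun e => by rw [e, zero_re] at h0; linarith
  refine ⟨⟨h1, fun e => ?_, fun e => ?_⟩, lt_of_lt_of_le (by norm_num) h0⟩
  · have := le_of_tendsto (((diff_QQj h1).continuousAt.tendsto.comp (H.jet_lim hq)).sub_const 2).norm
      (k.mono fun _ h => h.2.1)
    rw [e] at this; norm_num at this
  · have := ge_of_tendsto ((((hl 0).pow 2).const_mul 4).add ((hl 2).pow 2)).norm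
      (k.mono fun _ h => h.2.2)
    rw [e] at this; norm_num at this

theorem lin_dP (β : Wi (omP 2)) (hq : R < q.1) : linEL V (dP R U b0 β) q = 0 := by
  have := H.lP hq (cd_ELj' q.1 (H.nd hq).1) (φ := fun _ => 0) (mem_of_superset H.ub fun b hb =>
    tendsto_const_nhds.congr' ((ev_lc (R := R) (K := K) (T := q.1 + 2) H.F.c_pos (by linarith)).mono
      fun _ h => (H.el_vv h h.ev.self_of_nhds hb ⟨hq, by linarith⟩).symm)) β
  rw [linEL, ← this]; simp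

theorem lin_dJ (hq : R < q.1) : linEL V (dJ R U b0) q = 0 := by
  refine tendsto_nhds_unique (H.lJ hq (cd_ELj' q.1 (H.nd hq).1)) (tendsto_const_nhds.congr'
    ((ev_lc (R := R) (K := K) (T := q.1 + 2) H.F.c_pos (by linarith)).mono fun X h => ?_))
  exact ((hasDerivAt_const (0 : ℂ) (0 : ℂ)).congr_of_eventuallyEq
    (h.ev.mono fun a ha => H.el_vv h ha H.mem0 ⟨hq, by linarith⟩)).deriv.symm

theorem hl2 (m : ℤ) : c0 / 2 * |(m : ℝ)| ≤ (hf ℓ).l m := by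
  have := H.F.hl m
  change _ ≤ ℓ.l m / 2
  linarith

theorem reg_dP (β : Wi (omP 2)) : ContDiffOn ℝ ∞ (dP R U b0 β) (Ioi R ×ˢ univ) ∧
    ContDiffOn ℝ 2 (dP R U b0 β) (Ici R ×ˢ univ) :=
  reg_of (half_pos H.F.c0_pos) H.hl2 H.sm (fun _ hq => (H.nd hq).1) (fun _ hq => H.lin_dP β hq)
    fun T hT => by
      obtain ⟨z0, z1, z2, A, hE⟩ := exp (b0 := b0) H.F hT
      exact ⟨_, H.jet_zP hT hE β, fun y hy => H.dP_eq hT hE β hy⟩

theorem reg_dJ : ContDiffOn ℝ ∞ (dJ R U b0) (Ioi R ×ˢ univ) ∧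
    ContDiffOn ℝ 2 (dJ R U b0) (Ici R ×ˢ univ) :=
  reg_of (half_pos H.F.c0_pos) H.hl2 H.sm (fun _ hq => (H.nd hq).1) (fun _ hq => H.lin_dJ hq)
    fun T hT => by
      obtain ⟨z0, z1, z2, A, hE⟩ := exp (b0 := b0) H.F hT
      exact ⟨_, H.jet_z1 hT hE, fun y hy => H.dJ_eq hT hE hy⟩

/-! ### modes at `x = R` -/

/-- the mode `m` at `x = R` -/
def mL (ℓ : Ell) (m : ℤ) : Jt ℓ →L[ℂ] ℂ :=
  ((ContinuousMap.evalCLM ℂ i0).comp (Wi.coL (om ℓ) m)).comp (ContinuousLinearMap.proj 0)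

omit H in
theorem bc_vv (h : Cut2 R T X) (m : ℤ) :
    Lg.bc R (vv R U b0 X a b) m = mL _ m (eT R U b0 T X a b) :=
  (bc_congr (fun θ => (fk_eT (y := (R, θ)) h 0 ⟨le_rfl, by linarith [h.lo]⟩).symm) m).trans
    (fc_fk h.lo _ m)

theorem mP (m : ℤ) {φ : Wi (omP 2) → ℂ} {g : ℂ}
    (hφ : ∀ᶠ b in 𝓝 0, Tendsto (fun X => Lg.bc R (vv R U b0 X 0 b) m - g) atTop (𝓝 (φ b)))
    (β : Wi (omP 2)) : fderiv ℂ φ 0 β = Lg.bc R (dP R U b0 β) m := by
  obtain ⟨z0, z1, z2, A, hE⟩ := exp (b0 := b0) H.F (T := R + 2) le_rfl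
  have hd := (((mL _ m).hasFDerivAt.comp 0 (H.d0 le_rfl hE).hasFDerivAt).sub_const
    g).congr_of_eventuallyEq (f₁ := φ) (by
      filter_upwards [hφ, H.ub] with b h1 hb
      exact tendsto_nhds_unique h1 (((((mL _ m).continuous.tendsto _).comp (hE.t0 b hb)).congr'
        ((ev_lc (R := R) (K := K) H.F.c_pos le_rfl).mono fun _ h => (bc_vv h.cut m).symm)).sub_const g))
  rw [hd.fderiv, bc_congr (fun θ => H.dP_eq le_rfl hE β (q := (R, θ)) ⟨le_rfl, by linarith⟩),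
    fc_fk le_rfl]
  rfl

theorem mJ (m : ℤ) (g : ℂ) : Tendsto (fun X => deriv (fun a => Lg.bc R (vv R U b0 X a 0) m - g) 0)
    atTop (𝓝 (Lg.bc R (dJ R U b0) m)) := by
  obtain ⟨z0, z1, z2, A, hE⟩ := exp (b0 := b0) H.F (T := R + 2) le_rfl
  rw [bc_congr (fun θ => H.dJ_eq le_rfl hE (q := (R, θ)) ⟨le_rfl, by linarith⟩), fc_fk le_rfl]
  refine (((mL _ m).continuous.tendsto _).comp (hE.t1 0 H.mem0)).congr'
    ((ev_lc (R := R) (K := K) H.F.c_pos le_rfl).mono fun X h => ?_)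
  have := (((mL _ m).hasFDerivAt.comp_hasDerivAt 0 (H.diff_a h H.mem0).hasDerivAt).sub_const g).deriv
  refine this.symm.trans ?_
  congr 1
  funext a
  rw [bc_vv h.cut]; rfl

theorem bc_in (h : Lc R K c T X) (ha : Ez R K c X a) (hb : b ∈ Ub R ε b0) {m : ℤ} (hm : 2 ≤ |m|) :
    Lg.bc R (vv R U b0 X a b) m - Wi.co b0 m = Wi.co b m := by
  have h1 := (H.F.isEnd.sol _ (ha.dom H.F hb)).bc.inner m hm
  have h2 : mL _ m (eT R U b0 T X a b) = Wi.co (vJ R X a (U (zb b0 X a b)) 0) m i0 := by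
    change Wi.co (eT R U b0 T X a b 0) m i0 = _
    rw [eT, co_rs h.cut, h.cut.phi_i0]
  have h0 : m ≠ 0 := by rintro rfl; simp at hm
  have h3 : Wi.co (vJ R X a (U (zb b0 X a b)) 0) m = Wi.co (U (zb b0 X a b) 0) m := by
    rw [vJ, Pi.add_apply, Wi.co_add]
    exact add_eq_left.2 ((Wi.co_cst _ m).trans (if_neg h0))
  rw [bc_vv h.cut, h2, h3, h1]
  simp [zb, wd]

theorem norm_dP (β : Wi (omP 2)) : ∃ M, ∀ q : ℝ × ℝ, R ≤ q.1 → ‖dP R U b0 β q‖ ≤ M := by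
  obtain ⟨r, hr, hs⟩ := Metric.mem_nhds_iff.1 H.ub
  refine ⟨2 * (1 + 6 * ε1) / r * ‖β‖, fun q hq => ?_⟩
  have hT : R + 2 ≤ q.1 + 2 := by linarith
  have hq' : q.1 ∈ Icc R (q.1 + 2) := ⟨hq, by linarith⟩
  obtain ⟨z0, z1, z2, A, hE⟩ := exp (b0 := b0) H.F hT
  have e := fun b hb => H.vI_eq hT hE (b := b) (hs hb) hq'
  refine (ContinuousLinearMap.le_opNorm _ _).trans (mul_le_mul_of_nonneg_right (N250.H.fd_le hr
    ((((vL _ R _ 0 q).differentiable.comp_differentiableOn hE.d0).mono hs).congr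
      fun b hb => (e b hb).limUnder_eq) fun b hb => ?_) (norm_nonneg _))
  rw [vI, (e b hb).limUnder_eq]
  refine le_of_tendsto (e b hb).norm ((ev_lc (R := R) (K := K) H.F.c_pos hT).mono fun X h => ?_)
  have h1 := (norm_val_le _ (tX R X q.1) q.2).trans
    ((norm_le_pi_norm _ 0).trans (h.ev.self_of_nhds.norm_U H.F (hs hb)))
  have h2 : vv R U b0 X 0 b q = 1 + val (U (zb b0 X 0 b) 0) (tX R X q.1) q.2 := by
    simp [vv, vX, vk, vj, et]
  rw [h2]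
  exact norm_add_le_of_le norm_one.le h1

/-- **(J1)** -/
theorem j1 (β : Wi (omP 2)) : Lg.J1 V R β (dP R U b0 β) := by
  obtain ⟨M, hM⟩ := H.norm_dP β
  refine ⟨⟨(H.reg_dP β).1, (H.reg_dP β).2.of_le (by norm_num), dP_per β, fun _ hq => H.lin_dP β hq,
    M, 0, fun q hq => by simpa using hM q hq.le⟩, fun t ht => ⟨max R (M / t), fun q hq => ?_⟩,
    fun m hm => ?_⟩
  · refine (hM q ((le_max_left _ _).trans hq)).trans ?_
    have := (le_max_right _ _).trans hq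
    rwa [div_le_iff₀' ht] at this
  · rw [← H.mP m (φ := Wi.coL _ m) (g := Wi.co b0 m) (mem_of_superset H.ub fun b hb =>
      tendsto_const_nhds.congr' ((ev_lc (R := R) (K := K) H.F.c_pos le_rfl).mono fun _ h =>
        (H.bc_in h h.ev.self_of_nhds hb hm).symm)) β, ContinuousLinearMap.fderiv]
    rfl

/-- **(J2)** -/
theorem j2 : Lg.J2 V R (dJ R U b0) := by
  obtain ⟨h1, h2⟩ := El.lim_a H.F (b := b0 + 0) (d := dJ R U b0)
    (by rw [add_zero]; linarith [H.hb, H.F.ε_pos]) fun q hq => by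
      have hT : R + 2 ≤ q.1 + 2 := by linarith
      have hq' : q.1 ∈ Icc R (q.1 + 2) := ⟨hq.le, by linarith⟩
      obtain ⟨z0, z1, z2, A, hE⟩ := exp (b0 := b0) H.F hT
      rw [H.dJ_eq hT hE hq']
      exact H.dJ_lim hT hE hq'
  refine ⟨⟨H.reg_dJ.1, H.reg_dJ.2.of_le (by norm_num), dJ_per, fun _ hq => H.lin_dJ hq, h1⟩, h2,
    fun m hm => tendsto_nhds_unique (H.mJ m (Wi.co b0 m)) (tendsto_const_nhds.congr'
      ((ev_lc (R := R) (K := K) H.F.c_pos le_rfl).mono fun X h => ?_))⟩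
  exact ((hasDerivAt_const (0 : ℂ) (Wi.co (0 : Wi (omP 2)) m)).congr_of_eventuallyEq
    (h.ev.mono fun a ha => H.bc_in h ha H.mem0 hm)).deriv.symm

section W

variable {W : Type*} [NormedAddCommGroup W] [NormedSpace ℂ W] {e0 : ℝ → ℂ → Wi (omP 2) → W}
  {c' : ℝ} {w0 w1 w2 : Wi (omP 2) → W} (hE : El.Exp e0 (Ub R ε b0) c' w0 w1 w2 A) (L : W →L[ℂ] ℂ)
  {f : (ℝ × ℝ → ℂ) → ℂ}
  (h : ∀ (X : ℝ) a b, Ez R K c X a → b ∈ Ub R ε b0 → L (e0 X a b) = f (vv R U b0 X a b))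
include hE h

theorem lim_W : ∀ᶠ b in 𝓝 0, Tendsto (fun X => f (vv R U b0 X 0 b)) atTop (𝓝 (L (w0 b))) :=
  mem_of_superset H.ub fun b hb => ((L.continuous.tendsto _).comp (hE.t0 b hb)).congr'
    ((ev_lc (R := R) (K := K) H.F.c_pos le_rfl).mono fun X k => h X 0 b k.ev.self_of_nhds hb)

theorem fd_W (β : Wi (omP 2)) : L (fderiv ℂ w0 0 β) = fderiv ℂ (fun b => L (w0 b)) 0 β := by
  exact (congrArg (· β) (L.hasFDerivAt.comp 0 (hE.d0.differentiableAt H.ub).hasFDerivAt).fderiv).symm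

theorem der_W (hd : ∀ᶠ X : ℝ in atTop, DifferentiableAt ℂ (fun a => e0 X a 0) 0) :
    Tendsto (fun X => deriv (fun a => f (vv R U b0 X a 0)) 0) atTop (𝓝 (L (w1 0))) := by
  refine ((L.continuous.tendsto _).comp (hE.t1 0 H.mem0)).congr' ?_
  filter_upwards [hd, ev_lc (R := R) (K := K) H.F.c_pos le_rfl] with X k1 k2
  exact ((L.hasFDerivAt.comp_hasDerivAt 0 k1.hasDerivAt).congr_of_eventuallyEq
    (k2.ev.mono fun a ha => (h X a 0 ha H.mem0).symm)).deriv.symm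

end W

section W

variable {W : Type*} [NormedAddCommGroup W] [NormedSpace ℂ W] {e0 : ℝ → ℂ → Wi (omP 2) → W}
  {c' : ℝ} {w0 w1 w2 : Wi (omP 2) → W} (hE : El.Exp e0 (Ub R ε b0) c' w0 w1 w2 A) (L : W →L[ℂ] ℂ)
include hE

theorem linkP {Ψ : (Fin 6 → ℂ) → ℂ} (hq : R < q.1) (hΨ : ContDiffAt ℂ 1 Ψ (jet V q))
    (h : ∀ (X : ℝ) a b, Ez R K c X a → b ∈ Ub R ε b0 → L (e0 X a b) = Ψ (jet (vv R U b0 X a b) q))
    (β : Wi (omP 2)) : L (fderiv ℂ w0 0 β) = fderiv ℂ Ψ (jet V q) (jet (dP R U b0 β) q) :=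
  (H.fd_W hE L (f := fun v => Ψ (jet v q)) h β).trans (H.lP hq hΨ (H.lim_W hE L (f := fun v => Ψ (jet v q)) h) β)

theorem linkJ {Ψ : (Fin 6 → ℂ) → ℂ} (hq : R < q.1) (hΨ : ContDiffAt ℂ 1 Ψ (jet V q))
    (h : ∀ (X : ℝ) a b, Ez R K c X a → b ∈ Ub R ε b0 → L (e0 X a b) = Ψ (jet (vv R U b0 X a b) q))
    (hd : ∀ᶠ X : ℝ in atTop, DifferentiableAt ℂ (fun a => e0 X a 0) 0) :
    L (w1 0) = fderiv ℂ Ψ (jet V q) (jet (dJ R U b0) q) :=
  tendsto_nhds_unique (H.der_W hE L (f := fun v => Ψ (jet v q)) h hd) (H.lJ hq hΨ)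

theorem modeP {m : ℤ} {g : ℂ}
    (h : ∀ (X : ℝ) a b, Ez R K c X a → b ∈ Ub R ε b0 → L (e0 X a b) = Lg.bc R (vv R U b0 X a b) m - g)
    (β : Wi (omP 2)) : L (fderiv ℂ w0 0 β) = Lg.bc R (dP R U b0 β) m :=
  (H.fd_W hE L (f := fun v => Lg.bc R v m - g) h β).trans
    (H.mP m (H.lim_W hE L (f := fun v => Lg.bc R v m - g) h) β)

theorem modeJ {m : ℤ} {g : ℂ}
    (h : ∀ (X : ℝ) a b, Ez R K c X a → b ∈ Ub R ε b0 → L (e0 X a b) = Lg.bc R (vv R U b0 X a b) m - g)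
    (hd : ∀ᶠ X : ℝ in atTop, DifferentiableAt ℂ (fun a => e0 X a 0) 0) :
    L (w1 0) = Lg.bc R (dJ R U b0) m :=
  tendsto_nhds_unique (H.der_W hE L (f := fun v => Lg.bc R v m - g) h hd) (H.mJ m g)

end W

end Se

end Crest.Agent.N250.Jc

end
end

-- ▼ part N250/R0/LJac

/-!
# Row 250 (helper77): the derivative of the limit end map consists of Jacobi fields
-/

set_option autoImplicit false
open Set Filter Topology
open scoped ContDiff
open Crest.GeometryTopology.MCF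

noncomputable section

namespace Crest.Agent.N250.R0

namespace Jl

open WS Wr B1 EC Po Lp

/-- the derivative of a family of quadratic expansions -/
theorem fd_link {ι B W : Type} [Fintype ι] [NormedAddCommGroup B] [NormedSpace ℂ B]
    [NormedAddCommGroup W] [NormedSpace ℂ W] {En : (ι → ℂ) × (ι → B) → ι → W}
    (hE : DifferentiableAt ℂ En 0) {j : ι} {c0 c1 c2 : B → W} (h0 : DifferentiableAt ℂ c0 0)
    (h1 : DifferentiableAt ℂ c1 0) (h2 : DifferentiableAt ℂ c2 0)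
    (e : ∀ a b, En (a, b) j = c0 (b j) + a j • c1 (b j) + a j ^ 2 • c2 (b j)) (a : ι → ℂ)
    (b : ι → B) : fderiv ℂ En 0 (a, b) j = fderiv ℂ c0 0 (b j) + a j • c1 0 := by
  have l : ∀ {V : Type} [NormedAddCommGroup V] [NormedSpace ℂ V] (v : V),
      HasDerivAt (fun t : ℂ => t • v) v 0 := fun v => by
    simpa using (hasDerivAt_id (0 : ℂ)).smul_const v
  have c : ∀ {V V' : Type} [NormedAddCommGroup V] [NormedSpace ℂ V] [NormedAddCommGroup V']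
      [NormedSpace ℂ V'] {f : V → V'} (_ : DifferentiableAt ℂ f 0) (v : V),
      HasDerivAt (fun t : ℂ => f (t • v)) (fderiv ℂ f 0 v) 0 := fun hf v =>
    hf.hasFDerivAt.comp_hasDerivAt_of_eq 0 (l v) (zero_smul _ _).symm
  have k1 := hasDerivAt_pi.1 (c hE (a, b)) j
  have k2 := ((c h0 (b j)).add ((l (a j)).smul (c h1 (b j)))).add
    (((l (a j)).pow 2).smul (c h2 (b j)))
  have k3 := k1.unique (k2.congr_of_eventuallyEq (.of_forall fun t => e (t • a) (t • b)))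
  simpa using k3

variable {S : Mv} (T : St S) (j : Fin T.p)

/-- the strip -/
abbrev I0 : Set ℝ := Ioo (T.R + 1 / 40) (T.R + 1)

theorem sub0 : I0 T ⊆ Ioi T.e.R := fun _ h => (T.eR_lt (a := 1 / 40) (by norm_num)).trans h.1

theorem zn : Zn T.G (T.e.Q j) (I0 T) (T.Kκ j) :=
  zn_Kc (T.eR_lt (by norm_num)) isOpen_Ioo fun _ h => ⟨by linarith [h.1], by linarith [h.2]⟩

/-- the operator behind `sE` and `sL` -/
def sO (g : ℝ × ℝ → ℂ) : T.G.SmC :=
  T.G.oR T.G.ρ * (T.G.SC.LL (T.G.oR T.χ * lift T.G (T.e.Q j) (T.G.oR (T.κ j)) g) -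
    T.G.oR T.χ' * T.G.SC.LL (lift T.G (T.e.Q j) (T.G.oR (T.κ j)) g))

theorem op_sO : Op T.G (T.e.Q j) (I0 T) (T.Kκ j) 2 (sO T j) :=
  have Z := zn T j
  have l : Op T.G (T.e.Q j) (I0 T) (T.Kκ j) 0 _ := Op.lift (T.sp_κ j)
  (((l.mul Z _).LL Z).sub Z ((l.LL Z).mul Z _)).mul Z _

theorem op_nu : Op T.G (T.e.Q j) (I0 T) (T.Kκ j) 2 fun g => sO T j fun y => g y * T.nu j y := by
  have Z := zn T j
  have hν := T.ok_nu (j := j) (sub0 T)
  have l : Op T.G (T.e.Q j) (I0 T) (T.Kκ j) 0 fun g =>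
      lift T.G (T.e.Q j) (T.G.oR (T.κ j)) fun y => g y * T.nu j y :=
    (Op.lift ((T.sp_κ j).lift (T.nu j))).congr fun g hg => T.G.extC fun p => by
      rw [Z.lift_apply (T.sp_κ j) (hg.mul hν), Z.lift_apply ((T.sp_κ j).lift _) hg,
        Z.lift_apply (T.sp_κ j) hν]
      ring
  exact (((l.mul Z _).LL Z).sub Z ((l.LL Z).mul Z _)).mul Z _

/-- `sE` at a point is a `C¹` function of a 2-jet on the strip, with derivative `sL` -/
theorem psi (p : S.sl 0) : ∃ (q : ℝ × ℝ) (Ψ : (Fin 6 → ℂ) → ℂ), q.1 ∈ I0 T ∧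
    ContDiffAt ℂ 1 Ψ (jet (T.vS j) q) ∧
    (∀ v, Ok (I0 T) v → (∀ y : ℝ × ℝ, y.1 ∈ I0 T → 0 < (v y).re) → (T.sE j v).1 p = Ψ (jet v q)) ∧
    ∀ d, Ok (I0 T) d → fderiv ℂ Ψ (jet (T.vS j) q) (jet d q) = (T.sL j d).1 p := by
  have hr := T.ok_rS (j := j) (sub0 T)
  have hν := T.ok_nu (j := j) (sub0 T)
  by_cases hp : p ∈ T.Kκ j
  · obtain ⟨Ψ, h1, h2, h3⟩ := exists_psi (zn T j) (op_sO T j) hr
      (fun _ hy => T.r_pos (sub0 T hy)) hν p
    have hq := (zn T j).mem p hp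
    exact ⟨_, Ψ, hq, h1 _ (re_vS (T.r_pos (sub0 T hq))), h2, h3⟩
  · refine ⟨(T.R + 1 / 2, 0), fun _ => 0, ⟨by norm_num, by norm_num⟩, contDiffAt_const,
      fun v hv h => (op_sO T j).sp (((ok_sq2 isOpen_Ioo hv h).sub hr).mul hν) p hp, fun d hd => ?_⟩
    refine Eq.trans (by simp) ((op_sO T j).sp
      ((ok_div isOpen_Ioo hd hr fun _ hy => T.rS_ne (sub0 T hy)).mul hν) p hp).symm

theorem ok_jac {d : ℝ × ℝ → ℂ} {v : ℝ × ℝ → ℂ} (h : Lg.Jac v T.R d) : Ok (I0 T) d :=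
  ⟨h.sm.mono fun _ hy => ⟨by have := hy.1.1; simp only [mem_Ioi]; linarith, trivial⟩, h.per⟩

variable {T} {Ch c CD C c0 : ℝ} (F : Em.Fm T.U T.R T.k.K1 T.k.ε T.k.ε1 T.k.C Ch c CD C c0)
include F

/-- the end maps are readings of the family -/
theorem rd : Sg fun σ => ∀ j, (∀ z ∈ T.Dm, σ.val (T.eV σ j (T.vU z)).1 = T.sE j (T.vU z)) ∧
    Em.RD T.U T.R T.k.K1 T.k.ε fun z => T.eV σ j (T.vU z) := by
  have h := fun j => F.ra (a := T.R + 1 / 40) (b := T.R + 1) (by linarith) (by linarith) le_rfl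
    (Em.rf_of (T.ok_rS (j := j) subset_rfl) isOpen_Ioi fun _ h =>
      (T.eR_lt (a := 1 / 40) (by norm_num)).trans_le h.1) (zn T j) (op_nu T j) (T.compact_Kκ j)
  filter_upwards [eventually_all.2 h] with e h σ hσ j
  obtain ⟨M, A, k⟩ := h j σ hσ
  exact ⟨k.val, Em.RD.prod ⟨M, A, k.rdg⟩ (Em.RD.pi fun i =>
    F.rd_fc ⟨le_rfl, by linarith⟩ (T.pd_vS T.eR_lt_R).cd.continuous _)⟩

theorem cut {X : ℝ} {a : ℂ} (h : Jc.Ez T.R T.k.K1 c X a) : T.R + 2 ≤ X := by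
  linarith [h.h1, F.sz.hR]

theorem val_e1 {σ : Scale T.G} (h : ∀ z ∈ T.Dm, σ.val (T.eV σ j (T.vU z)).1 = T.sE j (T.vU z))
    {p : S.sl 0} {q : ℝ × ℝ} {Ψ : (Fin 6 → ℂ) → ℂ} (hq : q.1 ∈ I0 T)
    (k : ∀ v, Ok (I0 T) v → (∀ y : ℝ × ℝ, y.1 ∈ I0 T → 0 < (v y).re) → (T.sE j v).1 p = Ψ (jet v q))
    (X : ℝ) (a : ℂ) (b : Wi (omP 2)) (ha : Jc.Ez T.R T.k.K1 c X a)
    (hb : b ∈ Em.Ub T.R T.k.ε (T.b0 j)) :
    (σ.evL p ∘L ContinuousLinearMap.fst ℂ σ.AA (Fin 3 → ℂ)) (T.e1 σ j X a 0 b) =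
      Ψ (jet (Jc.vv T.R T.U (T.b0 j) X a b) q) := by
  have hz : T.zz j X a 0 b ∈ T.Dm := ha.dom F hb
  have e : jet (Jc.vv T.R T.U (T.b0 j) X a b) q = jet (T.vU (T.zz j X a 0 b)) q :=
    jet_congr (((isOpen_Ioo.preimage continuous_fst).eventually_mem hq).mono fun y hy =>
      vX_strip (cut F ha) (le_of_lt hy.2))
  rw [e, ← k (T.vU (T.zz j X a 0 b)) ⟨(F.strip (by linarith) le_rfl).1.contDiffOn hz,
    fun _ _ => vS_per ..⟩ fun y hy => lt_of_lt_of_le (by norm_num) (F.re_vS hz ⟨by linarith [hy.1], hy.2.le⟩), ← h _ hz]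
  rfl

theorem mode_e1 (σ : Scale T.G) (i : Fin 3) (X : ℝ) (a : ℂ) (b : Wi (omP 2))
    (ha : Jc.Ez T.R T.k.K1 c X a) (_ : b ∈ Em.Ub T.R T.k.ε (T.b0 j)) :
    (ContinuousLinearMap.proj i ∘L ContinuousLinearMap.snd ℂ σ.AA (Fin 3 → ℂ))
      (T.e1 σ j X a 0 b) = Lg.bc T.R (Jc.vv T.R T.U (T.b0 j) X a b) ((i : ℤ) - 1) -
        Ra.fc (fun θ => T.vS j (T.R, θ)) ((i : ℤ) - 1) := by
  have e : ∀ θ, Jc.vv T.R T.U (T.b0 j) X a b (T.R, θ) = T.vU (T.zz j X a 0 b) (T.R, θ) := fun θ =>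
    vX_strip (cut F ha) (by simp)
  simp only [Lg.bc, e]
  exact Ra.fc_sub (Em.cont_vS _ _ ⟨le_rfl, by linarith⟩) (T.pd_vS T.eR_lt_R).cd.continuous _

theorem diff_e1 {σ : Scale T.G} (h : Em.RD T.U T.R T.k.K1 T.k.ε fun z => T.eV σ j (T.vU z))
    (hb : 0 ∈ Em.Ub T.R T.k.ε (T.b0 j)) :
    ∀ᶠ X : ℝ in atTop, DifferentiableAt ℂ (fun a => T.e1 σ j X a 0 0) 0 := by
  obtain ⟨M, A, h⟩ := h
  filter_upwards [Jc.ev_ez T.R T.k.K1] with X hX
  have h0 : 0 < X := by linarith [hX.1, T.R_pos]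
  have hc := F.c_pos
  exact (h.diffAt (V := Metric.ball 0 (4 * c / X ^ 2)) (X := fun _ => (X : ℂ)) (a := id)
    (h := fun _ => 0) (b := fun _ => 0) (T.b0 j) (differentiableOn_const _) differentiableOn_id
    (differentiableOn_const _) (differentiableOn_const _) fun a ha =>
      ⟨Jc.Ez.dom F ⟨hX.1, hX.2, (mem_ball_zero_iff.1 ha).le⟩ hb, h0⟩).differentiableAt
    (Metric.ball_mem_nhds _ (by positivity))

omit F in
theorem lim (hG : T.Good) (q : ℝ × ℝ) (hq : T.R ≤ q.1) :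
    Tendsto (fun X : ℝ => Jc.vv T.R T.U (T.b0 j) X 0 0 q) atTop (𝓝 (T.vS j q)) := by
  refine Metric.tendsto_nhds.2 fun t ht => ?_
  obtain ⟨δ, hδ, h⟩ := hG.idn j _ (half_pos ht)
  filter_upwards [h, eventually_ge_atTop (T.R + 2), eventually_ge_atTop q.1] with X x1 x2 x3
  have := (x1 0 0 (by simpa using hδ.le) (by simpa using hδ.le)).2 (tX T.R X q.1) q.2 0
  rw [xr_tX x2 ⟨hq, x3⟩] at this
  have e : S9.jS T.e j (q.1, q.2) 0 = T.vS j q := (T.vS_real j q).symm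
  rw [dist_eq_norm, ← e, Jc.vv, Jc.zb, add_zero]
  exact this.trans_lt (half_lt_self ht)

end Jl

open Jl in
/-- **the derivative of the limit end map consists of Jacobi fields** -/
theorem jacL : JacL := fun S T hG => by
  obtain ⟨c, CD, C, F⟩ := hG.fm
  refine (rd F).mono fun σ h En rb C0 hE => ?_
  have hb : ∀ j, 0 ∈ Em.Ub T.R T.k.ε (T.b0 j) := fun j => by
    have := hG.hb0 j
    rwa [← add_zero (T.b0 j)] at this
  have se : ∀ j, Jc.Se T.U T.R T.k.K1 T.k.ε T.k.ε1 T.k.C 6015 c CD C (T.k.c0 / T.R) (T.b0 j)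
      (T.vS j) := fun j => ⟨F, hG.hb0 j, (T.ok_vS fun _ h => T.eR_lt_R.trans h).sm, lim j hG⟩
  have fd : ∀ j, ∃ c' A c0 c1 c2, El.Exp (fun X a b => T.e1 σ j X a 0 b)
      (Em.Ub T.R T.k.ε (T.b0 j)) c' c0 c1 c2 A ∧
      ∀ a b, fderiv ℂ En 0 (a, b) j = fderiv ℂ c0 0 (b j) + a j • c1 0 := fun j => by
    obtain ⟨c', A, c0, c1, c2, h1, h2⟩ := hE.link j
    have n := (Em.isOpen_Ub _ _ _).mem_nhds (hb j)
    exact ⟨c', A, c0, c1, c2, h1, fd_link hE.hol.self_of_nhds (h1.d0.differentiableAt n)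
      (h1.d1.differentiableAt n) (h1.d2.differentiableAt n) h2⟩
  refine ⟨fun b j => ?_, fun j => ?_⟩
  · obtain ⟨c', A, c0, c1, c2, h1, h2⟩ := fd j
    have J := (se j).j1 (b j)
    rw [h2, Pi.zero_apply, zero_smul, add_zero]
    refine ⟨_, J, T.G.extC fun p => ?_, fun i =>
      (se j).modeP h1 _ (mode_e1 j F σ i) _⟩
    obtain ⟨q, Ψ, hq, k1, k2, k3⟩ := psi T j p
    exact ((se j).linkP h1 _ (by linarith [hq.1]) k1 (val_e1 j F (h j).1 hq k2) _).trans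
      (k3 _ (ok_jac T J.jac))
  · obtain ⟨c', A, c0, c1, c2, h1, h2⟩ := fd j
    have J := (se j).j2
    have hd := diff_e1 j F (h j).2 (hb j)
    have e1 : σ.val (c1 0).1 = T.sL j _ := T.G.extC fun p => by
      obtain ⟨q, Ψ, hq, k1, k2, k3⟩ := psi T j p
      exact ((se j).linkJ h1 _ (by linarith [hq.1]) k1 (val_e1 j F (h j).1 hq k2) hd).trans
        (k3 _ (ok_jac T J.jac))
    have e2 : ∀ i : Fin 3, (c1 0).2 i = _ := fun i =>
      (se j).modeJ h1 _ (mode_e1 j F σ i) hd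
    refine ⟨_, J, fun α => ?_⟩
    rw [h2, Pi.zero_apply, map_zero, zero_add]
    exact ⟨by rw [Prod.smul_fst, map_smul, e1], fun i => by rw [← e2 i]; rfl⟩

end Crest.Agent.N250.R0

end
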