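import Crest.Agent.N250.Mc.EqL_Mg
import Crest.Agent.N250.Av.Sp2_Mg
import Crest.Agent.N250.Cf.Close
import Crest.Agent.N250.S9.Idt
import Crest.Agent.N250.Fm.Defs
import Crest.Agent.N250.Im.MV
import Crest.Agent.N250.Re.Comm
import Crest.Agent.R241.AF1
import Crest.Agent.N250.Tb.Defs
import Crest.Agent.N250.R.One
import Crest.Agent.N250.Gc.Area
import Crest.Agent.N250.T.Reach
import Crest.Agent.N250.Master
import Crest.Agent.N250.Po.Area
import Crest.Agent.N250.Wr.Sy3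
import Crest.Agent.N250.Tr.Inst2
import Crest.Agent.N250.Fm.En
import Crest.Agent.N250.Rm.Sm
import Crest.Agent.N250.R0.Leaf
import Crest.Agent.N250.Se.Dic
import Crest.Agent.N250.Xi.EndC
import Crest.Agent.N250.Gl.Fix2
import Crest.Agent.N250.Wt.All
import Crest.Agent.N250.Rp.Abs
import Crest.Agent.N250.R0.CjE
import Crest.Agent.N250.Av.CoreX
import Crest.Agent.N250.Rm.Br
import Crest.Agent.N250.Cn.Amb

-- ▼ part N250/R0/LMat
section

/-!
# Row 250 (helper66): the leaf `MatL`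
-/

set_option autoImplicit false

namespace Crest.Agent.N250.R0

theorem matL : MatL := fun S e =>
  (mt_of (fun _ h S e => (end_nr h S e).mono fun _ _ k g => (k g).imp fun _ k j z a b =>
      ⟨(k j z a b).1, (k j z a b).2.1⟩) (fun _ h S e => (w_nr h S e).mono fun _ _ k => k.1)
    (fun _ h S e => (w_nr h S e).mono fun _ _ k => k.2) S e).mono fun _ _ k g F =>
    (k g F).mono fun _ k h => Mq.matD_of_mt g h.nl (k h.nl)

end Crest.Agent.N250.R0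
end

-- ▼ part N250/R0/LAct
section

/-!
# Row 250 (helper33): the leaf `ActL`
-/

set_option autoImplicit false

namespace Crest.Agent.N250.R0

theorem actL : ActL := actL_of fun _ T _ => Av2.spl T

end Crest.Agent.N250.R0
end

-- ▼ part N250/Cf/J2
section

/-!
# Row 250 (helper70): END-CLOSE for the end of the shrinker, real form
-/

set_option autoImplicit false
open Set Filter Topology Metric Complex
open scoped ContDiff

noncomputable section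

namespace Crest.Agent.N250.Cf

open B1 Em
open Ra (dd)

variable {ℓ : Ell} {R K ε X t : ℝ} {f g : ℝ × ℝ → ℝ} {q : ℝ × ℝ}

theorem dd_sub (u : ℝ × ℝ) (hf : ContDiffAt ℝ 2 f q) (hg : ContDiffAt ℝ 2 g q) :
    dd u (fun y => f y - g y) q = dd u f q - dd u g q := by
  simp only [dd]
  rw [fderiv_fun_sub (hf.differentiableAt (by norm_num)) (hg.differentiableAt (by norm_num))]; rfl

theorem diff_dd (u : ℝ × ℝ) (hf : ContDiffAt ℝ 2 f q) : DifferentiableAt ℝ (dd u f) q :=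
  ((hf.fderiv_right (m := 1) (by norm_num)).differentiableAt one_ne_zero).clm_apply
    (differentiableAt_const u)

theorem dd_dd_sub (u v : ℝ × ℝ) (hf : ContDiffAt ℝ 2 f q) (hg : ContDiffAt ℝ 2 g q) :
    dd u (dd v fun y => f y - g y) q = dd u (dd v f) q - dd u (dd v g) q := by
  have e : (dd v fun y => f y - g y) =ᶠ[𝓝 q] fun y => dd v f y - dd v g y := by
    filter_upwards [hf.eventually (by simp), hg.eventually (by simp)] with y h1 h2
    exact dd_sub v h1 h2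
  change fderiv ℝ _ q u = fderiv ℝ _ q u - fderiv ℝ _ q u
  rw [e.fderiv_eq, fderiv_fun_sub (diff_dd v hf) (diff_dd v hg)]; rfl

/-- closeness of the jets in real form -/
theorem j2_of {a : ℂ} {J : Jt ℓ} (hJ : IsJet (dgam R X) J) (hX : R + 2 ≤ X) (hq : q.1 ∈ Ioo R X)
    (hg : ContDiffAt ℝ 2 g q) (h : ∀ i, ‖vk R X a J (tX R X) i q - (S9.jw g i q : ℝ)‖ ≤ t) :
    Fm.J2le (fun y => (vX R X a J y).re - g y) t q := by
  have hn : Icc R X ∈ 𝓝 q.1 := Icc_mem_nhds hq.1 hq.2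
  have hr := rd_real hX
  have hf : ContDiffAt ℝ 2 (fun y => (vX R X a J y).re) q :=
    reCLM.contDiff.contDiffAt.comp q ((vX_c2 hX hJ).contDiffAt (nhds_strip hn))
  have k : ∀ i, |(vk R X a J (tX R X) i q).re - S9.jw g i q| ≤ t := fun i => by
    simpa using (abs_re_le_norm _).trans (h i)
  refine ⟨k 0, ?_, ?_, ?_, ?_, ?_⟩
  · exact (congrArg abs ((dd_sub _ hf hg).trans (congrArg (· - _) (hJ.d1_0 hr hn reCLM)))).trans_le (k 1)
  · exact (congrArg abs ((dd_sub _ hf hg).trans (congrArg (· - _) (hJ.d2_0 hr hn reCLM)))).trans_le (k 3)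
  · exact (congrArg abs ((dd_dd_sub _ _ hf hg).trans (congrArg (· - _) (hJ.d11 hr hn reCLM)))).trans_le (k 2)
  · exact (congrArg abs ((dd_dd_sub _ _ hf hg).trans (congrArg (· - _) (hJ.d12 hr hn reCLM)))).trans_le (k 4)
  · exact (congrArg abs ((dd_dd_sub _ _ hf hg).trans (congrArg (· - _) (hJ.d22 hr hn reCLM)))).trans_le (k 5)

variable {S : Mv}

variable {U : Par ℓ → Jt ℓ} {ε1 C0 Ch c CD C c0 : ℝ}

/-- **END-CLOSE**, real form -/
theorem close_j2 (F : Fm U R K ε ε1 C0 Ch c CD C c0) {e : Ends S} {j : Fin e.p} (hR : e.R ≤ R)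
    {b0 : Wi (omP 2)} (hI : Ce.Idt ℓ R K ε U b0 (S9.jS e j)) (ht : 0 < t) :
    ∃ θ rb X1 : ℝ, 0 < θ ∧ θ ≤ 1 ∧ 0 < rb ∧ ∀ (X : ℝ) (a h : ℂ) (b : Wi (omP 2)), X1 ≤ X →
      ((X : ℂ), a, wd (ℓ := ℓ) b h) ∈ Dom R K (13 / 8) (7 / 4) ε →
      ‖h‖ ≤ Ch / (X ^ 3 * ‖et a X‖) → ‖b - b0‖ ≤ rb → ∀ q : ℝ × ℝ, R < q.1 → q.1 < θ * X →
        Fm.J2le (fun y => (vX R X a (U ((X : ℂ), a, wd b h)) y).re - Fm.vS e j y) t q := by
  obtain ⟨θ, rb, X1, h0, h1, h2, h3⟩ := close F hI ht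
  refine ⟨θ, rb, X1, h0, h1, h2, fun X a h b hX hz hh hb q q1 q2 => ?_⟩
  have hR2 := F.sz.hR
  have hX2 : R + 2 ≤ X := by have := hz.1; simp only [ofReal_re] at this; linarith
  have q3 : q.1 < X := q2.trans_le (mul_le_of_le_one_left (by linarith) h1)
  have e1 := xr_tX hX2 ⟨q1.le, q3.le⟩
  refine j2_of (F.sl hz).sol.jet hX2 ⟨q1, q3⟩ ((Ra.sm_of (((e.sm j).pow 2).div_const 2) q
    (hR.trans_lt q1)).of_le (by norm_cast)) fun i => ?_
  have := h3 X a h b hX hz hh hb (tX R X q.1) q.2 i (by rw [e1]; exact q2.le)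
  rwa [e1] at this

end Crest.Agent.N250.Cf

end
end

-- ▼ part N250/Im/Rch
section

/-!
# Row 250: images of slices under almost isometric maps (helper20)

`X` maps the slice `F.sl t` onto the slice `G.sl s`.  Reach, closedness and area ratios of the image.
-/

set_option autoImplicit false
open MeasureTheory Set Filter Topology
open scoped ContDiff InnerProductSpace
open Crest.GeometryTopology.MCF

noncomputable section

namespace Crest.Agent.N250.Im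

variable {F G : Mv} {t s ρ L C d : ℝ} {p q x y : E}

theorem abs_coord_le (v : E) (a : Fin 3) : |v a| ≤ ‖v‖ := by
  simpa using PiLp.norm_apply_le v a

theorem norm_le_of_coord {v : E} (h : ∀ a, |v a| ≤ C) : ‖v‖ ≤ 2 * C := by
  have h0 : 0 ≤ C := (abs_nonneg _).trans (h 0)
  refine abs_le_of_sq_le_sq' ?_ (by positivity) |>.2
  rw [EuclideanSpace.real_norm_sq_eq, Fin.sum_univ_three]
  have h1 : ∀ a, v a ^ 2 ≤ C ^ 2 := fun a => sq_le_sq' (abs_le.1 (h a)).1 (abs_le.1 (h a)).2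
  nlinarith [h1 0, h1 1, h1 2]

theorem abs_sum_le (v : E) {w : Fin 3 → ℝ} (h : ∀ a, |w a| ≤ C) : |∑ a, v a * w a| ≤ 2 * C * ‖v‖ := by
  have h1 := abs_real_inner_le_norm v (WithLp.toLp 2 w)
  rw [inner_eq_sum] at h1
  have h2 : ‖(WithLp.toLp 2 w : E)‖ ≤ 2 * C := norm_le_of_coord h
  refine h1.trans ?_
  rw [mul_comm]
  exact mul_le_mul_of_nonneg_right h2 (norm_nonneg _)

/-- first jets bound the tangential derivative -/
theorem td_le_of_D {f : ST → ℝ} {P : ST} (h : ∀ a, |F.D a f P| ≤ C) {v : E}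
    (hv : ⟪F.n P, v⟫_ℝ = 0) : |F.td f P (v, 0)| ≤ 2 * C * ‖v‖ := by
  rw [Mv.td_perp f hv]
  exact abs_sum_le v h

/-- **T1** with a bound for the first jets -/
theorem mv_D (hF : F.Reg) {f : ST → ℝ} (hf : F.Sm f) (hq : (q, t) ∈ F.M) (hρ : 0 < ρ) (hd : d ≤ ρ)
    (hK : IsCompact (F.sl t ∩ Metric.closedBall q d))
    (hR : ∀ y ∈ F.sl t ∩ Metric.closedBall q d, F.Reach (y, t) ρ)
    (hL : ∀ y ∈ F.sl t ∩ Metric.closedBall q d, ∀ a, |F.D a f (y, t)| ≤ C)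
    (hp : p ∈ F.sl t ∩ Metric.closedBall q d) : |f (p, t) - f (q, t)| ≤ 4 * C * ‖p - q‖ := by
  have h0 : 0 ≤ C := (abs_nonneg _).trans (hL p hp 0)
  have := mv hF (L := 2 * C) hq hρ hd hK (fun y hy => hf.diffW hy.1) hR
    (fun y hy v hv => td_le_of_D (hL y hy) hv) (by positivity) hp
  rw [Real.norm_eq_abs] at this
  linarith

theorem ball_mono (hK : IsCompact (F.sl t ∩ Metric.closedBall q ρ)) (hd : d ≤ ρ) :
    IsCompact (F.sl t ∩ Metric.closedBall q d) ∧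
      F.sl t ∩ Metric.closedBall q d ⊆ F.sl t ∩ Metric.closedBall q ρ := by
  have h := inter_subset_inter_right (F.sl t) (Metric.closedBall_subset_closedBall (x := q) hd)
  refine ⟨?_, h⟩
  have := hK.inter_right (Metric.isClosed_closedBall (x := q) (ε := d))
  rwa [inter_assoc, inter_eq_right.2 (Metric.closedBall_subset_closedBall hd)] at this

/-- **T2** with a bound for the second jets -/
theorem taylor_D (hF : F.Reg) {f : ST → ℝ} (hf : F.Sm f) (hq : (q, t) ∈ F.M) (hρ : 0 < ρ)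
    (hd : d ≤ ρ) (hK : IsCompact (F.sl t ∩ Metric.closedBall q d))
    (hR : ∀ y ∈ F.sl t ∩ Metric.closedBall q d, F.Reach (y, t) ρ)
    (hL : ∀ y ∈ F.sl t ∩ Metric.closedBall q d, ∀ a b, |F.D a (F.D b f) (y, t)| ≤ C)
    (hp : p ∈ F.sl t ∩ Metric.closedBall q d) :
    |f (p, t) - f (q, t) - ∑ a, (p - q) a * F.D a f (q, t)| ≤ 16 * C * ‖p - q‖ ^ 2 := by
  have h0 : 0 ≤ C := (abs_nonneg _).trans (hL p hp 0 0)
  have hpd : ‖p - q‖ ≤ d := by simpa [dist_eq_norm] using hp.2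
  obtain ⟨hK', hs⟩ := ball_mono hK hpd
  have hp' : p ∈ F.sl t ∩ Metric.closedBall q ‖p - q‖ := ⟨hp.1, by simp [dist_eq_norm]⟩
  have := taylor hF (f := f) (L := 8 * C * ‖p - q‖)
    (innerSL ℝ (WithLp.toLp 2 fun a => F.D a f (q, t) : E)) hq hρ (hpd.trans hd) hK'
    (fun y hy => hf.diffW hy.1) (fun y hy => hR y (hs hy)) (fun y hy v hv => by
      have e : F.td f (y, t) (v, 0) - innerSL ℝ (WithLp.toLp 2 fun a => F.D a f (q, t) : E) v =
          ∑ a, v a * (F.D a f (y, t) - F.D a f (q, t)) := by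
        rw [Mv.td_perp f hv, innerSL_apply_apply, real_inner_comm, inner_eq_sum,
          ← Finset.sum_sub_distrib]
        exact Finset.sum_congr rfl fun a _ => by ring
      rw [e, Real.norm_eq_abs]
      have hy' : ‖y - q‖ ≤ ‖p - q‖ := by simpa [dist_eq_norm] using hy.2
      refine (abs_sum_le v (C := 4 * C * ‖p - q‖) fun a => ?_).trans (le_of_eq (by ring))
      refine (mv_D hF (hF.sm_D hf a) hq hρ (hpd.trans hd) hK' (fun y hy => hR y (hs hy))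
        (fun y hy b => hL y (hs hy) b a) hy).trans ?_
      gcongr) (by positivity) hp'
  rw [innerSL_apply_apply, real_inner_comm, inner_eq_sum, Real.norm_eq_abs] at this
  exact this.trans (le_of_eq (by ring))


/-- the derivative of a map between slices is tangent to the target -/
theorem n_td (hF : F.Reg) (hG : G.Reg) {X : ST → E} (hp : (p, t) ∈ F.M)
    (hX : DifferentiableWithinAt ℝ X F.M (p, t)) (hm : ∀ y ∈ F.sl t, X (y, t) ∈ G.sl s) {v : E}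
    (hv : ⟪F.n (p, t), v⟫_ℝ = 0) : ⟪G.n (X (p, t), s), F.td X (p, t) (v, 0)⟫_ℝ = 0 := by
  obtain ⟨γ, h0, h1, h2⟩ := exists_curve hF hp hv
  have h3 := hasDerivAt_curve (h0 ▸ hX) h1 h2
  rw [h0] at h3
  have hM : (X (p, t), s) ∈ G.M := hm p hp
  obtain ⟨W, φ, hW, k⟩ := hG _ hM
  have h4 : HasDerivAt (fun u => ((X (γ u, t), s) : ST)) (F.td X (p, t) (v, 0), 0) 0 :=
    h3.prodMk (hasDerivAt_const _ _)
  have h5 : HasFDerivAt φ (fderiv ℝ φ (X (p, t), s)) (X (γ 0, t), s) := by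
    rw [h0]; exact (k.diffAt hW).hasFDerivAt
  have h6 := h5.comp_hasDerivAt 0 h4
  have h7 : HasDerivAt (φ ∘ fun u => ((X (γ u, t), s) : ST)) 0 0 := by
    refine (hasDerivAt_const (0 : ℝ) (0 : ℝ)).congr_of_eventuallyEq ?_
    have h8 : ∀ᶠ u in 𝓝 (0 : ℝ), ((X (γ u, t), s) : ST) ∈ W :=
      h4.continuousAt.eventually (by simpa [h0] using k.isOpen.mem_nhds hW)
    filter_upwards [h2, h8] with u a b using (k.mem _ b).1 (hm _ a)
  have := (k.tg_iff hW hM).2 (h6.unique h7)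
  rwa [Mv.Tg, mul_zero] at this

/-- **reach of the image** -/
theorem reach_img (hF : F.Reg) (hG : G.Reg) {X : ST → E} (hX : F.Sm X)
    (him : G.sl s = (fun y => X (y, t)) '' F.sl t) (hp : (p, t) ∈ F.M) (hρ : 0 < ρ)
    (hK : IsCompact (F.sl t ∩ Metric.closedBall p ρ))
    (hR : ∀ y ∈ F.sl t ∩ Metric.closedBall p ρ, F.Reach (y, t) ρ)
    (hL : ∀ y ∈ F.sl t ∩ Metric.closedBall p ρ, ∀ a b c,
      |F.D a (F.D b fun z => X z c) (y, t)| ≤ C)
    (hco : ∀ y ∈ F.sl t, ‖y - p‖ ≤ 2 * ‖X (y, t) - X (p, t)‖) {σ : ℝ} (hσ : 0 < σ)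
    (h1 : σ ≤ ρ / 4) (h2 : 256 * C * σ ≤ 1) : G.Reach (X (p, t), s) σ := by
  have hm : ∀ y ∈ F.sl t, X (y, t) ∈ G.sl s := fun y hy => him ▸ mem_image_of_mem _ hy
  have hn := hG.norm_n (hm p hp)
  have hp' : p ∈ F.sl t ∩ Metric.closedBall p ρ := ⟨hp, Metric.mem_closedBall_self hρ.le⟩
  have h0 : 0 ≤ C := (abs_nonneg _).trans (hL p hp' 0 0 0)
  refine (reach_iff hn hσ).2 fun z hz => ?_
  rw [show ((X (p, t), s) : ST).2 = s from rfl, him] at hz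
  obtain ⟨y, hy, rfl⟩ := hz
  have hc := hco y hy
  rw [le_div_iff₀ (by positivity)]
  dsimp only
  by_cases h : ‖y - p‖ ≤ ρ
  · have hy' : y ∈ F.sl t ∩ Metric.closedBall p ρ := ⟨hy, by simpa [dist_eq_norm] using h⟩
    have hXc : ∀ c, F.Sm fun z => X z c := fun c =>
      (EuclideanSpace.proj (𝕜 := ℝ) c).contDiff.comp_contDiffOn hX
    have e1 : ‖X (y, t) - X (p, t) - F.td X (p, t) (F.PL (p, t) (y - p), 0)‖ ≤
        2 * (16 * C * ‖y - p‖ ^ 2) := by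
      refine norm_le_of_coord fun c => ?_
      have := taylor_D hF (hXc c) hp hρ le_rfl hK hR (fun y hy a b => hL y hy a b c) hy'
      rw [← Mv.td_PL, hF.td_coord hp (hX.diffW hp) (hF.tg_PL hp _)] at this
      exact this
    have e2 := n_td hF hG hp (hX.diffW hp) hm (Tr.n_PL hF hp (y - p))
    have e3 := abs_real_inner_le_norm (G.n (X (p, t), s))
      (X (y, t) - X (p, t) - F.td X (p, t) (F.PL (p, t) (y - p), 0))
    rw [inner_sub_right, e2, sub_zero, hn, one_mul] at e3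
    have e4 : ‖y - p‖ ^ 2 ≤ 4 * ‖X (y, t) - X (p, t)‖ ^ 2 := by
      nlinarith [norm_nonneg (y - p)]
    calc _ ≤ 32 * C * (4 * ‖X (y, t) - X (p, t)‖ ^ 2) * (2 * σ) := by
          gcongr
          nlinarith
      _ = 256 * C * σ * ‖X (y, t) - X (p, t)‖ ^ 2 := by ring
      _ ≤ _ := mul_le_of_le_one_left (by positivity) h2
  · have e3 := abs_real_inner_le_norm (G.n (X (p, t), s)) (X (y, t) - X (p, t))
    rw [hn, one_mul] at e3
    have h3 := not_le.1 h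
    nlinarith [norm_nonneg (X (y, t) - X (p, t)), abs_nonneg ⟪G.n (X (p, t), s), X (y, t) - X (p, t)⟫_ℝ]

/-- co-Lipschitz bound from a Lipschitz bound for `X - id` -/
theorem co_lip {a b a' b' : E} (h : ‖a' - a - (b' - b)‖ ≤ 1 / 2 * ‖a - b‖) :
    ‖a - b‖ ≤ 2 * ‖a' - b'‖ ∧ ‖a' - b'‖ ≤ 2 * ‖a - b‖ := by
  have e : a' - a - (b' - b) = a' - b' - (a - b) := by abel
  rw [e] at h
  have h1 := abs_le.1 ((abs_norm_sub_norm_le (a' - b') (a - b)).trans h)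
  constructor <;> nlinarith [h1.1, h1.2, norm_nonneg (a - b)]

/-- **the image is closed in `U`** when the preimage of `U` stays in compact pieces -/
theorem closed_img {X : ST → E} (hX : ContinuousOn X F.M)
    (him : G.sl s = (fun y => X (y, t)) '' F.sl t) {z : E} (hz : z ∈ closure (G.sl s))
    {K N : Set E} (hK : IsCompact K) (hKF : K ⊆ F.sl t) (hN : N ∈ 𝓝 z)
    (hKN : ∀ y ∈ F.sl t, X (y, t) ∈ N → y ∈ K) : z ∈ G.sl s := by
  have hc : ContinuousOn (fun y => X (y, t)) K :=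
    hX.comp (Continuous.prodMk_left t).continuousOn hKF
  have h1 : z ∈ closure ((fun y => X (y, t)) '' K) := by
    rw [mem_closure_iff_nhds] at hz ⊢
    intro V hV
    obtain ⟨w, ⟨h1, h2⟩, h3⟩ := hz _ (inter_mem hV hN)
    rw [him] at h3
    obtain ⟨y, hy, rfl⟩ := h3
    exact ⟨_, h1, y, hKN y hy h2, rfl⟩
  rw [(hK.image_of_continuousOn hc).isClosed.closure_eq] at h1
  exact him ▸ image_mono hKF h1

/-- static surfaces: properness from closedness of the slice -/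
theorem proper_static (hG : G.Static) {U : Set E}
    (h : ∀ z ∈ closure (G.sl 0), z ∈ U → z ∈ G.sl 0) : G.Proper (U ×ˢ univ) := by
  intro P hP hU
  have h1 : P.1 ∈ closure (G.sl 0) :=
    map_mem_closure continuous_fst hP fun Q hQ => (hG.mem Q.1 Q.2).1 hQ
  exact (hG.mem P.1 P.2).2 (h _ h1 hU.1)

/-- **area ratios of the image** -/
theorem mu_img {X : ST → E} {Λ : ℝ} (him : G.sl s = (fun y => X (y, t)) '' F.sl t)
    (hl : ∀ y ∈ F.sl t, ∀ z ∈ F.sl t, ‖y - z‖ ≤ 2 * ‖X (y, t) - X (z, t)‖ ∧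
      ‖X (y, t) - X (z, t)‖ ≤ 2 * ‖y - z‖)
    (hA : ∀ y r, 0 < r → F.mu t (Metric.ball y r) ≤ ENNReal.ofReal (Λ * r ^ 2)) (y : E) {r : ℝ}
    (hr : 0 < r) : G.mu s (Metric.ball y r) ≤ ENNReal.ofReal (64 * Λ * r ^ 2) := by
  rw [Mv.mu, Measure.restrict_apply measurableSet_ball]
  rcases (Metric.ball y r ∩ G.sl s).eq_empty_or_nonempty with h | ⟨w, hw1, hw2⟩
  · simp [h]
  rw [him] at hw2
  obtain ⟨z, hz, rfl⟩ := hw2
  have h1 : Metric.ball y r ∩ G.sl s ⊆ (fun y => X (y, t)) '' (Metric.ball z (4 * r) ∩ F.sl t) := by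
    rintro w ⟨h1, h2⟩
    rw [him] at h2
    obtain ⟨u, hu, rfl⟩ := h2
    refine ⟨u, ⟨?_, hu⟩, rfl⟩
    have h3 := (hl u hu z hz).1
    have h4 := dist_triangle_right (X (u, t)) (X (z, t)) y
    rw [Metric.mem_ball] at h1 hw1 ⊢
    rw [dist_eq_norm] at h4 ⊢
    linarith
  have h2 : LipschitzOnWith 2 (fun y => X (y, t)) (Metric.ball z (4 * r) ∩ F.sl t) :=
    LipschitzOnWith.of_dist_le_mul fun a ha b hb => by
      rw [dist_eq_norm, dist_eq_norm]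
      exact_mod_cast (hl a ha.2 b hb.2).2
  have h3 := hA z (4 * r) (by positivity)
  rw [Mv.mu, Measure.restrict_apply measurableSet_ball] at h3
  refine (measure_mono h1).trans ((R241.AF.muHE_image_le h2 2).trans ?_)
  calc _ ≤ ((2 : NNReal) : ENNReal) ^ 2 * ENNReal.ofReal (Λ * (4 * r) ^ 2) := by gcongr
    _ = ENNReal.ofReal (64 * Λ * r ^ 2) := by
      rw [show ((2 : NNReal) : ENNReal) ^ 2 = ENNReal.ofReal 4 by norm_num,
        ← ENNReal.ofReal_mul (by norm_num)]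
      congr 1
      ring

end Crest.Agent.N250.Im

end
end

-- ▼ part N250/Im/Near
section

/-!
# Row 250: normal and second fundamental form of a small perturbation `x + Y` (helper20)
-/

set_option autoImplicit false
open MeasureTheory Set Filter Topology
open scoped ContDiff InnerProductSpace
open Crest.GeometryTopology.MCF

noncomputable section

namespace Crest.Agent.N250.Im

variable {F G : Mv} {t s ε κ : ℝ} {p : E} {Y : ST → E}

theorem sm_coord (hY : F.Sm Y) (c : Fin 3) : F.Sm fun z => Y z c :=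
  (EuclideanSpace.proj (𝕜 := ℝ) c).contDiff.comp_contDiffOn hY

theorem sm_add_id (hY : F.Sm Y) : F.Sm fun z => z.1 + Y z := contDiffOn_fst.add hY

theorem td_add_id (hF : F.Reg) (hY : F.Sm Y) {P : ST} (hP : P ∈ F.M) {v : E}
    (hv : ⟪F.n P, v⟫_ℝ = 0) : F.td (fun z => z.1 + Y z) P (v, 0) = v + F.td Y P (v, 0) := by
  have h1 : HasFDerivWithinAt (fun z : ST => z.1 + Y z) _ F.M P :=
    (ContinuousLinearMap.fst ℝ E ℝ).hasFDerivAt.hasFDerivWithinAt.add (hY.hasF hP)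
  rw [hF.td_eq hP h1 (by simp [Mv.Tg, hv])]
  rfl

/-- first jets of the components bound the tangential derivative of a vector valued map -/
theorem td_vec_le (hF : F.Reg) (hY : F.Sm Y) {P : ST} (hP : P ∈ F.M)
    (h : ∀ a c, |F.D a (fun z => Y z c) P| ≤ ε) {v : E} (hv : ⟪F.n P, v⟫_ℝ = 0) :
    ‖F.td Y P (v, 0)‖ ≤ 4 * ε * ‖v‖ := by
  refine (norm_le_of_coord (C := 2 * ε * ‖v‖) fun c => ?_).trans (le_of_eq (by ring))
  rw [← hF.td_coord hP (hY.diffW hP) (by simp [Mv.Tg, hv])]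
  exact td_le_of_D (fun a => h a c) hv

/-- the normals are close up to sign -/
theorem PL_n_le (hF : F.Reg) (hG : G.Reg) (hY : F.Sm Y) (hp : (p, t) ∈ F.M)
    (hm : ∀ y ∈ F.sl t, y + Y (y, t) ∈ G.sl s) (h : ∀ a c, |F.D a (fun z => Y z c) (p, t)| ≤ ε) :
    ‖F.PL (p, t) (G.n (p + Y (p, t), s))‖ ≤ 4 * ε := by
  have h0 : 0 ≤ ε := (abs_nonneg _).trans (h 0 0)
  set m := G.n (p + Y (p, t), s) with hmd
  have hv := Tr.n_PL hF hp m
  have h1 := n_td hF hG (X := fun z => z.1 + Y z) hp ((sm_add_id hY).diffW hp) hm hv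
  rw [td_add_id hF hY hp hv, inner_add_right] at h1
  have h2 := td_vec_le hF hY hp h hv
  have h3 := abs_real_inner_le_norm m (F.td Y (p, t) (F.PL (p, t) m, 0))
  rw [hG.norm_n (hm p hp), one_mul] at h3
  have h4 : ⟪m, F.PL (p, t) m⟫_ℝ = ‖F.PL (p, t) m‖ ^ 2 := by
    rw [← real_inner_self_eq_norm_sq, Tb.inner_PL, Mv.PL_of_perp hv]
  have h5 : ‖F.PL (p, t) m‖ * ‖F.PL (p, t) m‖ ≤ 4 * ε * ‖F.PL (p, t) m‖ := by
    have := (abs_le.1 h3).1
    dsimp only at h1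
    nlinarith
  rcases (norm_nonneg (F.PL (p, t) m)).eq_or_lt with h6 | h6
  · rw [← h6]; positivity
  · exact le_of_mul_le_mul_right h5 h6

theorem n_sub_le (hF : F.Reg) (hG : G.Reg) (hY : F.Sm Y) (hp : (p, t) ∈ F.M)
    (hm : ∀ y ∈ F.sl t, y + Y (y, t) ∈ G.sl s) (h : ∀ a c, |F.D a (fun z => Y z c) (p, t)| ≤ ε)
    (ho : 0 ≤ ⟪F.n (p, t), G.n (p + Y (p, t), s)⟫_ℝ) :
    ‖G.n (p + Y (p, t), s) - F.n (p, t)‖ ≤ 6 * ε := by
  have h0 : 0 ≤ ε := (abs_nonneg _).trans (h 0 0)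
  have h1 := PL_n_le hF hG hY hp hm h
  have h2 := Tb.norm_PL_sq hF hp (G.n (p + Y (p, t), s))
  have h3 := hG.norm_n (hm p hp)
  have h4 := abs_real_inner_le_norm (F.n (p, t)) (G.n (p + Y (p, t), s))
  rw [hF.norm_n hp, h3] at h4
  refine abs_le_of_sq_le_sq' ?_ (by positivity) |>.2
  rw [norm_sub_sq_real, hF.norm_n hp, h3, real_inner_comm]
  rw [h3] at h2
  have := (abs_le.1 h4).2
  nlinarith [norm_nonneg (F.PL (p, t) (G.n (p + Y (p, t), s)))]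

/-- the second fundamental form of the image in the frame `d (x + Y)` -/
theorem sh_img (hF : F.Reg) (hG : G.Reg) (hY : F.Sm Y) (hp : (p, t) ∈ F.M)
    (hm : ∀ y ∈ F.sl t, y + Y (y, t) ∈ G.sl s) (a b : Fin 3) :
    ⟪Tb.sh G (p + Y (p, t), s) (F.PL (p, t) (ee a) + F.td Y (p, t) (F.PL (p, t) (ee a), 0)),
      F.PL (p, t) (ee b) + F.td Y (p, t) (F.PL (p, t) (ee b), 0)⟫_ℝ =
    F.nu b (p, t) * ⟪G.n (p + Y (p, t), s), Tb.sh F (p, t) (ee a)⟫_ℝ +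
      F.A a b (p, t) * ⟪G.n (p + Y (p, t), s), F.n (p, t)⟫_ℝ -
      ⟪G.n (p + Y (p, t), s),
        (WithLp.toLp 2 fun c => F.D a (F.D b fun z => Y z c) (p, t) : E)⟫_ℝ := by
  have hv := Tr.n_PL hF hp (ee a)
  obtain ⟨γ, h0, h1, h2⟩ := exists_curve hF hp hv
  have hX := sm_add_id hY
  have hM : (p + Y (p, t), s) ∈ G.M := hm p hp
  have c1 := hasDerivAt_curve (h0 ▸ hX.diffW hp) h1 h2
  rw [h0, td_add_id hF hY hp hv] at c1
  have t1 := n_td hF hG (X := fun z => z.1 + Y z) hp (hX.diffW hp) hm hv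
  rw [td_add_id hF hY hp hv] at t1
  have c2 := hasDerivAt_curve (F := G) (f := G.n) (t := s) (γ := fun u => γ u + Y (γ u, t))
    (s := 0) (by rw [h0]; exact hG.sm_n.diffW hM) c1 (h2.mono fun u hu => hm _ hu)
  rw [h0] at c2
  have e2 : G.td G.n (p + Y (p, t), s)
      (F.PL (p, t) (ee a) + F.td Y (p, t) (F.PL (p, t) (ee a), 0), 0) =
      Tb.sh G (p + Y (p, t), s) (F.PL (p, t) (ee a) + F.td Y (p, t) (F.PL (p, t) (ee a), 0)) := by
    rw [Tb.sh_apply, Mv.PL_of_perp t1]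
  rw [e2] at c2
  have c3' := hasDerivAt_curve (F := F) (f := fun q => ((F.PL q (ee b), 0) : ST)) (t := t)
    (γ := γ) (s := 0) (by rw [h0]; exact (hF.sm_XD b).diffW hp) h1 h2
  rw [h0, hF.td_XD hp (hF.tg_PL hp _)] at c3'
  have c3 : HasDerivAt (fun u => F.PL (γ u, t) (ee b))
      (-(F.nu b (p, t) • F.td F.n (p, t) (F.PL (p, t) (ee a), 0) +
        F.td (F.nu b) (p, t) (F.PL (p, t) (ee a), 0) • F.n (p, t))) 0 :=
    (ContinuousLinearMap.fst ℝ E ℝ).hasFDerivAt.comp_hasDerivAt (0 : ℝ) c3'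
  have hW : F.Sm fun z => (WithLp.toLp 2 fun c => F.D b (fun z => Y z c) z : E) :=
    contDiffOn_euclidean.2 fun c => hF.sm_D (sm_coord hY c) b
  have c4 := hasDerivAt_curve (h0 ▸ hW.diffW hp) h1 h2
  rw [h0] at c4
  have e4 : F.td (fun z => (WithLp.toLp 2 fun c => F.D b (fun z => Y z c) z : E)) (p, t)
      (F.PL (p, t) (ee a), 0) = WithLp.toLp 2 fun c => F.D a (F.D b fun z => Y z c) (p, t) := by
    ext c
    rw [← hF.td_coord hp (hW.diffW hp) (hF.tg_PL hp _)]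
    rfl
  have e5 : ∀ y, (y, t) ∈ F.M → (WithLp.toLp 2 fun c => F.D b (fun z => Y z c) (y, t) : E) =
      F.td Y (y, t) (F.PL (y, t) (ee b), 0) := by
    intro y hy
    ext c
    rw [← hF.td_coord hy (hY.diffW hy) (hF.tg_PL hy _)]
    rfl
  rw [e4] at c4
  have c5 := c2.inner ℝ (c3.add c4)
  have c6 : HasDerivAt (fun u => ⟪G.n (γ u + Y (γ u, t), s), F.PL (γ u, t) (ee b) +
      (WithLp.toLp 2 fun c => F.D b (fun z => Y z c) (γ u, t) : E)⟫_ℝ) 0 0 := by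
    refine (hasDerivAt_const (0 : ℝ) (0 : ℝ)).congr_of_eventuallyEq ?_
    filter_upwards [h2] with u hu
    have hb := Tr.n_PL hF hu (ee b)
    have := n_td hF hG (X := fun z => z.1 + Y z) hu (hX.diffW hu) hm hb
    rw [td_add_id hF hY hu hb] at this
    rw [e5 _ hu]
    exact this
  have c7 := c5.unique c6
  simp only [Pi.add_apply, h0, e5 p hp, inner_add_right, inner_neg_right, inner_smul_right] at c7
  simp only [inner_add_right]
  have e6 : F.td F.n (p, t) (F.PL (p, t) (ee a), 0) = Tb.sh F (p, t) (ee a) := rfl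
  have e7 : F.td (F.nu b) (p, t) (F.PL (p, t) (ee a), 0) = F.A a b (p, t) := rfl
  rw [e6, e7] at c7
  linarith

theorem norm_ee (a : Fin 3) : ‖ee a‖ = 1 := by simp [ee]

/-- the second fundamental forms are close -/
theorem A_sub_le (hF : F.Reg) (hG : G.Reg) (hY : F.Sm Y) (hp : (p, t) ∈ F.M)
    (hm : ∀ y ∈ F.sl t, y + Y (y, t) ∈ G.sl s) (h : ∀ a c, |F.D a (fun z => Y z c) (p, t)| ≤ ε)
    (h' : ∀ a b c, |F.D a (F.D b fun z => Y z c) (p, t)| ≤ ε)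
    (ho : 0 ≤ ⟪F.n (p, t), G.n (p + Y (p, t), s)⟫_ℝ) (hε : ε ≤ 1 / 10) (hκ : 0 ≤ κ)
    (hA : F.A2 (p, t) ≤ κ ^ 2) (hA' : G.A2 (p + Y (p, t), s) ≤ κ ^ 2) (a b : Fin 3) :
    |G.A a b (p + Y (p, t), s) - F.A a b (p, t)| ≤ (42 * κ + 2) * ε := by
  have h0 : 0 ≤ ε := (abs_nonneg _).trans (h 0 0)
  have hM : (p + Y (p, t), s) ∈ G.M := hm p hp
  have hn := n_sub_le hF hG hY hp hm h ho
  have key := sh_img hF hG hY hp hm a b
  set m := G.n (p + Y (p, t), s) with hmd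
  set T := Tb.sh G (p + Y (p, t), s) with hT
  obtain ⟨δ, hδ⟩ : ∃ δ : Fin 3 → E, ∀ a, δ a = F.nu a (p, t) • (m - F.n (p, t)) +
    F.td Y (p, t) (F.PL (p, t) (ee a), 0) := ⟨_, fun _ => rfl⟩
  have hν : ∀ a, |F.nu a (p, t)| ≤ 1 := fun a => (abs_coord_le _ a).trans (hF.norm_n hp).le
  have hδn : ∀ a, ‖δ a‖ ≤ 10 * ε := by
    intro a
    have h1 := td_vec_le hF hY hp h (Tr.n_PL hF hp (ee a))
    have h2 := Tb.norm_PL_le hF hp (ee a)
    rw [norm_ee] at h2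
    have h3 : ‖F.nu a (p, t) • (m - F.n (p, t))‖ ≤ 1 * (6 * ε) := by
      rw [norm_smul, Real.norm_eq_abs]
      gcongr
      exact hν a
    rw [hδ]
    refine (norm_add_le _ _).trans ?_
    nlinarith
  have hw : ∀ a, F.PL (p, t) (ee a) + F.td Y (p, t) (F.PL (p, t) (ee a), 0) =
      ee a + δ a - F.nu a (p, t) • m := by
    intro a
    have hPL : F.PL (p, t) (ee a) = ee a - F.nu a (p, t) • F.n (p, t) := by
      rw [Mv.PL, inner_ee]; rfl
    rw [hδ]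
    generalize F.td Y (p, t) (F.PL (p, t) (ee a), 0) = w
    rw [hPL, smul_sub]
    abel
  have hTm : T m = 0 := Tb.sh_n hG hM
  have hmT : ∀ v, ⟪T v, m⟫_ℝ = 0 := fun v => by rw [real_inner_comm]; exact Tb.n_sh hG hM v
  rw [hw, hw, map_sub, map_smul, hTm, smul_zero, sub_zero, inner_sub_right, inner_smul_right, hmT,
    mul_zero, sub_zero, map_add, inner_add_left, inner_add_right, inner_add_right, inner_ee,
    Tb.sh_ee hG hM] at key
  have hTn : ∀ v, ‖T v‖ ≤ κ * ‖v‖ := Tb.norm_sh_le hG hM hκ hA'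
  have b1 : |⟪T (ee a), δ b⟫_ℝ| ≤ κ * (10 * ε) := by
    refine (abs_real_inner_le_norm _ _).trans ?_
    have := hTn (ee a)
    rw [norm_ee, mul_one] at this
    gcongr
    exact hδn b
  have b0 : ‖T (δ a)‖ ≤ κ * (10 * ε) := (hTn _).trans (by gcongr; exact hδn a)
  have b2 : |⟪T (δ a), ee b⟫_ℝ| ≤ κ * (10 * ε) := by
    refine (abs_real_inner_le_norm _ _).trans ?_
    rw [norm_ee, mul_one]
    exact b0
  have b3 : |⟪T (δ a), δ b⟫_ℝ| ≤ κ * (10 * ε) := by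
    refine (abs_real_inner_le_norm _ _).trans ?_
    have : ‖δ b‖ ≤ 1 := (hδn b).trans (by linarith)
    exact (mul_le_of_le_one_right (norm_nonneg _) this).trans b0
  have hS : ‖Tb.sh F (p, t) (ee a)‖ ≤ κ := by
    have := Tb.norm_sh_le hF hp hκ hA (ee a)
    rwa [norm_ee, mul_one] at this
  have b4 : |F.nu b (p, t) * ⟪m, Tb.sh F (p, t) (ee a)⟫_ℝ| ≤ 1 * (6 * ε * κ) := by
    rw [abs_mul]
    have e : ⟪m, Tb.sh F (p, t) (ee a)⟫_ℝ = ⟪m - F.n (p, t), Tb.sh F (p, t) (ee a)⟫_ℝ := by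
      rw [inner_sub_left, Tb.n_sh hF hp, sub_zero]
    rw [e]
    gcongr
    · exact hν b
    · refine (abs_real_inner_le_norm _ _).trans ?_
      gcongr
  have b5 : |F.A a b (p, t) * ⟪m - F.n (p, t), F.n (p, t)⟫_ℝ| ≤ κ * (6 * ε) := by
    rw [abs_mul]
    gcongr
    · rw [← Tb.sh_ee hF hp]
      exact (abs_coord_le _ b).trans hS
    · refine (abs_real_inner_le_norm _ _).trans ?_
      rw [hF.norm_n hp, mul_one]
      exact hn
  rw [inner_sub_left, hF.inner_n hp] at b5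
  have b6 : |⟪m, (WithLp.toLp 2 fun c => F.D a (F.D b fun z => Y z c) (p, t) : E)⟫_ℝ| ≤ 2 * ε := by
    refine (abs_real_inner_le_norm _ _).trans ?_
    rw [hG.norm_n hM, one_mul]
    exact norm_le_of_coord fun c => h' a b c
  rw [abs_le] at b1 b2 b3 b4 b5 b6 ⊢
  constructor <;> nlinarith [b1.1, b1.2, b2.1, b2.2, b3.1, b3.2, b4.1, b4.2, b5.1, b5.2, b6.1, b6.2]

/-- **`Near`** for the image of a piece `F` of `S` under `x + Y` -/
theorem near_img {S : Mv} {R η : ℝ} (hF : F.Reg) (hG : G.Reg) (hY : F.Sm Y)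
    (him : G.sl 0 = (fun y => y + Y (y, 0)) '' F.sl 0) (hFS : F.sl 0 ⊆ S.sl 0)
    (hSF : ∀ y ∈ S.sl 0, ‖y‖ < R → y ∈ F.sl 0)
    (hnA : ∀ y ∈ F.sl 0, F.n (y, 0) = S.n (y, 0) ∧ ∀ a b, F.A a b (y, 0) = S.A a b (y, 0))
    (hε : ε ≤ 1 / 10) (hκ : 0 ≤ κ) (h1 : 6 * ε < η) (h2 : (42 * κ + 2) * ε < η)
    (hb : ∀ y ∈ F.sl 0, (‖y‖ < R ∨ ‖y + Y (y, 0)‖ < R) → ‖Y (y, 0)‖ ≤ ε ∧
      (∀ a c, |F.D a (fun z => Y z c) (y, 0)| ≤ ε) ∧
      (∀ a b c, |F.D a (F.D b fun z => Y z c) (y, 0)| ≤ ε) ∧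
      0 ≤ ⟪F.n (y, 0), G.n (y + Y (y, 0), 0)⟫_ℝ ∧ F.A2 (y, 0) ≤ κ ^ 2 ∧
      G.A2 (y + Y (y, 0), 0) ≤ κ ^ 2) : Near G S R η := by
  have hm : ∀ y ∈ F.sl 0, y + Y (y, 0) ∈ G.sl 0 := fun y hy => him ▸ mem_image_of_mem _ hy
  have hd : ∀ y, ‖Y (y, 0)‖ ≤ ε → dist (y + Y (y, 0)) y < η := fun y h => by
    rw [dist_eq_norm, add_sub_cancel_left]
    nlinarith [norm_nonneg (Y (y, 0))]
  constructor
  · intro x hx hxR
    rw [him] at hx
    obtain ⟨y, hy, rfl⟩ := hx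
    obtain ⟨b1, b2, b3, b4, b5, b6⟩ := hb y hy (Or.inr hxR)
    refine ⟨y, hFS hy, hd y b1, ?_, fun a b => ?_⟩
    · rw [← (hnA y hy).1]
      exact (n_sub_le hF hG hY hy hm b2 b4).trans_lt h1
    · rw [← (hnA y hy).2]
      exact (A_sub_le hF hG hY hy hm b2 b3 b4 hε hκ b5 b6 a b).trans_lt h2
  · intro y hy hyR
    have hy' := hSF y hy hyR
    exact ⟨_, hm y hy', hd y (hb y hy' (Or.inl hyR)).1⟩

end Crest.Agent.N250.Im

end
end

-- ▼ part N250/Rl/Img1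
section

/-!
# Row 250 (helper14): the image of a static surface under `x + Y x`, `Y` a contraction
-/

set_option autoImplicit false
open MeasureTheory Set Filter Topology
open scoped ContDiff InnerProductSpace
open Crest.GeometryTopology.MCF

noncomputable section

namespace Crest.Agent.N250.Rl

open Gc Mv

/-- the map `x + Y x` -/
def XY (Y : E → E) (p : ST) : E := p.1 + Y p.1

/-- the components of `Y` -/
def Yc (Y : E → E) (c : Fin 3) (p : ST) : ℝ := Y p.1 c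

/-- what is known about the image `G` of `S` under `x + Y x` -/
structure Out (S : Mv) (Y : E → E) (G : Mv) (ρ₀ : ℝ) : Prop where
  par : S.Par G (XY Y)
  reg : G.Reg
  st : G.Static
  closed : IsClosed G.M
  sl : G.sl 0 = (fun y => y + Y y) '' S.sl 0
  reach : ∀ x ∈ G.sl 0, G.Reach (x, 0) ρ₀
  lip : ∀ x ∈ S.sl 0, ∀ y ∈ S.sl 0, ‖x - y‖ ≤ 2 * ‖x + Y x - (y + Y y)‖ ∧
    ‖x + Y x - (y + Y y)‖ ≤ 2 * ‖x - y‖
  ori : ∀ x ∈ S.sl 0, 0 ≤ ⟪S.n (x, 0), G.n (x + Y x, 0)⟫_ℝ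
  ar : ∀ Λ, S.AR Λ → G.AR (64 * Λ)

theorem n_Nv {n : Fin 3 → ℝ} {J : Fin 3 → Fin 3 → ℝ} (h : Fr n J) :
    dot n (Nv n J) = dot (fun c => J 0 c + n 0 * n c)
      (cr (fun c => J 1 c + n 1 * n c) fun c => J 2 c + n 2 * n c) := by
  have h1 := h.N_J 0
  have h2 : dot (J 0) (cof J 0) = n 0 * dot (Nv n J) (J 0) := by
    simp only [dot, h.cof_eq, Fin.sum_univ_three]; ring
  rw [h1, mul_zero] at h2
  simp only [dot, cof, cr, Nv, Fin.sum_univ_three, f01, f02, f11, f12, f21, f22] at h2 ⊢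
  linear_combination -h2

theorem det_pos {d : Fin 3 → Fin 3 → ℝ} (h : ∀ a c, |d a c| ≤ 1 / 100) :
    0 < dot (fun c => (if (0 : Fin 3) = c then 1 else 0) + d 0 c)
      (cr (fun c => (if (1 : Fin 3) = c then 1 else 0) + d 1 c)
        fun c => (if (2 : Fin 3) = c then 1 else 0) + d 2 c) := by
  have h2 : ∀ a c a' c', |d a c * d a' c'| ≤ 1 / 100 * (1 / 100) := fun a c a' c' => by
    rw [abs_mul]; exact mul_le_mul (h a c) (h a' c') (abs_nonneg _) (by norm_num)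
  have h3 : ∀ a c a' c' a'' c'', |d a c * d a' c' * d a'' c''| ≤ 1 / 100 * (1 / 100) * (1 / 100) :=
    fun a c a' c' a'' c'' => by
      rw [abs_mul]; exact mul_le_mul (h2 a c a' c') (h a'' c'') (abs_nonneg _) (by norm_num)
  simp [dot, cr, Fin.sum_univ_three, f11, f12, f21, f22]
  linarith [abs_le.1 (h 0 0), abs_le.1 (h 1 1), abs_le.1 (h 2 2), abs_le.1 (h2 0 0 1 1),
    abs_le.1 (h2 0 0 2 2), abs_le.1 (h2 1 1 2 2), abs_le.1 (h2 0 1 1 0), abs_le.1 (h2 0 2 2 0),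
    abs_le.1 (h2 1 2 2 1), abs_le.1 (h3 0 0 1 1 2 2), abs_le.1 (h3 0 0 1 2 2 1),
    abs_le.1 (h3 0 1 1 2 2 0), abs_le.1 (h3 0 1 1 0 2 2), abs_le.1 (h3 0 2 1 0 2 1),
    abs_le.1 (h3 0 2 1 1 2 0)]

variable {S G : Mv} {Y : E → E} {p : ST}

theorem sm_XY (hY : S.Sm fun p => Y p.1) : S.Sm (XY Y) := Im.sm_add_id hY

theorem sm_Yc (hY : S.Sm fun p => Y p.1) (c : Fin 3) : S.Sm (Yc Y c) := Im.sm_coord hY c

theorem cp_XY (c : Fin 3) : cp (XY Y) c = S.pre.x c + Yc Y c := rfl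

theorem JX_XY (hS : S.Reg) (hY : S.Sm fun p => Y p.1) (hp : p ∈ S.M) (a c : Fin 3) :
    S.JX (XY Y) p a c = (if a = c then 1 else 0) - S.nu a p * S.nu c p + S.D a (Yc Y c) p := by
  rw [JX, cp_XY (S := S), hS.D_add hp (sm_x c) (sm_Yc hY c), ← hS.P_eq hp]
  rfl

theorem KX_XY (hS : S.Reg) (hY : S.Sm fun p => Y p.1) (hp : p ∈ S.M) (a b c : Fin 3) :
    S.KX (XY Y) p a b c = -(S.nu b p * S.A a c p + S.A a b p * S.nu c p) +
      S.D a (S.D b (Yc Y c)) p := by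
  have e : ∀ q ∈ S.M, S.D b (cp (XY Y) c) q =
      ((((fun _ => if b = c then 1 else 0) - S.nu b * S.nu c) + S.D b (Yc Y c) : ST → ℝ)) q :=
    fun q hq => JX_XY hS hY hq b c
  have s1 := (hS.sm_nu b).mul (hS.sm_nu c)
  rw [KX, D_congr' hp e, hS.D_add hp ((sm_const _).sub s1) (hS.sm_D (sm_Yc hY c) b),
    hS.D_sub hp (sm_const _) s1, hS.D_const hp, hS.D_mul hp (hS.sm_nu b) (hS.sm_nu c), zero_sub]
  rfl

theorem n_NX (hS : S.Reg) (hY : S.Sm fun p => Y p.1) (hp : p ∈ S.M)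
    (h : ∀ a c, |S.D a (Yc Y c) p| ≤ 1 / 100) : 0 < ⟪S.n p, S.NX (XY Y) p⟫_ℝ := by
  have e := n_Nv (hS.fr hp (XY Y))
  have e2 : ∀ a c, S.JX (XY Y) p a c + S.nu a p * S.nu c p =
      (if a = c then 1 else 0) + S.D a (Yc Y c) p := fun a c => by rw [JX_XY hS hY hp]; ring
  simp only [e2] at e
  have := det_pos h
  rw [← e] at this
  rw [inner_eq_dot]
  exact this

theorem sl_closed (h : IsClosed S.M) : IsClosed (S.sl 0) := h.preimage (Continuous.prodMk_left 0)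

theorem cpt (h : IsClosed S.M) (q : E) (d : ℝ) : IsCompact (S.sl 0 ∩ Metric.closedBall q d) :=
  (isCompact_closedBall q d).inter_left (sl_closed h)

theorem ar_static (hG : G.Static) {Λ : ℝ}
    (h : ∀ y r, 0 < r → G.mu 0 (Metric.ball y r) ≤ ENNReal.ofReal (Λ * r ^ 2)) : G.AR Λ := by
  intro t y r hr
  have : G.sl t = G.sl 0 := Set.ext fun x => hG.mem x t
  rw [mu, this]
  exact h y r hr

/-- **the image under `x + Y x`** -/
theorem out_of_lip (hS : S.Reg) (hst : S.Static) (hc : IsClosed S.M) {ρ C₁ C₀ : ℝ} (hρ : 0 < ρ)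
    (hR : ∀ x ∈ S.sl 0, S.Reach (x, 0) ρ) (hA : ∀ x ∈ S.sl 0, ∀ a b, |S.A a b (x, 0)| ≤ C₁)
    (hY : S.Sm fun p => Y p.1) (h1 : ∀ x ∈ S.sl 0, ∀ a c, |S.D a (Yc Y c) (x, 0)| ≤ 1 / 100)
    (h2 : ∀ x ∈ S.sl 0, ∀ a b c, |S.D a (S.D b (Yc Y c)) (x, 0)| ≤ C₀)
    (hl : ∀ x ∈ S.sl 0, ∀ y ∈ S.sl 0, ‖Y x - Y y‖ ≤ 1 / 2 * ‖x - y‖) {σ : ℝ} (hσ : 0 < σ)
    (s1 : σ ≤ ρ / 4) (s2 : 256 * (2 * C₁ + C₀) * σ ≤ 1) : Out S Y (S.img (XY Y)) σ := by
  have hX : ∀ x t, XY Y (x, t) = XY Y (x, 0) := fun _ _ => rfl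
  have lip : ∀ x ∈ S.sl 0, ∀ y ∈ S.sl 0, ‖x - y‖ ≤ 2 * ‖x + Y x - (y + Y y)‖ ∧
      ‖x + Y x - (y + Y y)‖ ≤ 2 * ‖x - y‖ := fun x hx y hy =>
    Im.co_lip (by simpa only [add_sub_cancel_left] using hl x hx y hy)
  have em : S.Emb (XY Y) := by
    refine ⟨hS, sm_XY hY, fun p hp h0 => ?_, hst.emb hX fun x hx U hU => ?_⟩
    · have hp' : (p.1, 0) ∈ S.M := (hst.mem p.1 p.2).1 hp
      have := n_NX hS hY hp' (h1 _ hp')
      rw [← hst.NX_eq hX p.1 p.2, h0, inner_zero_right] at this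
      exact lt_irrefl _ this
    · obtain ⟨ε, h0, h3⟩ := Metric.mem_nhds_iff.1 hU
      refine ⟨Metric.ball _ (ε / 2), Metric.ball_mem_nhds _ (by positivity), fun y hy h4 => h3 ?_⟩
      have := (lip y hy x hx).1
      rw [mem_ball_iff_norm] at h4 ⊢
      change ‖y + Y y - (x + Y x)‖ < ε / 2 at h4
      linarith
  have hp := em.par
  have hG := hp.reg'
  have gs := em.static hst hX
  have sl := hp.sl_eq 0
  refine ⟨hp, hG, gs, ?_, sl, fun z hz => ?_, lip, fun x hx => ?_, fun Λ hΛ => ar_static gs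
    fun y r hr => Im.mu_img sl lip (hΛ 0) y hr⟩
  · refine isClosed_of_closure_subset fun P hP => Im.proper_static gs (U := univ)
      (fun z hz _ => ?_) P hP ⟨trivial, trivial⟩
    obtain ⟨w, hw, hzw⟩ := Metric.mem_closure_iff.1 hz 1 one_pos |>.imp fun _ h => h
    have hw' := hw
    rw [sl] at hw'
    obtain ⟨x, hx, rfl⟩ := hw'
    refine Im.closed_img em.sm.continuousOn sl hz (cpt hc x 4) inter_subset_left
      (Metric.ball_mem_nhds z one_pos) fun y hy h3 => ⟨hy, ?_⟩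
    have h4 := (lip y hy x hx).1
    have h5 := dist_triangle (y + Y y) z (x + Y x)
    rw [dist_eq_norm (y + Y y) (x + Y x)] at h5
    rw [mem_closedBall_iff_norm]
    have h6 : dist (y + Y y) z < 1 := h3
    have h7 : dist z (x + Y x) < 1 := hzw
    linarith
  · rw [sl] at hz
    obtain ⟨x, hx, rfl⟩ := hz
    refine Im.reach_img hS hG em.sm sl hx hρ (cpt hc x ρ) (fun y hy => hR y hy.1)
      (C := 2 * C₁ + C₀) (fun y hy a b c => ?_) (fun y hy => (lip y hy x hx).1) hσ s1 s2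
    have e := KX_XY hS hY hy.1 a b c
    change |S.KX (XY Y) (y, 0) a b c| ≤ _
    have hν : ∀ a, |S.nu a (y, 0)| ≤ 1 := fun a => (Im.abs_coord_le _ a).trans (hS.norm_n hy.1).le
    have b1 : |S.nu b (y, 0) * S.A a c (y, 0)| ≤ C₁ := by
      rw [abs_mul]
      exact (mul_le_of_le_one_left (abs_nonneg _) (hν b)).trans (hA y hy.1 a c)
    have b2 : |S.A a b (y, 0) * S.nu c (y, 0)| ≤ C₁ := by
      rw [abs_mul]
      exact (mul_le_of_le_one_right (abs_nonneg _) (hν c)).trans (hA y hy.1 a b)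
    have b3 := h2 y hy.1 a b c
    rw [e]
    rw [abs_le] at b1 b2 b3 ⊢
    constructor <;> linarith [b1.1, b1.2, b2.1, b2.2, b3.1, b3.2]
  · have e := hp.n_eq (x, 0) hx
    change (S.img (XY Y)).n (x + Y x, 0) = _ at e
    rw [e, inner_smul_right]
    exact mul_nonneg (inv_nonneg.2 (sX_nonneg _)) (n_NX hS hY hx (h1 x hx)).le

/-- **`Near`** from the smallness of two jets of `Y` on `B_{2R + 2|Y x₀|}`-type sets -/
theorem Out.near {ρ ρ₀ R η ε : ℝ} (h : Out S Y G ρ₀) (hρ : 0 < ρ) (hρ₀ : ρ ≤ ρ₀)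
    (hR : ∀ x ∈ S.sl 0, S.Reach (x, 0) ρ) (hY : S.Sm fun p => Y p.1) (hε : ε ≤ 1 / 10)
    (e1 : 6 * ε < η) (e2 : (84 / ρ + 2) * ε < η)
    (hb : ∀ y ∈ S.sl 0, (‖y‖ < R ∨ ‖y + Y y‖ < R) → ‖Y y‖ ≤ ε ∧
      (∀ a c, |S.D a (Yc Y c) (y, 0)| ≤ ε) ∧ ∀ a b c, |S.D a (S.D b (Yc Y c)) (y, 0)| ≤ ε) :
    Near G S R η := by
  have hS := h.par.reg
  have k : 2 / ρ ^ 2 ≤ (2 / ρ) ^ 2 := by
    rw [div_pow]; gcongr; norm_num
  refine Im.near_img (Y := fun p => Y p.1) (κ := 2 / ρ) hS h.reg hY h.sl Subset.rfl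
    (fun _ h _ => h) (fun _ _ => ⟨rfl, fun _ _ => rfl⟩) hε (by positivity) e1
    (by convert e2 using 3; ring) fun y hy hyR => ?_
  obtain ⟨b1, b2, b3⟩ := hb y hy hyR
  have hm : y + Y y ∈ G.sl 0 := h.sl ▸ mem_image_of_mem (fun y => y + Y y) hy
  exact ⟨b1, b2, b3, h.ori y hy, (reachAS_holds S hS _ hy ρ hρ (hR y hy)).2.trans k,
    (reachAS_holds G h.reg _ hm ρ hρ (Rch.reach_mono (h.reg.norm_n hm) (h.reach _ hm)
      hρ₀)).2.trans k⟩

end Crest.Agent.N250.Rl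

end
end

-- ▼ part N250/Rl/Img2
section

/-!
# Row 250 (helper14): small perturbations of a shrinker with `Ends`, tilted on the tubes
-/

set_option autoImplicit false
open MeasureTheory Set Filter Topology
open scoped ContDiff InnerProductSpace
open Crest.GeometryTopology.MCF

noncomputable section

namespace Crest.Agent.N250.Rl

open Gc Mv

/-- distance to the first axis -/
def rad (x : E) : ℝ := √(x 1 ^ 2 + x 2 ^ 2)

theorem rad_nonneg (x : E) : 0 ≤ rad x := Real.sqrt_nonneg _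

theorem norm_sq_eq (x : E) : ‖x‖ ^ 2 = x 0 ^ 2 + rad x ^ 2 := by
  rw [rad, Real.sq_sqrt (by positivity), EuclideanSpace.real_norm_sq_eq, Fin.sum_univ_three]
  ring

theorem rad_le (x : E) : rad x ≤ ‖x‖ :=
  abs_le_of_sq_le_sq' (by rw [norm_sq_eq]; nlinarith [sq_nonneg (x 0)]) (norm_nonneg _) |>.2

theorem rad_add (x y : E) : rad (x + y) ≤ rad x + rad y := by
  have hx : rad x ^ 2 = x 1 ^ 2 + x 2 ^ 2 := Real.sq_sqrt (by positivity)
  have hy : rad y ^ 2 = y 1 ^ 2 + y 2 ^ 2 := Real.sq_sqrt (by positivity)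
  have h : x 1 * y 1 + x 2 * y 2 ≤ rad x * rad y :=
    abs_le_of_sq_le_sq' (by rw [mul_pow, hx, hy]; nlinarith [sq_nonneg (x 1 * y 2 - x 2 * y 1)])
      (mul_nonneg (rad_nonneg x) (rad_nonneg y)) |>.2
  refine Real.sqrt_le_iff.2 ⟨add_nonneg (rad_nonneg x) (rad_nonneg y), ?_⟩
  simp only [PiLp.add_apply]
  nlinarith

theorem rad_cylP (s θ : ℝ) {r : ℝ} (hr : 0 ≤ r) : rad (cylP s r θ) = r := by
  have : (r * Real.cos θ) ^ 2 + (r * Real.sin θ) ^ 2 = r ^ 2 := by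
    nlinarith [Real.cos_sq_add_sin_sq θ]
  simp only [rad, cylP, Matrix.cons_val_one, Matrix.cons_val_zero, Matrix.cons_val_two,
    Matrix.tail_cons, Matrix.head_cons, this, Real.sqrt_sq hr]

variable {S : Mv} (e : Ends S)

/-- far points of the shrinker in a cone lie in the tube -/
theorem tube_of_cone {j : Fin e.p} {x : E} (hx : x ∈ S.sl 0) (hc : (e.Q j).symm x ∈ cone0 e.ε)
    (hR : 2 * e.R < ‖x‖) : e.R < (e.Q j).symm x 0 ∧ 1 < rad ((e.Q j).symm x) ∧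
      rad ((e.Q j).symm x) < 2 := by
  set y := (e.Q j).symm x with hy
  have h0 : ‖y‖ = ‖x‖ := (e.Q j).symm.norm_map x
  have h1 : rad y ≤ e.ε * y 0 := hc
  have hε := e.ε_pos
  have hε1 := e.ε_le
  have hR0 : 0 < e.R := pos_of_mul_pos_left (b := e.ε) (by linarith [e.R_ge, mul_comm e.ε e.R]) hε.le
  have h2 : 0 ≤ y 0 := nonneg_of_mul_nonneg_right ((rad_nonneg y).trans h1) hε |> fun h => by
    by_contra h3
    nlinarith [rad_nonneg y, not_le.1 h3]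
  have h3 : rad y ≤ y 0 := h1.trans (mul_le_of_le_one_left h2 hε1)
  have h4 : e.R < y 0 := by
    by_contra h5
    have h6 := norm_sq_eq y
    have := rad_nonneg y
    nlinarith [not_lt.1 h5]
  obtain ⟨θ, hθ⟩ := (e.tube j y hc h4).1 (by rwa [hy, (e.Q j).apply_symm_apply])
  have h5 := e.near j (y 0, θ) h4
  have h6 : rad y = e.r j (y 0, θ) := by
    conv_lhs => rw [hθ]
    exact rad_cylP _ _ (by linarith [h5.1])
  rw [h6]
  exact ⟨h4, h5⟩

/-- a conical neighbourhood of a far tube point is in the cone -/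
theorem cone_near {j : Fin e.p} {x z : E} (hx : x ∈ S.sl 0) (hc : (e.Q j).symm x ∈ cone0 e.ε)
    (hR : 3 * e.R < ‖x‖) (hz : ‖z - x‖ ≤ e.ε / 4 * ‖x‖) : (e.Q j).symm z ∈ cone0 e.ε := by
  have hε := e.ε_pos
  have hε1 := e.ε_le
  have hR3 := e.R_ge
  have hR0 : 0 < e.R := pos_of_mul_pos_left (b := e.ε) (by linarith [mul_comm e.ε e.R]) hε.le
  obtain ⟨h1, -, h2⟩ := tube_of_cone e hx hc (by linarith)
  set y := (e.Q j).symm x with hy
  set w := (e.Q j).symm (z - x) with hw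
  have h0 : ‖y‖ = ‖x‖ := (e.Q j).symm.norm_map x
  have h3 : ‖w‖ = ‖z - x‖ := (e.Q j).symm.norm_map _
  have h4 : (e.Q j).symm z = y + w := by rw [hy, hw, ← map_add, add_sub_cancel]
  rw [h4]
  change rad (y + w) ≤ e.ε * (y 0 + w 0)
  have h5 := rad_add y w
  have h6 := rad_le w
  have h7 := (abs_le.1 (Im.abs_coord_le w 0)).1
  have h8 : ‖x‖ ≤ y 0 + 2 := by
    rw [← h0]
    refine abs_le_of_sq_le_sq' ?_ (by linarith) |>.2
    rw [norm_sq_eq]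
    nlinarith [rad_nonneg y]
  have h9 : 9 ≤ e.ε * ‖x‖ := by nlinarith
  have h10 : e.ε * (‖x‖ - 2 - e.ε / 4 * ‖x‖) ≤ e.ε * (y 0 + w 0) := by
    refine mul_le_mul_of_nonneg_left ?_ hε.le
    linarith
  have h11 : e.ε * (e.ε * ‖x‖) ≤ 1 * (e.ε * ‖x‖) := by gcongr
  nlinarith

/-- the hypotheses on the displacement `Y` -/
structure Sml (R₀ ε₀ C₀ : ℝ) (Y : E → E) : Prop where
  sm : S.Sm fun p => Y p.1
  y0 : ∀ x ∈ S.sl 0, ‖Y x‖ ≤ ε₀ * (1 + ‖x‖)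
  y1 : ∀ x ∈ S.sl 0, ∀ a c, |S.D a (Yc Y c) (x, 0)| ≤ ε₀
  y2 : ∀ x ∈ S.sl 0, ∀ a b c, |S.D a (S.D b (Yc Y c)) (x, 0)| ≤ C₀
  tilt : ∀ j, ∃ T : E →L[ℝ] E, ‖T‖ ≤ ε₀ ∧ ∀ x ∈ S.sl 0, (e.Q j).symm x ∈ cone0 e.ε → R₀ < ‖x‖ →
    ‖Y x - T x‖ ≤ ε₀

/-- `Y` is a contraction -/
theorem lip (hS : S.IsShr) (R₀ : ℝ) : ∃ ε₀, 0 < ε₀ ∧ ε₀ ≤ 1 / 100 ∧ ∀ (C₀ : ℝ) (Y : E → E),
    Sml e R₀ ε₀ C₀ Y → ∀ x ∈ S.sl 0, ∀ y ∈ S.sl 0, ‖Y x - Y y‖ ≤ 1 / 2 * ‖x - y‖ := by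
  obtain ⟨ρ, hρ, hR⟩ := e.reach₀
  obtain ⟨c, hc, hC⟩ := e.reach
  have hε := e.ε_pos
  have hε1 := e.ε_le
  have hR0 : 0 < e.R := pos_of_mul_pos_left (b := e.ε) (by linarith [e.R_ge, mul_comm e.ε e.R]) hε.le
  obtain ⟨δ, hδ, d1, d2⟩ : ∃ δ, 0 < δ ∧ δ ≤ e.ε / 8 ∧ δ ≤ c / 2 :=
    ⟨min (e.ε / 8) (c / 2), by positivity, min_le_left _ _, min_le_right _ _⟩
  obtain ⟨R₁, r0, r1, r2⟩ : ∃ R₁, 0 < R₁ ∧ 2 * R₀ ≤ R₁ ∧ 6 * e.R ≤ R₁ :=
    ⟨max (2 * R₀) (6 * e.R), lt_max_of_lt_right (by positivity), le_max_left _ _, le_max_right _ _⟩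
  obtain ⟨K, hK⟩ : ∃ K, K = 100 + (2 + 2 * R₁) / ρ + 2 / δ := ⟨_, rfl⟩
  have k1 : 0 < (2 + 2 * R₁) / ρ := by positivity
  have k2 : 0 < 2 / δ := by positivity
  have k0 : 0 < K := by linarith
  refine ⟨1 / (2 * K), by positivity, one_div_le_one_div_of_le (by norm_num) (by linarith),
    fun C₀ Y h x hx y hy => ?_⟩
  set ε₀ := 1 / (2 * K) with hε₀
  have e0 : 0 < ε₀ := by positivity
  suffices H : ‖Y x - Y y‖ ≤ ε₀ * (K * ‖x - y‖) by
    refine H.trans (le_of_eq ?_)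
    rw [hε₀]
    field_simp
  have hn := norm_nonneg (x - y)
  have loc : ∀ σ, 0 < σ → ‖x - y‖ ≤ σ →
      (∀ z ∈ S.sl 0, ‖z - y‖ ≤ ‖x - y‖ → S.Reach (z, 0) σ) → ‖Y x - Y y‖ ≤ ε₀ * (K * ‖x - y‖) := by
    intro σ h0 h1 h2
    have := Im.mv hS.reg (f := fun p => Y p.1) (L := 4 * ε₀) hy h0 h1 (cpt hS.closed y _)
      (fun z hz => h.sm.diffW hz.1) (fun z hz => h2 z hz.1 (mem_closedBall_iff_norm.1 hz.2))
      (fun z hz v hv => Im.td_vec_le hS.reg h.sm hz.1 (h.y1 z hz.1) hv) (by positivity)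
      ⟨hx, mem_closedBall_iff_norm.2 le_rfl⟩
    refine this.trans ?_
    have : 8 * ‖x - y‖ ≤ K * ‖x - y‖ := by gcongr; linarith
    nlinarith
  by_cases h1 : ‖x - y‖ ≤ ρ
  · exact loc ρ hρ h1 fun z hz _ => hR z hz
  have h1 := (not_le.1 h1).le
  have q1 : 2 + 2 * R₁ ≤ (2 + 2 * R₁) / ρ * ‖x - y‖ := by
    rw [div_mul_eq_mul_div, le_div_iff₀ hρ]; gcongr
  have crude : ‖Y x - Y y‖ ≤ ε₀ * (2 + 2 * ‖y‖ + ‖x - y‖) := by
    have a := norm_sub_le (Y x) (Y y)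
    have b := h.y0 x hx
    have b' := h.y0 y hy
    have b'' : ‖x‖ ≤ ‖y‖ + ‖x - y‖ := by simpa using norm_add_le y (x - y)
    nlinarith
  have kk : K * ‖x - y‖ = 100 * ‖x - y‖ + (2 + 2 * R₁) / ρ * ‖x - y‖ + 2 / δ * ‖x - y‖ := by
    rw [hK]; ring
  have k3 := mul_nonneg k2.le hn
  by_cases h2 : ‖y‖ ≤ R₁
  · exact crude.trans (mul_le_mul_of_nonneg_left (by linarith) e0.le)
  have h2 := not_le.1 h2
  by_cases h3 : δ * ‖y‖ ≤ ‖x - y‖
  · have : 2 * ‖y‖ ≤ 2 / δ * ‖x - y‖ := by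
      rw [div_mul_eq_mul_div, le_div_iff₀ hδ]; linarith
    exact crude.trans (mul_le_mul_of_nonneg_left (by linarith) e0.le)
  have h3 := (not_le.1 h3).le
  have big : ∀ z, ‖z - y‖ ≤ ‖x - y‖ → ‖y‖ ≤ 2 * ‖z‖ := fun z hz => by
    have a : ‖y‖ ≤ ‖z‖ + ‖z - y‖ := by simpa using norm_sub_le z (z - y)
    have b : δ * ‖y‖ ≤ 1 / 2 * ‖y‖ := by gcongr; linarith
    linarith
  by_cases h4 : ∃ j, (e.Q j).symm y ∈ cone0 e.ε
  · obtain ⟨j, hj⟩ := h4
    obtain ⟨T, t1, t2⟩ := h.tilt j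
    have hxj := cone_near e hy hj (z := x) (by linarith) (h3.trans (by gcongr; linarith))
    have a := t2 x hx hxj (by linarith [big x le_rfl])
    have b := t2 y hy hj (by linarith)
    have e1 : Y x - Y y = T (x - y) + ((Y x - T x) - (Y y - T y)) := by rw [map_sub]; abel
    have a1 := norm_add_le (T (x - y)) ((Y x - T x) - (Y y - T y))
    have a2 := norm_sub_le (Y x - T x) (Y y - T y)
    have a3 : ‖T (x - y)‖ ≤ ε₀ * ‖x - y‖ := (T.le_opNorm _).trans (by gcongr)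
    have a4 : ε₀ * (‖x - y‖ + 2) ≤ ε₀ * (K * ‖x - y‖) :=
      mul_le_mul_of_nonneg_left (by linarith) e0.le
    rw [e1]
    linarith
  · refine loc (δ * ‖y‖) (mul_pos hδ (by linarith)) h3 fun z hz hzy => ?_
    have b := big z hzy
    refine Rch.reach_mono (hS.reg.norm_n hz) (hC z hz (by linarith) fun j hj => h4 ⟨j, ?_⟩) ?_
    · refine cone_near e hz hj (by linarith) ?_
      rw [norm_sub_rev]
      have : δ * ‖y‖ ≤ e.ε / 8 * (2 * ‖z‖) := by gcongr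
      linarith
    · have : δ * ‖y‖ ≤ c / 2 * (2 * ‖z‖) := by gcongr
      linarith

/-- **REAL-1**: the image of the shrinker under a small displacement -/
theorem img (hS : S.IsShr) (R₀ : ℝ) : ∃ ε₀, 0 < ε₀ ∧ ∀ C₀ : ℝ, ∃ ρ₀, 0 < ρ₀ ∧
    (∀ x ∈ S.sl 0, S.Reach (x, 0) ρ₀) ∧
    ∀ Y : E → E, Sml e R₀ ε₀ C₀ Y → Out S Y (S.img (XY Y)) ρ₀ := by
  obtain ⟨ε₀, e0, e1, hl⟩ := lip e hS R₀
  obtain ⟨ρ, hρ, hR⟩ := e.reach₀
  obtain ⟨C₁, hC⟩ := e.jets₀ 1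
  refine ⟨ε₀, e0, fun C₀ => ?_⟩
  have k : 0 < 256 * (2 * |C₁| + |C₀|) + 1 := by positivity
  refine ⟨min (ρ / 4) (1 / (256 * (2 * |C₁| + |C₀|) + 1)), by positivity, fun x hx =>
    Rch.reach_mono (hS.reg.norm_n hx) (hR x hx) ((min_le_left _ _).trans (by linarith)),
    fun Y h => out_of_lip hS.reg hS.st hS.closed hρ hR (C₁ := |C₁|) (C₀ := |C₀|)
      (fun x hx a b => (hC x hx b [a] rfl).trans (le_abs_self _)) h.sm
      (fun x hx a c => (h.y1 x hx a c).trans e1)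
      (fun x hx a b c => (h.y2 x hx a b c).trans (le_abs_self _)) (hl C₀ Y h) (by positivity)
      (min_le_left _ _) ?_⟩
  refine (mul_le_mul_of_nonneg_left (min_le_right _ _) (by positivity)).trans ?_
  rw [mul_one_div, div_le_one k]
  linarith

end Crest.Agent.N250.Rl

end
end

-- ▼ part N250/Rl/Jet
section

/-!
# Row 250 (helper14): pointwise calculus of low order jets, lifts of strip functions
-/

set_option autoImplicit false
open MeasureTheory Set Filter Topology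
open scoped ContDiff InnerProductSpace
open Crest.GeometryTopology.MCF

noncomputable section

namespace Crest.Agent.N250.Rl

open Mv Po

/-- value and first derivatives at most `α` -/
structure J0 (F : Mv) (f : ST → ℝ) (α : ℝ) (p : ST) : Prop where
  h0 : |f p| ≤ α
  h1 : ∀ a, |F.D a f p| ≤ α

/-- first and second derivatives at most `α` -/
def J1 (F : Mv) (f : ST → ℝ) (α : ℝ) (p : ST) : Prop := ∀ b, J0 F (F.D b f) α p

/-- the 2-jet is at most `α` -/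
structure J2 (F : Mv) (f : ST → ℝ) (α : ℝ) (p : ST) : Prop where
  h0 : |f p| ≤ α
  h1 : J1 F f α p

variable {F : Mv} {f g : ST → ℝ} {α β : ℝ} {p : ST}

theorem abs_mul_le {x y : ℝ} (h : |x| ≤ α) (h' : |y| ≤ β) : |x * y| ≤ α * β := by
  rw [abs_mul]; exact mul_le_mul h h' (abs_nonneg _) ((abs_nonneg _).trans h)

theorem J0.nonneg (h : J0 F f α p) : 0 ≤ α := (abs_nonneg _).trans h.h0

theorem J0.mono (h : J0 F f α p) (hα : α ≤ β) : J0 F f β p :=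
  ⟨h.h0.trans hα, fun a => (h.h1 a).trans hα⟩

theorem J1.mono (h : J1 F f α p) (hα : α ≤ β) : J1 F f β p := fun b => (h b).mono hα

theorem J2.mono (h : J2 F f α p) (hα : α ≤ β) : J2 F f β p := ⟨h.h0.trans hα, h.h1.mono hα⟩

theorem J2.j0 (h : J2 F f α p) : J0 F f α p := ⟨h.h0, fun a => (h.h1 a).h0⟩

theorem J0.congr (h : J0 F f α p) (hp : p ∈ F.M) (e : ∀ q ∈ F.M, g q = f q) : J0 F g α p :=
  ⟨e p hp ▸ h.h0, fun a => D_congr' hp e a ▸ h.h1 a⟩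

theorem J1.congr (h : J1 F f α p) (hp : p ∈ F.M) (e : ∀ q ∈ F.M, g q = f q) : J1 F g α p :=
  fun b => (h b).congr hp fun _ hq => D_congr' hq e b

section

variable (hF : F.Reg) (hp : p ∈ F.M) (hf : F.Sm f) (hg : F.Sm g)
include hF hp hf

theorem J0.cmul (h : J0 F f α p) {c : ℝ} (hc : |c| ≤ β) : J0 F (fun q => c * f q) (β * α) p :=
  ⟨abs_mul_le hc h.h0, fun a => by rw [hF.D_const_mul hp c hf]; exact abs_mul_le hc (h.h1 a)⟩

theorem J1.cmul (h : J1 F f α p) {c : ℝ} (hc : |c| ≤ β) : J1 F (fun q => c * f q) (β * α) p :=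
  fun b => ((h b).cmul hF hp (hF.sm_D hf b) hc).congr hp fun _ hq => hF.D_const_mul hq c hf b

theorem D_inv (h0 : f p ≠ 0) (a : Fin 3) :
    F.D a (fun q => (f q)⁻¹) p = -((f p)⁻¹ * (f p)⁻¹) * F.D a f p := by
  rw [hF.D_comp hp (ψ := fun s => s⁻¹) hf (hasDerivAt_inv h0), sq, mul_inv]

theorem j0_inv (h1 : 1 ≤ f p) (h : ∀ a, |F.D a f p| ≤ α) (hα : 1 ≤ α) :
    J0 F (fun q => (f q)⁻¹) α p := by
  have h2 : |(f p)⁻¹| ≤ 1 := by
    rw [abs_of_pos (by positivity)]; exact inv_le_one_of_one_le₀ h1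
  refine ⟨h2.trans hα, fun a => ?_⟩
  rw [D_inv hF hp hf (by positivity), neg_mul, abs_neg]
  simpa using abs_mul_le (abs_mul_le h2 h2) (h a)

include hg

theorem J0.add (h : J0 F f α p) (h' : J0 F g β p) : J0 F (f + g) (α + β) p :=
  ⟨(abs_add_le _ _).trans (add_le_add h.h0 h'.h0), fun a => by
    rw [hF.D_add hp hf hg]; exact (abs_add_le _ _).trans (add_le_add (h.h1 a) (h'.h1 a))⟩

theorem J0.sub (h : J0 F f α p) (h' : J0 F g β p) : J0 F (f - g) (α + β) p :=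
  ⟨(abs_sub _ _).trans (add_le_add h.h0 h'.h0), fun a => by
    rw [hF.D_sub hp hf hg]; exact (abs_sub _ _).trans (add_le_add (h.h1 a) (h'.h1 a))⟩

theorem J0.mul (h : J0 F f α p) (h' : J0 F g β p) : J0 F (f * g) (2 * (α * β)) p := by
  have := mul_nonneg h.nonneg h'.nonneg
  refine ⟨(abs_mul_le h.h0 h'.h0).trans (by linarith), fun a => ?_⟩
  rw [hF.D_mul hp hf hg, two_mul]
  exact (abs_add_le _ _).trans (add_le_add (abs_mul_le h.h0 (h'.h1 a)) (abs_mul_le (h.h1 a) h'.h0))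

theorem J1.add (h : J1 F f α p) (h' : J1 F g β p) : J1 F (f + g) (α + β) p := fun b =>
  ((h b).add hF hp (hF.sm_D hf b) (hF.sm_D hg b) (h' b)).congr hp fun _ hq => hF.D_add hq hf hg b

theorem J2.add (h : J2 F f α p) (h' : J2 F g β p) : J2 F (f + g) (α + β) p :=
  ⟨(abs_add_le _ _).trans (add_le_add h.h0 h'.h0), h.h1.add hF hp hf hg h'.h1⟩

theorem J2.mul (h : J2 F f α p) (h' : J2 F g β p) : J2 F (f * g) (4 * (α * β)) p := by
  have := mul_nonneg h.j0.nonneg h'.j0.nonneg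
  refine ⟨(abs_mul_le h.h0 h'.h0).trans (by linarith), fun b => ?_⟩
  refine (((h.j0.mul hF hp hf (hF.sm_D hg b) (h'.h1 b)).add hF hp (hf.mul (hF.sm_D hg b))
    ((hF.sm_D hf b).mul hg) ((h.h1 b).mul hF hp (hF.sm_D hf b) hg h'.j0)).congr hp
    fun q hq => hF.D_mul hq hf hg b).mono (le_of_eq (by ring))

end

theorem j2_inv (hF : F.Reg) (hp : p ∈ F.M) (hf : F.Sm f) (h1 : ∀ q ∈ F.M, 1 ≤ f q)
    (h : J1 F f α p) (hα : 1 ≤ α) : J2 F (fun q => (f q)⁻¹) (4 * α ^ 3) p := by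
  have h0 : ∀ q ∈ F.M, f q ≠ 0 := fun q hq => (one_pos.trans_le (h1 q hq)).ne'
  have s : F.Sm fun q => (f q)⁻¹ := ContDiffOn.inv hf h0
  have j := j0_inv hF hp hf (h1 p hp) (fun a => (h a).h0) hα
  refine ⟨j.h0.trans (by nlinarith [mul_nonneg (sub_nonneg.2 hα) (sq_nonneg α), sq_nonneg (α - 1)]),
    fun b => ?_⟩
  refine ((((j.mul hF hp s s j).mul hF hp (s.mul s) (hF.sm_D hf b) (h b)).cmul hF hp
    ((s.mul s).mul (hF.sm_D hf b)) (c := -1) (β := 1) (by simp)).congr hp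
    fun q hq => ?_).mono (le_of_eq (by ring))
  rw [D_inv hF hq hf (h0 q hq)]
  simp

/-- `√(1 + u) - 1` -/
theorem j2_sqrt (hF : F.Reg) (hp : p ∈ F.M) (hf : F.Sm f) (h1 : ∀ q ∈ F.M, |f q| ≤ 1 / 2)
    (h : J2 F f α p) : (F.Sm fun q => √(1 + f q) - 1) ∧
      J2 F (fun q => √(1 + f q) - 1) (2 * ((1 + 2 * α) * α)) p := by
  have h0 : ∀ q ∈ F.M, 1 + f q ≠ 0 := fun q hq => by linarith [(abs_le.1 (h1 q hq)).1]
  have h2 : ∀ q ∈ F.M, 1 ≤ 2 * √(1 + f q) := fun q hq => by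
    have : 1 / 2 ≤ √(1 + f q) := Real.le_sqrt_of_sq_le (by linarith [(abs_le.1 (h1 q hq)).1])
    linarith
  have s1 : F.Sm fun q => √(1 + f q) := ContDiffOn.sqrt (contDiffOn_const.add hf) h0
  have s2 : F.Sm fun q => 2 * √(1 + f q) := contDiffOn_const.mul s1
  have s3 : F.Sm fun q => (2 * √(1 + f q))⁻¹ :=
    ContDiffOn.inv s2 fun q hq => (one_pos.trans_le (h2 q hq)).ne'
  have hα := h.j0.nonneg
  have d : ∀ c : ℝ, ∀ q ∈ F.M, ∀ b, F.D b (fun q => √(1 + f q) - c) q =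
      (2 * √(1 + f q))⁻¹ * F.D b f q := fun c q hq b => by
    rw [hF.D_comp hq (ψ := fun s => √(1 + s) - c) hf
      ((((hasDerivAt_id (f q)).const_add 1).sqrt (h0 q hq)).sub_const c), one_div]
    rfl
  have b1 : |(2 * √(1 + f p))⁻¹| ≤ 1 := by
    have := h2 p hp
    rw [abs_of_pos (by positivity)]; exact inv_le_one_of_one_le₀ this
  have j : J0 F (fun q => (2 * √(1 + f q))⁻¹) (1 + 2 * α) p :=
    j0_inv hF hp s2 (h2 p hp) (fun a => by
      have e := d 0 p hp a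
      simp only [sub_zero] at e
      rw [hF.D_const_mul hp 2 s1, e, abs_mul, abs_two]
      linarith [abs_mul_le b1 (h.j0.h1 a)]) (by linarith)
  refine ⟨s1.sub (sm_const 1), ?_, fun b => (j.mul hF hp s3 (hF.sm_D hf b) (h.h1 b)).congr hp
    fun q hq => d 1 q hq b⟩
  have e : (√(1 + f p) - 1) * (√(1 + f p) + 1) = f p := by
    have := Real.mul_self_sqrt (show 0 ≤ 1 + f p by linarith [(abs_le.1 (h1 p hp)).1])
    linarith
  have b2 : |√(1 + f p) - 1| ≤ |f p| := by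
    conv_rhs => rw [← e, abs_mul]
    refine le_mul_of_one_le_right (abs_nonneg _) ?_
    rw [abs_of_nonneg (by positivity)]
    linarith [Real.sqrt_nonneg (1 + f p)]
  refine (b2.trans h.h0).trans ?_
  nlinarith

theorem j1_x (hF : F.Reg) (hp : p ∈ F.M) (hA : ∀ a b, |F.A a b p| ≤ α) (c : Fin 3) :
    J1 F (F.pre.x c) (2 + 2 * α) p := fun b => by
  have hν : ∀ a, |F.nu a p| ≤ 1 := fun a => (Im.abs_coord_le _ a).trans (hF.norm_n hp).le
  have h0 : 0 ≤ α := (abs_nonneg _).trans (hA 0 0)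
  have j : ∀ a, J0 F (F.nu a) (1 + α) p := fun a =>
    ⟨(hν a).trans (by linarith), fun i => (hA i a).trans (by linarith)⟩
  have e : ∀ q ∈ F.M, F.D b (F.pre.x c) q =
      (((fun _ => if b = c then 1 else 0) - F.nu b * F.nu c : ST → ℝ)) q := fun q hq => hF.P_eq hq b c
  refine J0.congr ⟨?_, fun a => ?_⟩ hp e
  · have := abs_mul_le (hν b) (hν c)
    refine (abs_sub _ _).trans ?_
    rw [Pi.mul_apply]
    split_ifs <;> simp only [abs_one, abs_zero] <;> linarith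
  · rw [hF.D_sub hp (sm_const _) ((hF.sm_nu b).mul (hF.sm_nu c)), hF.D_const hp,
      hF.D_mul hp (hF.sm_nu b) (hF.sm_nu c), zero_sub, abs_neg]
    have b1 := abs_mul_le (hν b) (hA a c)
    have b2 := abs_mul_le (hA a b) (hν c)
    exact (abs_add_le _ _).trans (by simp only [A] at b1 b2; linarith)

theorem sm_lin (F : Mv) (l : E →L[ℝ] ℝ) : F.Sm fun q => l q.1 :=
  sm_of_contDiff (l.contDiff.comp contDiff_fst)

theorem j1_lin (hF : F.Reg) (hp : p ∈ F.M) (hA : ∀ a b, |F.A a b p| ≤ α) (l : E →L[ℝ] ℝ)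
    (hl : ∀ d, |l (ee d)| ≤ β) : J1 F (fun q => l q.1) (β * (6 + 6 * α)) p := by
  have s : ∀ d, F.Sm fun q => l (ee d) * F.pre.x d q := fun d => (sm_const _).mul (sm_x d)
  have j : ∀ d, J1 F (fun q => l (ee d) * F.pre.x d q) (β * (2 + 2 * α)) p := fun d =>
    (j1_x hF hp hA d).cmul hF hp (sm_x d) (hl d)
  refine ((((j 0).add hF hp (s 0) (s 1) (j 1)).add hF hp ((s 0).add (s 1)) (s 2) (j 2)).congr hp
    fun q _ => ?_).mono (le_of_eq (by ring))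
  conv_lhs => rw [eq_sum_ee q.1]
  simp only [Fin.sum_univ_three, map_add, map_smul, smul_eq_mul, Pi.add_apply, mul_comm]
  rfl

theorem D_lin (hF : F.Reg) (hp : p ∈ F.M) (l : E →L[ℝ] ℝ) (a : Fin 3) :
    F.D a (fun q => l q.1) p = l (F.PL p (ee a)) := by
  have h : HasFDerivAt (fun q : ST => l q.1) _ p := l.hasFDerivAt.comp p hasFDerivAt_fst
  rw [hF.D_amb hp h.differentiableAt, h.fderiv]
  rfl

/-! ### lifts -/

variable {Q : E ≃ₗᵢ[ℝ] E} {u : ℝ × ℝ → ℝ}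

/-- the coordinates in the frame `Q` -/
def yy (Q : E ≃ₗᵢ[ℝ] E) (k : Fin 3) : E →L[ℝ] ℝ :=
  (EuclideanSpace.proj (𝕜 := ℝ) k).comp Q.symm.toContinuousLinearEquiv.toContinuousLinearMap

theorem yy_apply (k : Fin 3) (x : E) : yy Q k x = Q.symm x k := rfl

theorem yy_le (k : Fin 3) (x : E) : |yy Q k x| ≤ ‖x‖ :=
  (Im.abs_coord_le _ k).trans (Q.symm.norm_map x).le

theorem per_fd (hu : Per u) (w : ℝ × ℝ) : Per fun q => fderiv ℝ u q w := fun s θ => by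
  have e : (fun q : ℝ × ℝ => u (q + (0, 2 * Real.pi))) = u := funext fun q => by
    rw [← hu q.1 q.2]; congr 1; ext <;> simp
  have := fderiv_comp_add_right (𝕜 := ℝ) (f := u) (x := (s, θ)) (0, 2 * Real.pi)
  rw [e] at this
  simp only [this, Prod.mk_add_mk, add_zero]

theorem fd_lift (hu : Per u) {y : E} (hy : zc Q y ≠ 0) (h : DifferentiableAt ℝ u (crd Q y)) (v : E) :
    fderiv ℝ (fun z => u (crd Q z)) y v = d1 u (crd Q y) * yy Q 0 v + d2 u (crd Q y) *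
      ((yy Q 1 y * yy Q 2 v - yy Q 2 y * yy Q 1 v) * (yy Q 1 y * yy Q 1 y + yy Q 2 y * yy Q 2 y)⁻¹) := by
  obtain ⟨c, h1, h2, h3⟩ := exists_branch hy
  have dc := ((h1 1).differentiableAt one_ne_zero).hasFDerivAt
  have e0 : (fun z => u (crd Q z)) =ᶠ[𝓝 y] u ∘ c := by
    filter_upwards [h3] with z hz
    have := hu.angle (crd Q z).1 hz.2
    rw [Function.comp_apply, ← this, ← hz.1]
  have e1 : (fderiv ℝ c y v).1 = yy Q 0 v := by
    have := dc.fst.unique ((yy Q 0).hasFDerivAt.congr_of_eventuallyEq (h3.mono fun z hz => hz.1))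
    exact congrArg (fun T : E →L[ℝ] ℝ => T v) this
  have e2 : (fun z => yy Q 1 z * Real.sin (c z).2 - yy Q 2 z * Real.cos (c z).2) =ᶠ[𝓝 y]
      fun _ => 0 := by
    filter_upwards [h3] with z hz
    have a1 : Real.sin (c z).2 = Real.sin (zc Q z).arg := by
      rw [← Real.Angle.sin_coe, hz.2]; rfl
    have a2 : Real.cos (c z).2 = Real.cos (zc Q z).arg := by
      rw [← Real.Angle.cos_coe, hz.2]; rfl
    have a3 : ‖zc Q z‖ * Real.cos (zc Q z).arg = yy Q 1 z := Complex.norm_mul_cos_arg _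
    have a4 : ‖zc Q z‖ * Real.sin (zc Q z).arg = yy Q 2 z := Complex.norm_mul_sin_arg _
    rw [a1, a2, ← a3, ← a4]
    ring
  have e3 := congrArg (fun T : E →L[ℝ] ℝ => T v) ((((yy Q 1).hasFDerivAt.mul dc.snd.sin).sub
    ((yy Q 2).hasFDerivAt.mul dc.snd.cos)).unique
    ((hasFDerivAt_const (0 : ℝ) y).congr_of_eventuallyEq e2))
  have a3 : ‖zc Q y‖ * Real.cos (c y).2 = yy Q 1 y := h2 ▸ Complex.norm_mul_cos_arg _
  have a4 : ‖zc Q y‖ * Real.sin (c y).2 = yy Q 2 y := h2 ▸ Complex.norm_mul_sin_arg _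
  have a5 : yy Q 1 y * yy Q 1 y + yy Q 2 y * yy Q 2 y ≠ 0 := fun h0 => hy (Complex.normSq_eq_zero.1 h0)
  have e4 : (fderiv ℝ c y v).2 = (yy Q 1 y * yy Q 2 v - yy Q 2 y * yy Q 1 v) *
      (yy Q 1 y * yy Q 1 y + yy Q 2 y * yy Q 2 y)⁻¹ := by
    rw [eq_mul_inv_iff_mul_eq₀ a5]
    simp only [ContinuousLinearMap.sub_apply, ContinuousLinearMap.add_apply,
      ContinuousLinearMap.smul_apply, ContinuousLinearMap.comp_apply, ContinuousLinearMap.coe_snd',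
      smul_eq_mul, ContinuousLinearMap.zero_apply] at e3
    linear_combination ‖zc Q y‖ * e3 - (yy Q 1 y * (fderiv ℝ c y v).2 - yy Q 2 v) * a3 -
      (yy Q 2 y * (fderiv ℝ c y v).2 + yy Q 1 v) * a4
  rw [e0.fderiv_eq, fderiv_comp y (h2 ▸ h) dc.differentiableAt, ContinuousLinearMap.comp_apply, h2,
    ← e1, ← e4, d1, d2, mul_comm, mul_comm (fderiv ℝ u _ _), ← smul_eq_mul, ← smul_eq_mul,
    ← map_smul, ← map_smul, ← map_add]
  congr 1
  ext <;> simp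

/-- the lift of a function on the strip -/
def lf (Q : E ≃ₗᵢ[ℝ] E) (u : ℝ × ℝ → ℝ) (p : ST) : ℝ := u (crd Q p.1)

/-- the coordinates as functions on spacetime -/
def yc (Q : E ≃ₗᵢ[ℝ] E) (k : Fin 3) (p : ST) : ℝ := yy Q k p.1

/-- the squared radius -/
def ss (Q : E ≃ₗᵢ[ℝ] E) : ST → ℝ := yc Q 1 * yc Q 1 + yc Q 2 * yc Q 2

/-- the tangential derivative of the angle -/
def om (F : Mv) (Q : E ≃ₗᵢ[ℝ] E) (b : Fin 3) : ST → ℝ :=
  (yc Q 1 * F.D b (yc Q 2) - yc Q 2 * F.D b (yc Q 1)) * fun q => (ss Q q)⁻¹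

theorem sm_yc (F : Mv) (k : Fin 3) : F.Sm (yc Q k) := sm_lin F _

theorem sm_ss (F : Mv) : F.Sm (ss Q) := ((sm_yc F 1).mul (sm_yc F 1)).add ((sm_yc F 2).mul (sm_yc F 2))

theorem zc_ne (h : 1 ≤ ss Q p) : zc Q p.1 ≠ 0 := fun h0 => by
  have : ss Q p = 0 := Complex.normSq_eq_zero.2 h0
  linarith

section Lift

variable {U : Set (ℝ × ℝ)} (hF : F.Reg) (hs : ∀ q ∈ F.M, 1 ≤ ss Q q) (hU : IsOpen U)
  (hm : ∀ q ∈ F.M, crd Q q.1 ∈ U)
include hs

theorem sm_si : F.Sm fun q => (ss Q q)⁻¹ :=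
  ContDiffOn.inv (sm_ss F) fun q hq => (one_pos.trans_le (hs q hq)).ne'

include hF in
theorem sm_om (b : Fin 3) : F.Sm (om F Q b) :=
  (((sm_yc F 1).mul (hF.sm_D (sm_yc F 2) b)).sub ((sm_yc F 2).mul (hF.sm_D (sm_yc F 1) b))).mul
    (sm_si hs)

include hU hm

theorem cda_lf (hu : Per u) (h : ContDiffOn ℝ ∞ u U) (hp : p ∈ F.M) : ContDiffAt ℝ ∞ (lf Q u) p :=
  (hu.contDiffAt (zc_ne (hs p hp)) (h.contDiffAt (hU.mem_nhds (hm p hp)))).comp p contDiffAt_fst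

theorem sm_lf (hu : Per u) (h : ContDiffOn ℝ ∞ u U) : F.Sm (lf Q u) := fun _ hp =>
  (cda_lf hs hU hm hu h hp).contDiffWithinAt

include hF

theorem D_lf (hu : Per u) (h : ContDiffOn ℝ ∞ u U) (hp : p ∈ F.M) (b : Fin 3) :
    F.D b (lf Q u) p = (lf Q (d1 u) * F.D b (yc Q 0) + lf Q (d2 u) * om F Q b) p := by
  have h1 := h.contDiffAt (hU.mem_nhds (hm p hp))
  have h2 := ((hu.contDiffAt (zc_ne (hs p hp)) h1).differentiableAt (by simp)).hasFDerivAt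
  have h3 : HasFDerivAt (lf Q u) _ p := h2.comp p hasFDerivAt_fst
  have e : ∀ k, F.D b (yc Q k) p = yy Q k (F.PL p (ee b)) := fun k => D_lin hF hp _ b
  rw [hF.D_amb hp h3.differentiableAt, h3.fderiv, ContinuousLinearMap.comp_apply,
    fd_lift hu (zc_ne (hs p hp)) (h1.differentiableAt (by simp))]
  simp only [om, Pi.add_apply, Pi.mul_apply, Pi.sub_apply, e]
  rfl

omit hF hs hm in
theorem cdo_fd (h : ContDiffOn ℝ ∞ u U) (w : ℝ × ℝ) : ContDiffOn ℝ ∞ (fun q => fderiv ℝ u q w) U :=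
  (h.fderiv_of_isOpen hU (by simp)).clm_apply contDiffOn_const

theorem j0_lf (hu : Per u) (h : ContDiffOn ℝ ∞ u U) (hp : p ∈ F.M) {B ε : ℝ} (hB : 1 ≤ B)
    (h0 : J1 F (yc Q 0) B p) (ho : ∀ b, J0 F (om F Q b) B p) (b0 : |u (crd Q p.1)| ≤ ε)
    (b1 : |d1 u (crd Q p.1)| ≤ ε) (b2 : |d2 u (crd Q p.1)| ≤ ε) : J0 F (lf Q u) (2 * (ε * B)) p := by
  have : 0 ≤ ε := (abs_nonneg _).trans b0
  refine ⟨b0.trans (by nlinarith), fun a => ?_⟩
  rw [D_lf hF hs hU hm hu h hp, two_mul]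
  exact (abs_add_le _ _).trans (add_le_add (abs_mul_le b1 (h0 a).h0) (abs_mul_le b2 (ho a).h0))

/-- **2-jets of lifts** -/
theorem j2_lf (hu : Per u) (h : ContDiffOn ℝ ∞ u U) (hp : p ∈ F.M) {B ε : ℝ} (hB : 1 ≤ B)
    (h0 : J1 F (yc Q 0) B p) (ho : ∀ b, J0 F (om F Q b) B p) (b0 : |u (crd Q p.1)| ≤ ε)
    (b1 : |d1 u (crd Q p.1)| ≤ ε) (b2 : |d2 u (crd Q p.1)| ≤ ε)
    (b11 : |d1 (d1 u) (crd Q p.1)| ≤ ε) (b12 : |d1 (d2 u) (crd Q p.1)| ≤ ε)
    (b22 : |d2 (d2 u) (crd Q p.1)| ≤ ε) : J2 F (lf Q u) (8 * B ^ 2 * ε) p := by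
  have : 0 ≤ ε := (abs_nonneg _).trans b0
  have b21 : |d2 (d1 u) (crd Q p.1)| ≤ ε := by
    rwa [d21 ((h.contDiffAt (hU.mem_nhds (hm p hp))).of_le (WithTop.coe_le_coe.2 (le_top : (2 : ℕ∞) ≤ ⊤)))]
  have p1 : Per (d1 u) := per_fd hu _
  have p2 : Per (d2 u) := per_fd hu _
  have c1 : ContDiffOn ℝ ∞ (d1 u) U := cdo_fd hU h _
  have c2 : ContDiffOn ℝ ∞ (d2 u) U := cdo_fd hU h _
  have s1 := sm_lf hs hU hm p1 c1
  have s2 := sm_lf hs hU hm p2 c2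
  have j1 := j0_lf hF hs hU hm p1 c1 hp hB h0 ho b1 b11 b21
  have j2 := j0_lf hF hs hU hm p2 c2 hp hB h0 ho b2 b12 b22
  refine ⟨b0.trans (by nlinarith [mul_nonneg this (show 0 ≤ B ^ 2 - 1 by nlinarith)]), fun b => ?_⟩
  have s3 := hF.sm_D (sm_yc (Q := Q) F 0) b
  have s4 := sm_om hF hs b
  exact (((j1.mul hF hp s1 s3 (h0 b)).add hF hp (s1.mul s3) (s2.mul s4)
    (j2.mul hF hp s2 s4 (ho b))).congr hp fun q hq => D_lf hF hs hU hm hu h hq b).mono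
    (le_of_eq (by ring))

end Lift

/-- uniform bounds for the coordinates, `1 / r²` and the angle form -/
theorem frame_bd (α : ℝ) : ∃ B, 1 ≤ B ∧ 6 + 6 * |α| ≤ B ∧ ∀ (F : Mv) (Q : E ≃ₗᵢ[ℝ] E) (p : ST),
    F.Reg → (∀ q ∈ F.M, 1 ≤ ss Q q) → p ∈ F.M → ss Q p ≤ 4 → (∀ a b, |F.A a b p| ≤ α) →
    J1 F (yc Q 0) B p ∧ J2 F (fun q => (ss Q q)⁻¹) B p ∧ ∀ b, J0 F (om F Q b) B p := by
  obtain ⟨m, hm⟩ : ∃ m, m = 6 + 6 * |α| := ⟨_, rfl⟩
  have m1 : 6 ≤ m := by linarith [abs_nonneg α]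
  obtain ⟨n, hn⟩ : ∃ n, n = 4 * (4 * (m * m) + 4 * (m * m)) ^ 3 := ⟨_, rfl⟩
  have n1 : 0 ≤ n := by rw [hn]; positivity
  have n2 : 0 ≤ 2 * ((2 * (m * m) + 2 * (m * m)) * n) := by positivity
  refine ⟨m + n + 2 * ((2 * (m * m) + 2 * (m * m)) * n), by linarith, by linarith,
    fun F Q p hF hs hp h4 hA => ?_⟩
  have j : ∀ k, J1 F (yc Q k) m p := fun k =>
    (j1_lin hF hp (fun a b => (hA a b).trans (le_abs_self α)) (yy Q k) (β := 1)
      fun d => (yy_le k _).trans (Im.norm_ee d).le).mono (by rw [hm, one_mul])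
  have h4' : yc Q 1 p * yc Q 1 p + yc Q 2 p * yc Q 2 p ≤ 4 := h4
  have j1 : J2 F (yc Q 1) m p := ⟨(abs_le.2 ⟨by nlinarith, by nlinarith⟩ : _ ≤ (6 : ℝ)).trans m1, j 1⟩
  have j2 : J2 F (yc Q 2) m p := ⟨(abs_le.2 ⟨by nlinarith, by nlinarith⟩ : _ ≤ (6 : ℝ)).trans m1, j 2⟩
  have s := sm_yc (Q := Q) F
  have js : J2 F (ss Q) _ p := (j1.mul hF hp (s 1) (s 1) j1).add hF hp ((s 1).mul (s 1))
    ((s 2).mul (s 2)) (j2.mul hF hp (s 2) (s 2) j2)
  have ji := j2_inv hF hp (sm_ss F) hs js.h1 (by nlinarith)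
  rw [← hn] at ji
  refine ⟨(j 0).mono (by linarith), ji.mono (by linarith), fun b => ?_⟩
  have s1 := (s 1).mul (hF.sm_D (s 2) b)
  have s2 := (s 2).mul (hF.sm_D (s 1) b)
  exact (((j1.j0.mul hF hp (s 1) (hF.sm_D (s 2) b) (j 2 b)).sub hF hp s1 s2
    (j2.j0.mul hF hp (s 2) (hF.sm_D (s 1) b) (j 1 b))).mul hF hp (s1.sub s2) (sm_si hs)
    ji.j0).mono (by linarith)

end Crest.Agent.N250.Rl

end
end

-- ▼ part N250/Rl/Tube
section

/-!
# Row 250 (helper14): jets of the displacement on a tube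
-/

set_option autoImplicit false
open MeasureTheory Set Filter Topology
open scoped ContDiff InnerProductSpace
open Crest.GeometryTopology.MCF

noncomputable section

namespace Crest.Agent.N250.Rl

open Mv Po Wr Fm

variable {S : Mv} {e : Ends S} {j : Fin e.p} {p : ST}

theorem ss_eq (j : Fin e.p) (p : ST) : ss (e.Q j) p = r2 e j p.1 := by
  rw [r2, xi_eq, ← (e.Q j).symm.norm_map p.1, EuclideanSpace.real_norm_sq_eq, Fin.sum_univ_three]
  simp only [ss, yc, yy_apply, Pi.add_apply, Pi.mul_apply]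
  ring

theorem crd_fst (j : Fin e.p) (x : E) : (crd (e.Q j) x).1 = xi e j x := (xi_eq j x).symm

theorem per_r (j : Fin e.p) : Per (e.r j) := e.per j

theorem per_vS (j : Fin e.p) : Per (vS e j) := fun s θ => by simp only [vS, e.per j s θ]

theorem sm_vS (j : Fin e.p) : ContDiffOn ℝ ∞ (vS e j) {q | e.R < q.1} := ((e.sm j).pow 2).div_const 2

/-- points of the tube in the chart -/
theorem pX_crd (hS : S.Static) (hp : p ∈ S.M) (ht : p ∈ tube e j e.R) :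
    pX (e.Q j) (e.r j) (crd (e.Q j) p.1) = p.1 ∧ e.r j (crd (e.Q j) p.1) ^ 2 = ss (e.Q j) p := by
  obtain ⟨θ, h⟩ := exists_pol hS hp (tube_cone ht) ht.1
  have h1 := (e.near j (xi e j p.1, θ) ht.1).1
  have h2 : e.r j (crd (e.Q j) p.1) = e.r j (xi e j p.1, θ) := by
    conv_lhs => rw [h]
    exact (per_r j).crd_cyl _ (by linarith) θ
  have h3 : ‖zc (e.Q j) p.1‖ = e.r j (xi e j p.1, θ) := by
    conv_lhs => rw [h]
    rw [norm_zc_cyl, abs_of_pos (by linarith)]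
  refine ⟨by rw [pX, h2, ← h3, cyl_crd], ?_⟩
  rw [h2, ← h3, Complex.sq_norm]
  rfl

/-- the radial part as a linear map -/
def wL (e : Ends S) (j : Fin e.p) : E →L[ℝ] E :=
  ContinuousLinearMap.id ℝ E - (innerSL ℝ (ax e j)).smulRight (ax e j)

theorem wL_apply (x : E) : wL e j x = wv e j x := rfl

theorem norm_wv_le (x : E) : ‖wv e j x‖ ≤ ‖x‖ := by
  refine abs_le_of_sq_le_sq' ?_ (norm_nonneg _) |>.2
  rw [← r2_eq_wv, r2]
  nlinarith [sq_nonneg (xi e j x)]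

theorem pX_add (q : ℝ × ℝ) (r : ℝ × ℝ → ℝ) (h : ℝ) :
    (e.Q j).symm (pX (e.Q j) r q + h • wv e j (pX (e.Q j) r q)) = cylP q.1 ((1 + h) * r q) q.2 := by
  rw [wv, pX, xi_Q, ax, ← map_smul, ← map_sub, ← map_smul, ← map_add,
    LinearIsometryEquiv.symm_apply_apply]
  ext i
  fin_cases i <;> simp [cylP] <;> ring

/-- **jets of the displacement on a tube** -/
theorem tube_jets (hS : S.IsShr) (e : Ends S) : ∃ C, 0 < C ∧ ∀ (j : Fin e.p) (R : E ≃ₗᵢ[ℝ] E)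
    (v : ℝ × ℝ → ℝ) (a : ℝ) (Y : E → E), e.R ≤ a → ContDiffOn ℝ ∞ v {q | a < q.1} → Per v →
    (∀ q : ℝ × ℝ, a < q.1 → |v q - vS e j q| ≤ 1 / 10) →
    (∀ q : ℝ × ℝ, a < q.1 → pX (e.Q j) (e.r j) q + Y (pX (e.Q j) (e.r j) q) =
      pX (R.trans (e.Q j)) (fun q => √(2 * v q)) q) →
    ContDiffOn ℝ ∞ (fun p : ST => Y p.1) (S.M ∩ tube e j a) ∧ ∀ ε, ε ≤ 1 / 10 →
      (∀ y, ‖R y - y‖ ≤ ε * ‖y‖) → ∃ T : E →L[ℝ] E, ‖T‖ ≤ ε ∧ ∀ p ∈ S.M, p ∈ tube e j a →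
        J2le (fun y => v y - vS e j y) ε (crd (e.Q j) p.1) → ‖Y p.1 - T p.1‖ ≤ C * ε ∧
        (∀ i c, |S.D i (Yc Y c) p| ≤ C * ε) ∧ ∀ i k c, |S.D i (S.D k (Yc Y c)) p| ≤ C * ε := by
  obtain ⟨C₁, hC⟩ := e.jets₀ 1
  obtain ⟨B, B1, B2, hB⟩ := frame_bd C₁
  obtain ⟨K, hK⟩ : ∃ K, K = 2 * (4 * (8 * B ^ 2 * B)) := ⟨_, rfl⟩
  have K0 : 0 < K := by rw [hK]; positivity
  refine ⟨B + 4 * (2 * ((1 + 2 * K) * K) * B), by positivity, fun j R v a Y ha hv hp hs hY => ?_⟩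
  have hΩ := isOpen_tube (e := e) j a
  set F := S.res (tube e j a) with hFd
  have hF : F.Reg := Tr.res_reg hΩ hS.reg
  have hU : IsOpen {q : ℝ × ℝ | a < q.1} := isOpen_lt continuous_const continuous_fst
  have s1 : ∀ q ∈ F.M, 1 ≤ ss (e.Q j) q := fun q hq => by
    have := one_lt_wv hS.st hq.1 (tube_mono ha hq.2)
    rw [ss_eq, r2_eq_wv]
    nlinarith
  have hm : ∀ q ∈ F.M, crd (e.Q j) q.1 ∈ {q : ℝ × ℝ | a < q.1} := fun q hq => by
    change a < _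
    rw [crd_fst]
    exact hq.2.1
  set g : ℝ × ℝ → ℝ := fun y => v y - vS e j y with hg
  have pg : Per g := fun s θ => by simp only [hg, hp s θ, per_vS j s θ]
  have cg : ContDiffOn ℝ ∞ g {q | a < q.1} :=
    hv.sub ((sm_vS j).mono fun q hq => ha.trans_lt hq)
  have sw := sm_lf s1 hU hm pg cg
  have si := sm_si s1
  set u : ST → ℝ := fun q => 2 * (lf (e.Q j) g * fun q => (ss (e.Q j) q)⁻¹ : ST → ℝ) q with hu
  have su : F.Sm u := (sm_const 2).mul (sw.mul si)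
  have bu : ∀ q ∈ F.M, |u q| ≤ 1 / 2 := fun q hq => by
    have h1 := s1 q hq
    have h2 : |(ss (e.Q j) q)⁻¹| ≤ 1 := by
      rw [abs_of_pos (by positivity)]; exact inv_le_one_of_one_le₀ h1
    have h3 := abs_mul_le (hs _ (hm q hq)) h2
    rw [hu]
    simp only [Pi.mul_apply, abs_mul, abs_two] at h3 ⊢
    simp only [lf, hg]
    linarith
  set h : ST → ℝ := fun q => √(1 + u q) - 1 with hh
  obtain ⟨M, hMa⟩ : ∃ M : E →L[ℝ] E, ∀ x, M x = e.Q j (R ((e.Q j).symm x)) :=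
    ⟨(((e.Q j).symm.trans R).trans (e.Q j)).toContinuousLinearEquiv.toContinuousLinearMap,
      fun _ => rfl⟩
  have nM : ∀ x, ‖M x‖ = ‖x‖ := fun x => by simp [hMa]
  have key : ∀ q ∈ F.M, Y q.1 = (M - ContinuousLinearMap.id ℝ E) q.1 + h q • M (wL e j q.1) := by
    intro q hq
    obtain ⟨h1, h2⟩ := pX_crd hS.st hq.1 (tube_mono ha hq.2)
    have h3 := hY _ (hm q hq)
    have h4 := pX_add (j := j) (crd (e.Q j) q.1) (e.r j) (h q)
    rw [h1] at h3 h4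
    have h5 := (e.near j _ (ha.trans_lt (hm q hq))).1
    have h6 : (1 + h q) * e.r j (crd (e.Q j) q.1) = √(2 * v (crd (e.Q j) q.1)) := by
      have h7 := s1 q hq
      rw [hh]
      simp only [add_sub_cancel]
      rw [← Real.sqrt_sq (show 0 ≤ e.r j (crd (e.Q j) q.1) by linarith), ← Real.sqrt_mul' _ (sq_nonneg _)]
      congr 1
      simp only [hu, Pi.mul_apply, lf, hg, vS, h2]
      field_simp
      ring
    have h7 : M (q.1 + h q • wv e j q.1) = q.1 + Y q.1 := by rw [hMa, h4, h3, h6]; rfl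
    rw [map_add, map_smul] at h7
    rw [ContinuousLinearMap.sub_apply, wL_apply, ContinuousLinearMap.id_apply, sub_add_eq_add_sub, h7]
    abel
  have h0 : ∀ q ∈ F.M, 1 + u q ≠ 0 := fun q hq => by linarith [(abs_le.1 (bu q hq)).1]
  have sh : F.Sm h := (ContDiffOn.sqrt (contDiffOn_const.add su) h0).sub contDiffOn_const
  refine ⟨ContDiffOn.congr (((M - ContinuousLinearMap.id ℝ E).contDiff.comp contDiff_fst).contDiffOn.add
    (ContDiffOn.smul sh ((M.comp (wL e j)).contDiff.comp contDiff_fst).contDiffOn)) key,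
    fun ε ε1 hR => ?_⟩
  have ε0 : 0 ≤ ε := by simpa [Im.norm_ee] using (norm_nonneg _).trans (hR (ee 0))
  have bT : ∀ x, ‖(M - ContinuousLinearMap.id ℝ E) x‖ ≤ ε * ‖x‖ := fun x => by
    have := hR ((e.Q j).symm x)
    rw [← (e.Q j).norm_map, map_sub, LinearIsometryEquiv.apply_symm_apply,
      LinearIsometryEquiv.norm_map, ← hMa] at this
    exact this
  refine ⟨_, ContinuousLinearMap.opNorm_le_bound _ ε0 bT, fun p hpM hpt J => ?_⟩
  have hpF : p ∈ F.M := ⟨hpM, hpt⟩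
  have hA : ∀ a b, |F.A a b p| ≤ C₁ := fun a b => by
    rw [hFd, Tr.res_A hΩ hpt]
    exact njet_st hS.st (hC p.1 ((hS.st.mem p.1 p.2).1 hpM)) b [a] rfl
  have hA' : ∀ a b, |F.A a b p| ≤ |C₁| := fun a b => (hA a b).trans (le_abs_self _)
  obtain ⟨f1, f2, f3⟩ := hB F (e.Q j) p hF s1 hpF (by rw [ss_eq]; exact hpt.2.le) hA
  have jw := j2_lf hF s1 hU hm pg cg hpF B1 f1 f3 J.h0 J.h1 J.h2 J.h11 J.h12 J.h22
  have jm := jw.mul hF hpF sw si f2
  have ju : J2 F u (K * ε) p := J2.mono ⟨abs_mul_le (le_of_eq abs_two) jm.h0,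
    jm.h1.cmul hF hpF (sw.mul si) (le_of_eq abs_two)⟩ (le_of_eq (by rw [hK]; ring))
  have jh : J2 F h (2 * ((1 + 2 * K) * K) * ε) p := (j2_sqrt hF hpF su bu ju).2.mono (by
    have : K * ε ≤ K := mul_le_of_le_one_right K0.le (by linarith)
    have : (1 + 2 * (K * ε)) * (K * ε) ≤ (1 + 2 * K) * (K * ε) := by gcongr
    linarith)
  have w2 := wv_lt_two hpt
  have k1 : 0 ≤ 2 * ((1 + 2 * K) * K) * ε := by positivity
  have jY : ∀ c, J1 F (Yc Y c) ((B + 4 * (2 * ((1 + 2 * K) * K) * B)) * ε) p := fun c => by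
    set l1 := (EuclideanSpace.proj (𝕜 := ℝ) c).comp (M - ContinuousLinearMap.id ℝ E)
    set l2 := (EuclideanSpace.proj (𝕜 := ℝ) c).comp (M.comp (wL e j))
    have b2 : ∀ x, |l2 x| ≤ ‖wv e j x‖ := fun x => (Im.abs_coord_le _ c).trans (nM _).le
    have j1 := j1_lin hF hpF hA' l1 (β := ε) fun d =>
      (Im.abs_coord_le _ c).trans ((bT _).trans (by rw [Im.norm_ee, mul_one]))
    have j2 : J2 F (fun q => l2 q.1) B p := ⟨(b2 _).trans (by linarith [abs_nonneg C₁]),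
      (j1_lin hF hpF hA' l2 (β := 1) fun d =>
        (b2 _).trans ((norm_wv_le _).trans (Im.norm_ee d).le)).mono (by linarith)⟩
    refine ((j1.add hF hpF (sm_lin F l1) (sh.mul (sm_lin F l2))
      (jh.mul hF hpF sh (sm_lin F l2) j2).h1).congr hpF fun q hq => ?_).mono ?_
    · rw [Yc, key q hq]; rfl
    · have : ε * (6 + 6 * |C₁|) ≤ ε * B := by gcongr
      linarith
  refine ⟨?_, fun i c => ?_, fun i k c => ?_⟩
  · rw [key p hpF, add_sub_cancel_left, norm_smul, nM, wL_apply, Real.norm_eq_abs]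
    have : |h p| * ‖wv e j p.1‖ ≤ 2 * ((1 + 2 * K) * K) * ε * (4 * B) :=
      mul_le_mul jh.h0 (by linarith) (norm_nonneg _) k1
    nlinarith [mul_nonneg ε0 (zero_le_one.trans B1)]
  · rw [← Tr.res_D hΩ _ hpt]
    exact (jY c i).h0
  · have := Tr.res_DL hΩ (Yc Y c) [i, k] p hpF
    change F.D i (F.D k (Yc Y c)) p = S.D i (S.D k (Yc Y c)) p at this
    rw [← this]
    exact (jY c k).h1 i

end Crest.Agent.N250.Rl

end
end

-- ▼ part N250/Rl/Cut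
section

/-!
# Row 250 (helper14): cutting off an end function
-/

set_option autoImplicit false
open MeasureTheory Set Filter Topology
open scoped ContDiff InnerProductSpace
open Crest.GeometryTopology.MCF

noncomputable section

namespace Crest.Agent.N250.Rl

open Po Wr Fm

variable {κ : ℝ → ℝ} {g f : ℝ × ℝ → ℝ} {q : ℝ × ℝ} {ε K : ℝ}

theorem fd_cut {k : ℝ} (hκ : HasDerivAt κ k q.1) (hg : DifferentiableAt ℝ g q) (w : ℝ × ℝ) :
    fderiv ℝ (fun y => κ y.1 * g y) q w = k * w.1 * g q + κ q.1 * fderiv ℝ g q w := by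
  have h1 : HasFDerivAt (fun y : ℝ × ℝ => κ y.1) _ q := 
    hκ.comp_hasFDerivAt (f := Prod.fst) q (hasFDerivAt_fst (𝕜 := ℝ))
  rw [(h1.fun_mul hg.hasFDerivAt).fderiv]
  simp only [ContinuousLinearMap.add_apply, ContinuousLinearMap.smul_apply, smul_eq_mul,
    ContinuousLinearMap.coe_fst']
  ring

theorem d1_cut (hκ : Differentiable ℝ κ) (hg : DifferentiableAt ℝ g q) :
    d1 (fun y => κ y.1 * g y) q = deriv κ q.1 * g q + κ q.1 * d1 g q := by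
  rw [d1, fd_cut (hκ _).hasDerivAt hg, mul_one, d1]

theorem d2_cut (hκ : Differentiable ℝ κ) (hg : DifferentiableAt ℝ g q) :
    d2 (fun y => κ y.1 * g y) q = κ q.1 * d2 g q := by
  rw [d2, fd_cut (hκ _).hasDerivAt hg, mul_zero, zero_mul, zero_add, d2]

theorem d1_congr (e : f =ᶠ[𝓝 q] g) : d1 f =ᶠ[𝓝 q] d1 g :=
  e.fderiv.mono fun _ h => congrArg (fun T : ℝ × ℝ →L[ℝ] ℝ => T (1, 0)) h

theorem d2_congr (e : f =ᶠ[𝓝 q] g) : d2 f =ᶠ[𝓝 q] d2 g :=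
  e.fderiv.mono fun _ h => congrArg (fun T : ℝ × ℝ →L[ℝ] ℝ => T (0, 1)) h

theorem j2le_congr (e : f =ᶠ[𝓝 q] g) (h : J2le g ε q) : J2le f ε q :=
  ⟨e.eq_of_nhds ▸ h.h0, (d1_congr e).eq_of_nhds ▸ h.h1, (d2_congr e).eq_of_nhds ▸ h.h2,
    (d1_congr (d1_congr e)).eq_of_nhds ▸ h.h11, (d1_congr (d2_congr e)).eq_of_nhds ▸ h.h12,
    (d2_congr (d2_congr e)).eq_of_nhds ▸ h.h22⟩


theorem j2le_zero (hε : 0 ≤ ε) : J2le (fun _ => 0) ε q := by
  have e1 : d1 (fun _ : ℝ × ℝ => (0 : ℝ)) = fun _ => 0 := funext fun _ => by simp [d1]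
  have e2 : d2 (fun _ : ℝ × ℝ => (0 : ℝ)) = fun _ => 0 := funext fun _ => by simp [d2]
  refine ⟨?_, ?_, ?_, ?_, ?_, ?_⟩ <;> simp only [e1, e2, abs_zero, hε]

theorem j2le_mul (hκ : ContDiff ℝ ∞ κ) (k0 : |κ q.1| ≤ K) (k1 : |deriv κ q.1| ≤ K)
    (k2 : |deriv (deriv κ) q.1| ≤ K) (hg : ContDiffAt ℝ 2 g q) (h : J2le g ε q) :
    J2le (fun y => κ y.1 * g y) (4 * (K * ε)) q := by
  have hκ' : ContDiff ℝ ∞ (deriv κ) := (contDiff_infty_iff_deriv.1 hκ).2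
  have c0 : Differentiable ℝ κ := hκ.differentiable (by simp)
  have c1 : Differentiable ℝ (deriv κ) := hκ'.differentiable (by simp)
  have g0 := (ev_diff hg).self_of_nhds
  have g1 : DifferentiableAt ℝ (d1 g) q := diff_fd hg _
  have g2 : DifferentiableAt ℝ (d2 g) q := diff_fd hg _
  have e1 : d1 (fun y => κ y.1 * g y) =ᶠ[𝓝 q] fun y => deriv κ y.1 * g y + κ y.1 * d1 g y :=
    (ev_diff hg).mono fun _ hy => d1_cut c0 hy
  have e2 : d2 (fun y => κ y.1 * g y) =ᶠ[𝓝 q] fun y => κ y.1 * d2 g y :=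
    (ev_diff hg).mono fun _ hy => d2_cut c0 hy
  have h0 : 0 ≤ K * ε := (abs_nonneg _).trans (abs_mul_le k0 h.h0)
  have dm : ∀ {κ : ℝ → ℝ} {g : ℝ × ℝ → ℝ}, Differentiable ℝ κ → DifferentiableAt ℝ g q →
      DifferentiableAt ℝ (fun y : ℝ × ℝ => κ y.1 * g y) q := fun a b =>
    ((a _).comp q differentiableAt_fst).mul b
  refine ⟨(abs_mul_le k0 h.h0).trans (by linarith), ?_, ?_, ?_, ?_, ?_⟩
  · rw [e1.eq_of_nhds]
    exact (abs_add_le _ _).trans (by linarith [abs_mul_le k1 h.h0, abs_mul_le k0 h.h1])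
  · rw [e2.eq_of_nhds]
    exact (abs_mul_le k0 h.h2).trans (by linarith)
  · rw [(d1_congr e1).eq_of_nhds, d1, fderiv_fun_add (dm c1 g0) (dm c0 g1),
      ContinuousLinearMap.add_apply, ← d1, ← d1, d1_cut c1 g0, d1_cut c0 g1]
    refine (abs_add_le _ _).trans ((add_le_add (abs_add_le _ _) (abs_add_le _ _)).trans ?_)
    linarith [abs_mul_le k2 h.h0, abs_mul_le k1 h.h1, abs_mul_le k0 h.h11]
  · rw [(d1_congr e2).eq_of_nhds, d1_cut c0 g2]
    exact (abs_add_le _ _).trans (by linarith [abs_mul_le k1 h.h2, abs_mul_le k0 h.h12])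
  · rw [(d2_congr e2).eq_of_nhds, d2_cut c0 g2]
    exact (abs_mul_le k0 h.h22).trans (by linarith)

theorem bdd_of_const {φ : ℝ → ℝ} (hc : Continuous φ) (h : ∀ t, t ∉ Icc (0 : ℝ) 1 → φ t = 0) :
    ∃ K, ∀ t, |φ t| ≤ K := by
  obtain ⟨K, hK⟩ := isCompact_Icc.exists_bound_of_continuousOn (hc.continuousOn (s := Icc (0 : ℝ) 1))
  refine ⟨K, fun t => ?_⟩
  by_cases ht : t ∈ Icc (0 : ℝ) 1
  · exact hK t ht
  · rw [h t ht, abs_zero]
    exact (norm_nonneg _).trans (hK 0 (by simp))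

theorem st_bd : ∃ K, 1 ≤ K ∧ ∀ X t : ℝ, |st (X - 1) (X - 2) t| ≤ K ∧
    |deriv (st (X - 1) (X - 2)) t| ≤ K ∧ |deriv (deriv (st (X - 1) (X - 2))) t| ≤ K := by
  have c0 := contDiff_st 1 0
  have c1 : ContDiff ℝ ∞ (deriv (st 1 0)) := (contDiff_infty_iff_deriv.1 c0).2
  have c2 : ContDiff ℝ ∞ (deriv (deriv (st 1 0))) := (contDiff_infty_iff_deriv.1 c1).2
  have z : ∀ t, t ∉ Icc (0 : ℝ) 1 → ∃ c, st 1 0 =ᶠ[𝓝 t] fun _ => c := fun t ht => by
    rcases not_and_or.1 ht with h | h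
    · exact ⟨1, (gt_mem_nhds (not_le.1 h)).mono fun s hs => st_one' one_pos (le_of_lt hs)⟩
    · exact ⟨0, (lt_mem_nhds (not_le.1 h)).mono fun s hs => st_zero' one_pos (le_of_lt hs)⟩
  obtain ⟨K1, h1⟩ := bdd_of_const c1.continuous fun t ht => by
    obtain ⟨c, hc⟩ := z t ht
    rw [hc.deriv_eq, deriv_const]
  obtain ⟨K2, h2⟩ := bdd_of_const c2.continuous fun t ht => by
    obtain ⟨c, hc⟩ := z t ht
    rw [hc.deriv.deriv_eq]
    simp
  have p1 := (abs_nonneg _).trans (h1 0)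
  have p2 := (abs_nonneg _).trans (h2 0)
  refine ⟨1 + K1 + K2, by linarith, fun X t => ?_⟩
  have e : st (X - 1) (X - 2) = fun t => st 1 0 (t - (X - 2)) := funext fun t => by
    simp only [st]; congr 1; ring
  have e1 : deriv (st (X - 1) (X - 2)) = fun t => deriv (st 1 0) (t - (X - 2)) := funext fun t => by
    rw [e, deriv_comp_sub_const]
  refine ⟨?_, ?_, ?_⟩
  · rw [abs_of_nonneg (st_nonneg _ _ _)]
    linarith [st_le_one (X - 1) (X - 2) t]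
  · rw [e1]
    linarith [h1 (t - (X - 2))]
  · rw [e1, deriv_comp_sub_const]
    linarith [h2 (t - (X - 2))]

/-- the function `g` cut off on `[X - 2, X - 1]` -/
def cut (X : ℝ) (g : ℝ × ℝ → ℝ) (y : ℝ × ℝ) : ℝ := st (X - 1) (X - 2) y.1 * g y

variable {X a : ℝ}

theorem cut_eq (h : q.1 ≤ X - 2) : cut X g q = g q := by
  rw [cut, st_one' (by linarith) h, one_mul]

theorem cut_ev (h : q.1 < X - 2) : cut X g =ᶠ[𝓝 q] g :=
  (continuous_fst.continuousAt.eventually (gt_mem_nhds h)).mono fun _ hy => cut_eq hy.le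

theorem cut_ev_zero (h : X - 1 < q.1) : cut X g =ᶠ[𝓝 q] fun _ => 0 :=
  (continuous_fst.continuousAt.eventually (lt_mem_nhds h)).mono fun _ hy => by
    rw [cut, st_zero' (by linarith) hy.le, zero_mul]

theorem per_cut (h : Per g) : Per (cut X g) := fun s θ => by simp only [cut, h s θ]

theorem cda_strip (hg : ContDiffOn ℝ ∞ g {q | a < q.1 ∧ q.1 < X}) (h1 : a < q.1) (h2 : q.1 < X) :
    ContDiffAt ℝ ∞ g q :=
  hg.contDiffAt (((isOpen_lt continuous_const continuous_fst).inter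
    (isOpen_lt continuous_fst continuous_const)).mem_nhds ⟨h1, h2⟩)

theorem sm_cut (hg : ContDiffOn ℝ ∞ g {q | a < q.1 ∧ q.1 < X}) :
    ContDiffOn ℝ ∞ (cut X g) {q | a < q.1} := fun q hq => by
  by_cases h : q.1 < X
  · exact (((contDiff_st _ _).comp contDiff_fst).contDiffAt.mul (cda_strip hg hq h)).contDiffWithinAt
  · exact (contDiffAt_const.congr_of_eventuallyEq (cut_ev_zero (by linarith))).contDiffWithinAt

theorem abs_cut_le (h : ∀ q : ℝ × ℝ, a < q.1 → q.1 < X → |g q| ≤ ε) (hε : 0 ≤ ε) (hq : a < q.1) :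
    |cut X g q| ≤ ε := by
  by_cases h1 : q.1 < X
  · have := abs_mul_le ((abs_of_nonneg (st_nonneg (X - 1) (X - 2) q.1)).le.trans (st_le_one _ _ _))
      (h q hq h1)
    rwa [one_mul] at this
  · rw [(cut_ev_zero (by linarith)).eq_of_nhds, abs_zero]
    exact hε

/-- **2-jets of the cut-off function** -/
theorem j2le_cut : ∃ K, 1 ≤ K ∧ ∀ (X a ε : ℝ) (g : ℝ × ℝ → ℝ) (q : ℝ × ℝ), 0 ≤ ε →
    ContDiffOn ℝ ∞ g {q | a < q.1 ∧ q.1 < X} → a < q.1 → (q.1 < X → J2le g ε q) →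
    J2le (cut X g) (K * ε) q := by
  obtain ⟨K, K1, hK⟩ := st_bd
  refine ⟨4 * K, by linarith, fun X a ε g q hε hg h1 h => ?_⟩
  by_cases h2 : q.1 < X
  · rw [mul_assoc]
    exact j2le_mul (contDiff_st _ _) (hK X _).1 (hK X _).2.1 (hK X _).2.2
      ((cda_strip hg h1 h2).of_le (WithTop.coe_le_coe.2 (le_top : (2 : ℕ∞) ≤ ⊤))) (h h2)
  · exact j2le_congr (cut_ev_zero (by linarith)) (j2le_zero (by positivity))

end Crest.Agent.N250.Rl

end
end

-- ▼ part N250/Fm/Pair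
section

/-!
# Row 250, real side (helper25): `Fm.PairS` and `Fm.ElS`
-/

set_option autoImplicit false
open MeasureTheory Set Filter Topology
open scoped ContDiff InnerProductSpace
open Crest.GeometryTopology.MCF

noncomputable section

namespace Crest.Agent.N250.Fm

open Wr Po

theorem KX_congr {S : Mv} {X X' : ST → E} {p : ST} (hp : p ∈ S.M) (h : X =ᶠ[𝓝[S.M] p] X') :
    S.KX X p = S.KX X' p := by
  funext a b c
  exact Mv.D_congr hp (Mv.eventually_D_congr (h.mono fun q hq => by simp only [Mv.cp, hq]) b) a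

theorem fv_off (G : Mv) {g : E → ℝ} {p : ST} (hg : p.1 ∉ tsupport g) : G.fv g p = 0 := by
  have e : g =ᶠ[𝓝 p.1] fun _ => 0 := notMem_tsupport_iff_eventuallyEq.1 hg
  rw [Mv.fv, e.gradient_eq, e.self_of_nhds]
  simp

variable {S : Mv} {e : Ends S} {d : Dat e} {n : ℕ} {f : Fin n → E → ℝ} {a b X₀ : ℝ}
  {ζ c : Fin n → ℝ} {A : ℝ} {Y : E → E} {G : Mv} {x : E}

namespace Ctx

variable (h : Ctx S e d f a b X₀ ζ c A Y G)
include h

/-- beyond `a` on a tube, or in the open core with `zeta = 1` -/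
theorem far_or_core (hx : x ∈ S.sl 0) :
    (∃ j, ((x, 0) : ST) ∈ tube e j e.R ∧ a < xi e j x) ∨ ∀ j, ((x, 0) : ST) ∈ Off e j ((a + b) / 2) ∧
      chi e j a b x = 0 := by
  by_cases k : ∃ j, ((x, 0) : ST) ∈ tube e j e.R ∧ a < xi e j x
  · exact Or.inl k
  · refine Or.inr fun j => ?_
    have := h.ab
    rcases tube_or_off h.shr.st h.Rlt (p := (x, 0)) hx j with k1 | k1
    · have k2 : xi e j x ≤ a := not_lt.1 fun k2 => k ⟨j, k1, k2⟩
      exact ⟨Or.inl (by change xi e j x < _; linarith), chi_zero_of_le h.ab k2⟩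
    · exact ⟨Off_mono (by linarith) k1, chi_zero (p := (x, 0)) h.ab k1⟩

/-- the image of the tubes beyond `a` misses the ball of radius `a` -/
theorem far_norm (hx : x ∈ S.sl 0) {j : Fin e.p} (hj : ((x, 0) : ST) ∈ tube e j e.R)
    (k : a < xi e j x) : a ≤ ‖x + Y x‖ := by
  by_cases k2 : xi e j x < X₀ - 2
  · obtain ⟨q, q1, -, q3⟩ := h.exists_q hx hj
    have e1 := h.glue.en j q (q1 ▸ k) (q1 ▸ k2)
    rw [← q3] at e1
    have e2 := norm_pX_sq (Q := d.Q j) (d.r j) q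
    rw [← e1, q1] at e2
    have := R_pos e
    have := h.Ra
    exact le_of_sq_le_sq (by nlinarith [sq_nonneg (d.r j q)]) (norm_nonneg _)
  · linarith [h.glue.size x hx, norm_le_add_norm_add x (Y x), h.bX, h.ab, h.Ra, R_pos e,
      le_abs_self (xi e j x), abs_xi_le j x]

theorem far_supp (hx : x ∈ S.sl 0) {j : Fin e.p} (hj : ((x, 0) : ST) ∈ tube e j e.R)
    (k : a < xi e j x) (i : Fin n) : x + Y x ∉ tsupport (f i) := fun hs =>
  (h.far_norm hx hj k).not_gt (mem_ball_zero_iff.1 (h.supp i hs))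

end Ctx

theorem pairS_holds : PairS := by
  intro S e d n f a b X₀ ζ c A Y G h i
  rw [h.par.int, ← h.sol.pair i]
  refine integral_congr_ae ((ae_restrict_mem (FV.meas_sl h.shr.reg 0)).mono fun x hx => ?_)
  have key : (∀ j, ((x, 0) : ST) ∈ Off e j b) → x + Y x = d.X (x, 0) ∧
      S.sX (fun p => p.1 + Y p.1) (x, 0) = S.sX d.X (x, 0) := fun ho =>
    ⟨(h.ev_core ho).eq_of_nhdsWithin hx, sX_congr (p := (x, 0)) hx (h.ev_core ho)⟩
  rcases h.far_or_core hx with ⟨j, hj, k⟩ | ho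
  · have h0 : f i (x + Y x) = 0 := image_eq_zero_of_notMem_tsupport (h.far_supp hx hj k i)
    by_cases hz : zeta e a b x = 0
    · simp only [hz, h0, smul_zero, zero_mul]
    · simp only [← (key (h.off_of_zeta (p := (x, 0)) hx hz)).1, h0, smul_zero, zero_mul, mul_zero]
  · have hz : zeta e a b x = 1 := Finset.prod_eq_one fun j _ => by rw [(ho j).2, sub_zero]
    obtain ⟨e1, e2⟩ := key fun j => Off_mono (by linarith [h.ab]) (ho j).1
    simp only [hz, e1, e2, smul_eq_mul, one_mul, mul_comm]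

theorem elS_holds : ElS := by
  intro S e d n f a b X₀ ζ c A Y G h y hy hB
  rw [h.par.sl_eq] at hy
  obtain ⟨x, hx, rfl⟩ := hy
  rcases h.far_or_core hx with ⟨j, hj, k⟩ | ho
  · obtain ⟨q, q1, -, q3⟩ := h.exists_q hx hj
    have k1 : a < q.1 := q1 ▸ k
    have k2 : q.1 < X₀ - 2 := q1 ▸ ((le_abs_self _).trans (abs_xi_le j x)).trans_lt (h.norm_lt hx hB)
    have e1 := h.glue.en j q k1 k2
    rw [← q3] at e1
    have e2 := (h.pol j k1 k2).shr_eq_zero_iff.2 (h.sol.elv j q k1 (by linarith))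
    rw [← e1] at e2
    simp only [e2, fv_off G (p := (x + Y x, 0)) (h.far_supp hx hj k _), mul_zero,
      Finset.sum_const_zero]
  · have ho' : ∀ j, ((x, 0) : ST) ∈ Off e j b := fun j => Off_mono (by linarith [h.ab]) (ho j).1
    have ev := h.ev_core ho'
    have e1 : x + Y x = d.X (x, 0) := ev.eq_of_nhdsWithin hx
    have hp : ((x, 0) : ST) ∈ S.M := hx
    have e2 := h.sol.el _ hp (core_of_off ho')
    have hs := (h.par.toEmb.s_pos hp).ne'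
    have e3 := h.par.shr_eq hp
    have e4 := h.par.H_eq hp
    have e5 := h.par.n_eq _ hp
    rw [sX_congr hp ev] at hs
    simp only [hat, Mv.ELX, Mv.HX, Mv.NX, sX_congr hp ev, JX_congr hp ev, KX_congr hp ev,
      e1] at e2 e3 e4 e5
    simp only [e1, Mv.fv, e3, e4, e5, inner_smul_right]
    rw [show ∀ s t u : ℝ, s * (t * u / 2) = t * (s * u / 2) from fun _ _ _ => by ring, e2,
      Finset.mul_sum]
    refine Finset.sum_congr rfl fun i _ => ?_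
    field_simp

end Crest.Agent.N250.Fm

end
end

-- ▼ part N250/Rl/Sol
section

/-!
# Row 250 (helper14): real solutions define model surfaces
-/

set_option autoImplicit false
open MeasureTheory Set Filter Topology
open scoped ContDiff InnerProductSpace
open Crest.GeometryTopology.MCF

noncomputable section

namespace Crest.Agent.N250.Rl

open Mv Po Wr Fm

variable {S : Mv} {e : Ends S} {j : Fin e.p} {p : ST} {d : Dat e} {a b X₀ : ℝ} {q : ℝ × ℝ}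

/-- the end function, cut off -/
def vt (d : Dat e) (X₀ : ℝ) (j : Fin e.p) (q : ℝ × ℝ) : ℝ :=
  vS e j q + cut X₀ (fun y => d.v j y - vS e j y) q

open Classical in
/-- the global displacement -/
def YY (d : Dat e) (a X₀ : ℝ) (x : E) : E :=
  if h : ∃ j, ((x, 0) : ST) ∈ tube e j a then
    pX (d.Q h.choose) (fun q => √(2 * vt d X₀ h.choose q)) (crd (e.Q h.choose) x) - x
  else d.X (x, 0) - x

theorem vt_sub (d : Dat e) (X₀ : ℝ) (j : Fin e.p) :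
    (fun y => vt d X₀ j y - vS e j y) = cut X₀ fun y => d.v j y - vS e j y :=
  funext fun _ => add_sub_cancel_left _ _

theorem vt_eq (h : q.1 ≤ X₀ - 2) : vt d X₀ j q = d.v j q := by
  rw [vt, cut_eq h, add_sub_cancel]

theorem xi_pX' (r : ℝ × ℝ → ℝ) (q : ℝ × ℝ) : xi e j (pX (e.Q j) r q) = q.1 := by
  rw [pX, xi_Q]; simp [cylP]

theorem pX_tube' (hR : e.R ≤ a) (hq : a < q.1) : (pX (e.Q j) (e.r j) q, (0 : ℝ)) ∈ tube e j a := by
  have h := e.near j q (hR.trans_lt hq)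
  refine ⟨by rw [xi_pX']; exact hq, ?_⟩
  rw [r2_eq_wv, pX, wv_pol, sq_abs]
  nlinarith [h.1, h.2]

theorem per_pX (Q : E ≃ₗᵢ[ℝ] E) {r : ℝ × ℝ → ℝ} (hr : Per r) : Per (pX Q r) := fun s θ => by
  simp only [pX, cylP, hr s θ, Real.cos_add_two_pi, Real.sin_add_two_pi]

theorem YY_tube (hR : e.R ≤ a) {x : E} (h : ((x, 0) : ST) ∈ tube e j a) :
    x + YY d a X₀ x = pX (d.Q j) (fun q => √(2 * vt d X₀ j q)) (crd (e.Q j) x) := by
  have h1 : ∃ j, ((x, 0) : ST) ∈ tube e j a := ⟨j, h⟩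
  have h2 : h1.choose = j := by
    by_contra h3
    exact tube_disj h3 (tube_mono hR h) (tube_mono hR h1.choose_spec)
  rw [YY, dif_pos h1, h2, add_sub_cancel]

section

variable {n : ℕ} {f : Fin n → E → ℝ} {ζ c : Fin n → ℝ} {A : ℝ} (hs : d.Sol f a b X₀ ζ c A)
  (hR : e.R ≤ a)
include hs

theorem per_vt (j : Fin e.p) : Per (vt d X₀ j) := fun s θ => by
  have : Per fun y => d.v j y - vS e j y := fun s θ => by simp only [hs.per j s θ, per_vS j s θ]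
  simp only [vt, per_vS j s θ, per_cut this s θ]

include hR

theorem sm_g (j : Fin e.p) : ContDiffOn ℝ ∞ (fun y => d.v j y - vS e j y) {q | a < q.1 ∧ q.1 < X₀} :=
  (hs.smv j).sub ((sm_vS j).mono fun _ hq => hR.trans_lt hq.1)

theorem sm_vt (j : Fin e.p) : ContDiffOn ℝ ∞ (vt d X₀ j) {q | a < q.1} :=
  ((sm_vS j).mono fun _ hq => hR.trans_lt hq).add (sm_cut (sm_g hs hR j))

theorem YY_chart (hq : a < q.1) : pX (e.Q j) (e.r j) q + YY d a X₀ (pX (e.Q j) (e.r j) q) =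
    pX (d.Q j) (fun q => √(2 * vt d X₀ j q)) q := by
  rw [YY_tube hR (pX_tube' hR hq)]
  exact (per_pX _ fun s θ => by simp only [per_vt hs j s θ]).crd_pX
    (one_pos.trans (e.near j q (hR.trans_lt hq)).1)

theorem YY_en (hq : a < q.1) (h2 : q.1 ≤ X₀ - 2) :
    pX (e.Q j) (e.r j) q + YY d a X₀ (pX (e.Q j) (e.r j) q) = pX (d.Q j) (d.r j) q := by
  rw [YY_chart hs hR hq, pX, pX, vt_eq h2]
  rfl

/-- the matching holds up to the outer circle -/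
theorem mt_le (hb : b < X₀) (h1 : a < q.1) (h2 : q.1 ≤ b) :
    d.X (pX (e.Q j) (e.r j) q, 0) = pX (d.Q j) (d.r j) q := by
  have c0 : ContinuousAt (fun s : ℝ => ((s, q.2) : ℝ × ℝ)) q.1 := by fun_prop
  have c1 : ContinuousAt (pX (e.Q j) (e.r j)) q := (contDiffAt_pX ((e.sm j).contDiffAt
    ((isOpen_lt continuous_const continuous_fst).mem_nhds (hR.trans_lt h1)))).continuousAt
  have c2 : ContinuousAt (pX (d.Q j) (d.r j)) q := (contDiffAt_pX (n := 0) (contDiffAt_zero.2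
    ⟨_, ((isOpen_lt continuous_const continuous_fst).inter (isOpen_lt continuous_fst
      continuous_const)).mem_nhds ⟨h1, h2.trans_lt hb⟩,
      (continuousOn_const.mul (hs.smv j).continuousOn).sqrt⟩)).continuousAt
  have ev : ∀ᶠ s in 𝓝[<] q.1, a < s ∧ s < b := by
    filter_upwards [Ioo_mem_nhdsLT h1] with s hs using ⟨hs.1, hs.2.trans_le h2⟩
  have t1 : Tendsto (fun s : ℝ => ((pX (e.Q j) (e.r j) (s, q.2), (0 : ℝ)) : ST)) (𝓝[<] q.1)
      (𝓝[S.M] (pX (e.Q j) (e.r j) q, 0)) :=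
    tendsto_nhdsWithin_iff.2 ⟨(((ContinuousAt.comp (g := pX (e.Q j) (e.r j)) c1 c0).prodMk
      continuousAt_const).tendsto).mono_left nhdsWithin_le_nhds,
      ev.mono fun s hs => ends_mem e j (hR.trans_lt hs.1)⟩
  have t2 := (hs.sm.continuousOn _ (ends_mem e j (hR.trans_lt h1))).tendsto.comp t1
  have t3 := (ContinuousAt.comp (g := pX (d.Q j) (d.r j)) c2 c0).tendsto.mono_left
    (nhdsWithin_le_nhds (s := Iio q.1))
  exact tendsto_nhds_unique (t2.congr' (ev.mono fun s h => hs.mt j (s, q.2) h.1 h.2)) t3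

theorem YY_core (hS : S.Static) (hb : b ≤ X₀ - 2) {x : E} (hx : x ∈ S.sl 0)
    (hc : ((x, 0) : ST) ∈ Core e b) : x + YY d a X₀ x = d.X (x, 0) := by
  by_cases h : ∃ j, ((x, 0) : ST) ∈ tube e j a
  · obtain ⟨j, hj⟩ := h
    have h1 := (pX_crd hS (p := (x, 0)) hx (tube_mono hR hj)).1
    have h2 : a < (crd (e.Q j) x).1 := by rw [crd_fst]; exact hj.1
    have h3 : (crd (e.Q j) x).1 ≤ b := by
      rw [crd_fst]; exact not_lt.1 fun k => hc j ⟨k, hj.2⟩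
    have h4 := YY_en (j := j) hs hR h2 (h3.trans hb)
    rw [← mt_le hs hR (by linarith) h2 h3, h1] at h4
    exact h4
  · rw [YY, dif_neg h, add_sub_cancel]

theorem YY_ev (hS : S.Static) (hb : b ≤ X₀ - 2) (ho : ∀ j, p ∈ Off e j b) :
    (fun q : ST => YY d a X₀ q.1) =ᶠ[𝓝[S.M] p] fun q => d.X q - q.1 := by
  filter_upwards [self_mem_nhdsWithin, nhdsWithin_le_nhds ((isOpen_allOff b).mem_nhds ho)]
    with q h1 h2
  rw [hs.st q.1 q.2, ← YY_core hs hR hS hb ((hS.mem q.1 q.2).1 h1) fun j hj =>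
    (h2 j).elim (fun k => lt_asymm k hj.1) fun k => by linarith [hj.2], add_sub_cancel_left]

end

theorem dich (hS : S.Static) (hR : e.R ≤ a) (hab : a < b) (hp : p ∈ S.M) :
    (∃ j, p ∈ tube e j a) ∨ ∀ j, p ∈ Off e j b := by
  by_cases h : ∃ j, p ∈ tube e j a
  · exact Or.inl h
  · exact Or.inr fun j => (tube_or_off' hS (hR.trans_lt hab) hab hp j).resolve_left fun k => h ⟨j, k⟩

/-- **real solutions define model surfaces** -/
theorem solS_of (hP : PairS) (hE : ElS) (hN : EnS) : SolS := by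
  intro S e hS a b ha hab
  have hR : e.R ≤ a := by linarith
  have R3 := R_pos e
  obtain ⟨C, C0, hC⟩ := tube_jets hS e
  obtain ⟨K, K1, hK⟩ := j2le_cut
  obtain ⟨ε', e0, hI⟩ := img e hS (2 * e.R + a + 2)
  obtain ⟨ρ₀, ρ0, hρ, hI⟩ := hI 1
  obtain ⟨μ, μ0, μ1, μ2⟩ : ∃ μ, 0 < μ ∧ μ ≤ 1 / 10 ∧ μ ≤ ε' :=
    ⟨min (1 / 10) ε', by positivity, min_le_left _ _, min_le_right _ _⟩
  refine ⟨μ / ((1 + C) * K), ρ₀, by positivity, ρ0, fun ε hε => ?_⟩
  obtain ⟨η, η0, η1, η2⟩ : ∃ η, 0 < η ∧ η ≤ 1 / 10 ∧ (84 / ρ₀ + 7) * η ≤ ε :=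
    ⟨min (1 / 10) (ε / (84 / ρ₀ + 7)), by positivity, min_le_left _ _, by
      rw [← le_div_iff₀' (by positivity)]; exact min_le_right _ _⟩
  have i0 := inv_pos.2 hε
  refine ⟨η / ((1 + C) * (2 * ε⁻¹ + 2)), 2 * ε⁻¹ + 2 * b + 10, by positivity,
    fun n f d X₀ ζ c A hc ht hL hs s0 s1 => ?_⟩
  set ε₀ := μ / ((1 + C) * K) with hε₀
  set ε₁ := η / ((1 + C) * (2 * ε⁻¹ + 2)) with hε₁
  have p0 : 0 < ε₀ := by positivity
  have p1 : 0 < ε₁ := by positivity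
  have q0 : (1 + C) * (K * ε₀) = μ := by rw [hε₀]; field_simp
  have q1 : (1 + C) * ε₁ * (2 * ε⁻¹ + 2) = η := by rw [hε₁]; field_simp
  have q2 : ε₀ ≤ K * ε₀ := le_mul_of_one_le_left p0.le K1
  have q3 : 0 ≤ C * (K * ε₀) := by positivity
  have q4 : K * ε₀ ≤ μ := by linarith
  have q5 : (1 + C) * ε₁ ≤ η := by nlinarith [mul_pos (show 0 < 1 + C by linarith) p1]
  have q6 : ε₁ ≤ 1 / 10 := by nlinarith [mul_pos C0 p1]
  have hb : b ≤ X₀ - 2 := by linarith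
  set Y := YY d a X₀ with hY
  have T := fun j => hC j (d.R j) (vt d X₀ j) a Y hR (sm_vt hs hR j) (per_vt hs j)
    (fun q hq => by
      rw [vt, add_sub_cancel_left]
      exact abs_cut_le (fun q h1 h2 => (s0.en j q h1 h2).h0.trans (by linarith)) (by norm_num) hq)
    fun q hq => YY_chart hs hR hq
  have sY : S.Sm fun p => Y p.1 := fun p hp => by
    rcases dich hS.st hR hab hp with ⟨j, hj⟩ | h
    · exact (contDiffWithinAt_inter ((isOpen_tube j a).mem_nhds hj)).1 ((T j).1 p ⟨hp, hj⟩)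
    · exact ((hs.sm p hp).sub contDiffWithinAt_fst).congr_of_eventuallyEq_of_mem
        (YY_ev hs hR hS.st hb h) hp
  have bd : ∀ (L t t' : ℝ), d.Small a b L t → 0 ≤ t → t ≤ t' → t' ≤ 1 / 10 → ∀ x ∈ S.sl 0,
      (∀ j, ((x, 0) : ST) ∈ tube e j a →
        J2le (fun y => vt d X₀ j y - vS e j y) t' (crd (e.Q j) x)) →
      ‖Y x‖ ≤ (1 + C) * t' * (1 + ‖x‖) ∧ (∀ i c, |S.D i (Yc Y c) (x, 0)| ≤ (1 + C) * t') ∧
        ∀ i k c, |S.D i (S.D k (Yc Y c)) (x, 0)| ≤ (1 + C) * t' := by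
    intro L t t' s t0 t1 t2 x hx hJ
    have u0 : 0 ≤ t' := t0.trans t1
    have u1 : 0 ≤ C * t' := by positivity
    have u2 := norm_nonneg x
    rcases dich hS.st hR hab (p := (x, 0)) hx with ⟨j, hj⟩ | h
    · obtain ⟨T', n1, n2⟩ := (T j).2 t' t2 fun y => (s.rot j y).trans (by gcongr)
      obtain ⟨b0, b1, b2⟩ := n2 (x, 0) hx hj (hJ j hj)
      refine ⟨?_, fun i c => (b1 i c).trans (by linarith), fun i k c => (b2 i k c).trans (by linarith)⟩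
      have a1 : ‖T' x‖ ≤ t' * ‖x‖ := (T'.le_opNorm x).trans (by gcongr)
      have a2 : ‖Y x‖ ≤ ‖Y x - T' x‖ + ‖T' x‖ := by simpa using norm_add_le (Y x - T' x) (T' x)
      nlinarith [mul_nonneg u1 u2]
    · have hc : ((x, 0) : ST) ∈ Core e b := fun j hj =>
        (h j).elim (fun k => lt_asymm k hj.1) fun k => by linarith [hj.2]
      have ev := YY_ev hs hR hS.st hb h
      have ec : ∀ c, Yc Y c =ᶠ[𝓝[S.M] (x, 0)] fun q => (d.X q - q.1) c := fun c =>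
        ev.mono fun q hq => congrArg (fun v : E => v c) hq
      refine ⟨?_, fun i c => ?_, fun i k c => ?_⟩
      · have a1 : Y x = d.X (x, 0) - x := ev.eq_of_nhdsWithin hx
        have a2 := s.c0 (x, 0) hx hc
        rw [a1]
        exact a2.trans (mul_le_mul_of_nonneg_right (by linarith) (by positivity))
      · rw [D_congr hx (ec c)]
        exact (s.c1 _ hx hc i c).trans (by linarith)
      · rw [D_congr hx (eventually_D_congr (ec c) k)]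
        exact (s.c2 _ hx hc i k c).trans (by linarith)
  have J0 : ∀ j (x : E), ((x, 0) : ST) ∈ tube e j a →
      J2le (fun y => vt d X₀ j y - vS e j y) (K * ε₀) (crd (e.Q j) x) := fun j x hj => by
    have h1 : a < (crd (e.Q j) x).1 := by rw [crd_fst]; exact hj.1
    rw [vt_sub]
    exact hK X₀ a ε₀ _ _ p0.le (sm_g hs hR j) h1 (s0.en j _ h1)
  have b0 := fun x hx => bd X₀ ε₀ (K * ε₀) s0 p0.le q2 (by linarith) x hx fun j => J0 j x
  simp only [q0] at b0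
  have sz : ∀ x ∈ S.sl 0, ‖Y x‖ ≤ (1 + ‖x‖) / 10 := fun x hx => (b0 x hx).1.trans (by
    nlinarith [norm_nonneg x])
  have O := hI Y ⟨sY, fun x hx => (b0 x hx).1.trans (by gcongr),
    fun x hx i c => ((b0 x hx).2.1 i c).trans μ2,
    fun x hx i k c => ((b0 x hx).2.2 i k c).trans (by linarith), fun j => by
      obtain ⟨T', n1, n2⟩ := (T j).2 (K * ε₀) (by linarith) fun y => (s0.rot j y).trans (by gcongr)
      refine ⟨T', by linarith, fun x hx h1 h2 => ?_⟩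
      have h3 := (tube_of_cone e hx h1 (by linarith)).1
      rw [← xi_eq] at h3
      have h4 := (cone_tube hS.st (p := (x, 0)) hx h1 h3).1
      have h5 := norm_le_of_tube h4 (by linarith)
      have h6 : ((x, 0) : ST) ∈ tube e j a := ⟨by dsimp only at h5 ⊢; linarith, h4.2⟩
      exact (n2 (x, 0) hx h6 (J0 j x h6)).1.trans (by linarith)⟩
  have ctx : Ctx S e d f a b X₀ ζ c A Y (S.img (XY Y)) :=
    ⟨hS, ha, hab, by linarith, hc, ht, hs, ⟨sY, fun x hx h => YY_core hs hR hS.st hb hx h,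
      fun j q h1 h2 => YY_en hs hR h1 h2.le, fun j q h1 h2 => by
        have h3 := (abs_le.1 (s0.en j q h1 h2).h0).1
        have h4 := (e.near j q (hR.trans_lt h1)).1
        simp only [vS] at h3
        nlinarith, sz⟩, O.par⟩
  refine ⟨_, ⟨O.reg, O.st, fun p hp _ => O.closed.closure_subset hp, fun x hx _ => O.reach x hx,
    hP _ _ _ _ _ _ _ _ _ _ _ _ _ ctx, hE _ _ _ _ _ _ _ _ _ _ _ _ _ ctx,
    hN _ _ _ _ _ _ _ _ _ _ _ _ _ ctx⟩, O.near ρ0 le_rfl hρ sY η1 ?_ ?_ fun y hy hyR => ?_⟩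
  · have : 0 < 84 / ρ₀ * η := by positivity
    linarith
  · linarith
  · have h1 : ‖y‖ ≤ 2 * ε⁻¹ + 1 := by
      rcases hyR with h | h
      · linarith
      · linarith [sz y hy, norm_le_add_norm_add y (Y y)]
    obtain ⟨b1, b2, b3⟩ := bd _ ε₁ ε₁ s1 p1.le le_rfl q6 y hy fun j hj => by
      have h2 : (crd (e.Q j) y).1 ≤ ‖y‖ := by
        rw [crd_fst]; exact (le_abs_self _).trans (abs_xi_le j y)
      rw [vt_sub]
      exact j2le_congr (cut_ev (by linarith)) (s1.en j _ (by rw [crd_fst]; exact hj.1) (by linarith))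
    refine ⟨b1.trans ?_, fun i c => (b2 i c).trans q5, fun i k c => (b3 i k c).trans q5⟩
    rw [← q1]
    exact mul_le_mul_of_nonneg_left (by linarith) (by positivity)

theorem solS_holds : SolS := solS_of pairS_holds elS_holds enS_holds

end Crest.Agent.N250.Rl

end
end

-- ▼ part N250/Rm/Small
section

/-!
# Row 250 (helper50): the real points of a glued family are small, `RealL` from the real solutions
-/

set_option autoImplicit false
open MeasureTheory Set Filter Topology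
open scoped ContDiff
open Crest.GeometryTopology.MCF

noncomputable section

namespace Crest.Agent.N250.Rm

open WS B1 R0
open Crest.Agent.N250.B2 (aa ofR)
open Crest.Agent.N250.Gi (KK)
open Crest.Agent.N250.Gl (yy)

variable {S : Mv} {T : St S} (F : Fa T) {σ : Scale T.G}

/-- the real data of a point -/
def dd (N : ℕ) (X : ℝ) (a : Fin T.p → ℂ) (ξ : F.Ξ σ) : Fm.Dat T.e where
  X := rX T.P (F.Y ξ)
  R j := Ro.RR fun l => (ξ.2.2 (j, l)).re
  v j y := (vX T.R X (a j) (T.U (F.zE N X a ξ j)) y).re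

theorem TT_small (T : St S) {t : ℝ} (ht : 0 < t) :
    ∃ ρ, 0 < ρ ∧ ∀ β : T.Bt, ‖β‖ < ρ → ‖T.TT β‖ < t := by
  have c : Continuous T.TT := continuous_pi fun j =>
    (Ro.diff_TT (Cj.fQ (T.e.Q j))).continuous.comp (f := fun β : T.Bt => fun i => β (j, i))
      (by fun_prop)
  have z : T.TT 0 = 0 := funext fun j => Ro.TT_zero (Cj.fQ (T.e.Q j))
  obtain ⟨ρ, h0, h⟩ := Metric.continuousAt_iff.1 (c.continuousAt (x := 0)) t ht
  exact ⟨ρ, h0, fun β hβ => by simpa [z] using h (x := β) (by simpa using hβ)⟩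

theorem idt (hT : T.Good) (j : Fin T.p) :
    Ce.Idt T.ℓ T.R T.k.K1 T.k.ε T.U (T.b0 j) (S9.jS T.e j) := fun t ht => by
  obtain ⟨δ, h0, h⟩ := hT.idn j t ht
  obtain ⟨X0, h⟩ := eventually_atTop.1 h
  exact ⟨δ, X0, h0, h⟩

theorem rot_le {κ : Type} [Fintype κ] (β : κ × Fin 2 → ℂ) {t : ℝ} (h : ‖β‖ ≤ t / 2) (j : κ) (y : E) :
    ‖Ro.RR (fun l => (β (j, l)).re) y - y‖ ≤ t * ‖y‖ := by
  refine (Ro.RR_sub _ y).trans (mul_le_mul_of_nonneg_right ?_ (norm_nonneg _))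
  have : ‖fun l => (β (j, l)).re‖ ≤ ‖β‖ :=
    (pi_norm_le_iff_of_nonneg (norm_nonneg _)).2 fun l =>
      (Complex.abs_re_le_norm _).trans (norm_le_pi_norm β _)
  linarith

theorem small_pt (hT : T.Good) (Je : σ.Jets F.φ) {t : ℝ} (ht : 0 < t) :
    ∃ θ ρ X0 : ℝ, 0 < θ ∧ 0 < ρ ∧ ∀ (N : ℕ) (X : ℝ) (a : Fin T.p → ℂ) (ξ : F.Ξ σ), X0 ≤ X →
      ‖ξ‖ < ρ → ‖F.dat ξ‖ < ρ → (∀ j, F.zE N X a ξ j ∈ T.Dm) →
      (∀ j, ‖Gi.hN N X (a j)‖ ≤ 6015 / (X ^ 3 * ‖et (a j) X‖)) →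
      (dd F N X a ξ).Small (T.R + 1 / 10) (T.R + 1 / 3) (θ * X) t := by
  obtain ⟨c, CD, C, fm⟩ := hT.fm
  choose θ rb X1 θ0 θ1 rb0 H using fun j => Cf.close_j2 fm T.eR_lt_R.le (idt hT j) ht
  obtain ⟨θm, θm0, hθ⟩ : ∃ m : ℝ, 0 < m ∧ ∀ j, m ≤ θ j ∧ m ≤ rb j := by
    have : ∀ᶠ m : ℝ in 𝓝[>] 0, ∀ j, m ≤ θ j ∧ m ≤ rb j := eventually_all.2 fun j =>
      nhdsWithin_le_nhds ((eventually_le_nhds (θ0 j)).and (eventually_le_nhds (rb0 j)))
    obtain ⟨m, h1, h2⟩ := (this.and self_mem_nhdsWithin).exists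
    exact ⟨m, h2, h1⟩
  obtain ⟨X0, hX0⟩ : ∃ X0 : ℝ, ∀ j, X1 j ≤ X0 := (Set.finite_range X1).bddAbove.imp
    fun _ h j => h ⟨j, rfl⟩
  obtain ⟨C1, c1, h1⟩ := sz_Xh F.good
  obtain ⟨C2, c2, h2⟩ := sz_wG Je
  set s := min 1 (t / (3 * C1)) with hs
  have s0 : 0 < s := lt_min one_pos (by positivity)
  have s1 : 3 * (C1 * s) ≤ t := by
    have := min_le_right 1 (t / (3 * C1))
    rw [← hs, le_div_iff₀ (by positivity)] at this
    linarith
  obtain ⟨ρ1, ρ10, h3⟩ := TT_small T s0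
  refine ⟨θm, min (min θm ρ1) (min (s / C2) (t / 2)), max X0 0, θm0,
    lt_min (lt_min θm0 ρ10) (lt_min (by positivity) (by positivity)),
    fun N X a ξ hX hξ hd hz hh => ?_⟩
  simp only [lt_min_iff] at hξ hd
  have b1 : ‖ξ.2.2‖ ≤ ‖ξ‖ := (norm_snd_le ξ.2).trans (norm_snd_le ξ)
  have b2 : ‖(ξ.1, ξ.2.1)‖ ≤ ‖ξ‖ := norm_prod_le_iff.2
    ⟨norm_fst_le ξ, (norm_fst_le ξ.2).trans (norm_snd_le ξ)⟩
  have b3 : C2 * ‖(ξ.1, ξ.2.1)‖ ≤ s := by
    have := b2.trans hξ.2.1.le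
    rwa [le_div_iff₀ c2, mul_comm] at this
  have k : ∀ q (hq : q ∈ S.M), q ∈ Fm.Core T.e (T.R + 1 / 3) → ∀ c,
      Sz (F.Y ξ c - T.G.SC.x c) (C1 * s) (⟨q.1, mem_sl T.P hq⟩ : S.sl 0) := fun q hq hc => by
    have hζ := zeta_core (P := T.P) (by rw [T.ha']; linarith) hq hc
    exact h1 _ _ _ _ hζ (min_le_left _ _) (h3 _ (b1.trans_lt hξ.1.2)).le ((h2 _ _ hζ).mono b3)
  have cs : 0 ≤ C1 * s := by positivity
  refine ⟨fun q hq hc => (core0 hq (k q hq hc)).trans (mul_le_mul_of_nonneg_right s1 (by positivity)),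
    fun q hq hc i c => (core1 hq (k q hq hc) i c).trans (by linarith),
    fun q hq hc i l c => (core2 hq (k q hq hc) i l c).trans (by linarith), fun j y => ?_,
    fun j q q1 q2 => ?_⟩
  · exact rot_le ξ.2.2 (b1.trans hξ.2.2.le) j y
  · refine H j X (a j) _ _ ((hX0 j).trans ((le_max_left _ _).trans hX)) (hz j) (hh j) ?_ q
      (by linarith) (q2.trans_le (mul_le_mul_of_nonneg_right (hθ j).1 ((le_max_right _ _).trans hX)))
    rw [add_sub_cancel_left]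
    exact (norm_le_pi_norm _ j).trans (hd.1.1.le.trans (hθ j).2)

theorem norm_ofR_le {ι : Type} [Fintype ι] (x : ι → ℝ) : ‖ofR x‖ ≤ ‖x‖ :=
  (pi_norm_le_iff_of_nonneg (norm_nonneg _)).2 fun i =>
    (Complex.norm_real _).trans_le (norm_le_pi_norm x i)

theorem pt_dom {ι κ : Type} [Fintype ι] [Fintype κ] {r : ℝ} (hr : 0 < r) (K X1 : ℝ) :
    ∃ δ, 0 < δ ∧ ∀ (X : ℝ) (x : ι ⊕ κ → ℝ), Pt δ X x → X1 < X ∧ ofR x ∈ DomA r K X := by
  refine ⟨min r (|X1| + 4 * |K| + 1)⁻¹, lt_min hr (by positivity), fun X x h => ?_⟩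
  have h1 := (h.mono (lt_min hr (by positivity)) (min_le_right _ _)).1
  rw [inv_inv] at h1
  have a1 := abs_nonneg X1
  have a2 := abs_nonneg K
  refine ⟨by linarith [le_abs_self X1], fun i => ?_, fun j => ?_⟩
  · exact ((norm_le_pi_norm (ofR x) _).trans (norm_ofR_le x)).trans_lt
      (h.2.1.trans_le (min_le_left _ _))
  · refine Xi.adm_small (by linarith) (by nlinarith [le_abs_self K]) ?_
    rw [le_div_iff₀ (by nlinarith)]
    refine le_trans (mul_le_mul_of_nonneg_right ?_ (sq_nonneg X)) h.2.2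
    exact (Complex.norm_real _).trans_le (norm_le_pi_norm (aa x) j)

variable {F} {N : ℕ} {ξ : ℂ × (F.I → ℂ) → F.Ξ σ} {ρ r X1 θ : ℝ}

theorem small_gf (hT : T.Good) (Je : σ.Jets F.φ) (h : F.Gf N ξ ρ r X1 θ) {t : ℝ} (ht : 0 < t) :
    ∃ θ' δ : ℝ, 0 < θ' ∧ 0 < δ ∧ ∀ (X : ℝ) (x : F.I → ℝ), Pt δ X x →
      (dd F N X (aa (ofR x)) (ξ (X, ofR x))).Small (T.R + 1 / 10) (T.R + 1 / 3) (θ' * X) t := by
  obtain ⟨θ', ρ', X0, a1, a2, H⟩ := small_pt F hT Je ht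
  obtain ⟨δ1, b1, h1⟩ := h.base ρ' a2
  obtain ⟨δ2, b2, h2⟩ := pt_dom (ι := Fin F.n) (κ := Fin T.p) h.r_pos (KK N - 1 / 4) (max X1 X0)
  refine ⟨θ', min δ1 δ2, a1, lt_min b1 b2, fun X x p => ?_⟩
  have p1 := p.mono (lt_min b1 b2) (min_le_left _ _)
  obtain ⟨x1, x2⟩ := h2 X x (p.mono (lt_min b1 b2) (min_le_right _ _))
  have x3 : X1 < X := (le_max_left _ _).trans_lt x1
  obtain ⟨s1, s2⟩ := h1 X p1.1 x3 _ x2
    (((Gl.norm_yy _).trans (norm_ofR_le x)).trans_lt p1.2.1)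
  have m := Gl.real_mem (by linarith [h.X1_ge]) h.θ_pos x3 x2
  refine H N X _ _ ((le_max_right _ _).trans x1.le) s1 s2 (h.sv _ m).dom fun j => ?_
  have B := (h.en j).big
  have k := Xi.EC.KK_ge N
  exact Xi.EC.hN_le B.N0 (Gi.adm_mono (by linarith) (x2.2 j)) (by linarith [h.X1_ge])
    (by linarith [B.KX x3.le])

variable (F σ)





end Crest.Agent.N250.Rm

end
end

-- ▼ part N250/Rp/Pt
section

/-!
# Row 250 (helper55): a real point of the glued system is a real solution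
-/

set_option autoImplicit false
open MeasureTheory Set Filter Topology
open scoped ContDiff InnerProductSpace
open Crest.GeometryTopology.MCF

noncomputable section

namespace Crest.Agent.N250.Rp

open Wr Rm Nq Gc Po B1 R0

variable {S : Mv} {T : St S} (F : Fa T) {σ : WS.Scale T.G}

/-- the real data of a point of the glued system -/
def dd (N : ℕ) (X : ℝ) (a : Fin T.p → ℂ) (ξ : F.Ξ σ) : Fm.Dat T.e where
  X := rX T.P (F.Y ξ)
  R j := Ro.RR fun i => (ξ.2.2 (j, i)).re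
  v j y := (vX T.R X (a j) (T.U (F.zE N X a ξ j)) y).re

theorem wv_lip {e : Ends S} (j : Fin e.p) (x y : E) : ‖wv e j y‖ ≤ ‖wv e j x‖ + ‖y - x‖ := by
  have e1 : wv e j y = wv e j x + wv e j (y - x) := by
    simp only [wv, xi, inner_sub_right, sub_smul]; abel
  have h : ‖wv e j (y - x)‖ ≤ ‖y - x‖ := by
    refine (pow_le_pow_iff_left₀ (norm_nonneg _) (norm_nonneg _) two_ne_zero).1 ?_
    rw [← r2_eq_wv, r2]
    linarith only [sq_nonneg (xi e j (y - x))]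
  rw [e1]
  exact (norm_add_le _ _).trans (by linarith only [h])

variable {F} {g : F.I → E → ℝ} {δ : ℝ} {u : T.G.SmC} {M : Mt (Fin T.p)}

/-- the zones -/
theorem sees (hg : ∀ k, ContDiff ℝ ∞ (g k))
    (hl : ∀ k, Cn.Lin S (Zr F.D) 0 δ (lf T.P (F.φ k)) (g k))
    (hs : ∀ k, ∀ y ∈ tsupport (g k), ∀ j, xi T.e j y < T.R - 7 / 4 ∨ 6 < r2 T.e j y) {p : S.sl 0}
    (hp : ((p : E), (0 : ℝ)) ∈ Fm.Core T.e (T.R + 1 / 3)) (h1 : ‖u.1 p‖ < δ * (1 + ‖(p : E)‖))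
    (h2 : ‖rX T.P (F.D.Xh u M) (p, 0) - p‖ ≤ (5 * (T.R + 4))⁻¹ * (1 + ‖(p : E)‖)) :
    Sees F.D u M g p := by
  have hc : Continuous fun q : S.sl 0 => ((q : E), (0 : ℝ)) := by fun_prop
  by_cases h : ∀ j, ((p : E), (0 : ℝ)) ∈ Off T.e j (T.R + -3 / 2)
  · refine sees_lin hg hl h1 fun j => ?_
    filter_upwards [hc.continuousAt.preimage_mem_nhds ((isOpen_Off j _).mem_nhds (h j))] with q hq
    exact T.cu_off (by norm_num) hq
  · obtain ⟨j, hj⟩ := not_forall.1 h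
    have R0 := T.R_ge
    have ht := (tube_or_off T.sta (T.eR_lt (by norm_num)) (p := (p, 0)) p.2 j).resolve_right hj
    have k1 : T.R + -3 / 2 ≤ xi T.e j p := not_lt.1 fun k => hj (Or.inl k)
    have k2 : xi T.e j p ≤ T.R + 1 / 3 := not_lt.1 fun k => hp j ⟨k, ht.2⟩
    have k3 : r2 T.e j p < 4 := ht.2
    have k4 : ‖(p : E)‖ ≤ T.R + 3 := by
      rw [r2] at k3
      refine abs_le_of_sq_le_sq' ?_ (by linarith only [R0]) |>.2
      nlinarith only [k1, k2, k3, R0]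
    have k5 : ‖rX T.P (F.D.Xh u M) (p, 0) - p‖ ≤ 1 / 5 := by
      refine h2.trans ?_
      rw [inv_mul_le_iff₀ (by positivity)]
      linarith only [k4]
    refine sees_off (fun k hk => ?_) fun k => ?_
    · rcases hs k _ hk j with l | l
      · have := xi_lip (e := T.e) j p (rX T.P (F.D.Xh u M) (p, 0))
        rw [norm_sub_rev] at this
        linarith only [this, l, k1, k5]
      · have l1 := wv_lip (e := T.e) j p (rX T.P (F.D.Xh u M) (p, 0))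
        rw [r2_eq_wv] at l k3
        have l2 : ‖wv T.e j p‖ ≤ 2 := (abs_le_of_sq_le_sq' (by linarith only [k3]) two_pos.le).2
        have l3 := pow_le_pow_left₀ (norm_nonneg _) (l1.trans (add_le_add l2 k5)) 2
        linarith only [l, l3]
    · exact notMem_tsupport_iff_eventuallyEq.1 fun hk =>
        (F.supp k p hk).2 j ⟨by linarith only [k1], k3⟩

theorem ζA_one (k : F.I) (p : S.sl 0) (h : (F.φ k).1 p ≠ 0) :
    zeta T.e (T.R + 1 / 10) (T.R + 1 / 3) p = 1 :=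
  T.ze_off (by norm_num) fun j => (tube_or_off' T.sta (T.eR_lt (by norm_num))
    (by linarith : T.R - 2 < T.R + 1 / 10) (p := (p, 0)) p.2 j).resolve_left
      ((F.supp k p (subset_tsupport _ h)).2 j)

theorem sqrt_cast {v : ℝ} (h : 0 ≤ v) : (2 * (v : ℂ)) ^ (1 / 2 : ℂ) = (√(2 * v) : ℝ) := by
  rw [show (1 / 2 : ℂ) = ((1 / 2 : ℝ) : ℂ) by norm_num, show 2 * (v : ℂ) = ((2 * v : ℝ) : ℂ) by simp,
    ← Complex.ofReal_cpow (by positivity), Real.sqrt_eq_rpow]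

theorem cA_eq {X : ℝ} (hX : T.R + 2 ≤ X) (s : ℝ) :
    T.cA s = (st (T.R + 1 / 10) (T.R + 1 / 3) (xr T.R X s) : ℝ) := by
  rcases le_total s (1 / 2) with h | h
  · rw [xr_strip _ _ h]; rfl
  · rw [St.cA, st_one (by linarith) (by linarith),
      st_one (by linarith) (by linarith [le_xr hX s])]

variable (F) in
/-- a real point -/
structure RP (N : ℕ) (X : ℝ) (a : Fin T.p → ℂ) (ξ : F.Ξ σ) (δ : ℝ) : Prop where
  w : Re T.P (F.w ξ)
  c : ∀ k, (F.c ξ k).im = 0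
  β : ∀ l, (ξ.2.2 l).im = 0
  vj : ∀ j s θ i, (vj T.R X (a j) (T.U (F.zE N X a ξ j)) s θ i).im = 0
  dom : ∀ j, F.zE N X a ξ j ∈ CjE.Dm T
  mt : ∀ j (q : ℝ × ℝ), T.R < q.1 → q.1 < T.R + 1 / 3 →
    T.rW j (F.w ξ) q = (2 * T.vU (F.zE N X a ξ j) q) ^ (1 / 2 : ℂ)
  eq : ∀ p : S.sl 0, (∀ j, ((p : E), (0 : ℝ)) ∉ tube T.e j (T.R + 1 / 3)) →
    F.EQ ξ p = 0 ∧ F.D.Nd (F.w ξ) (T.TT ξ.2.2) (F.c ξ) p
  s1 : ∀ p : S.sl 0, T.G.ζ.1 p = 1 → ‖(F.w ξ).1 p‖ < δ * (1 + ‖(p : E)‖)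
  s2 : ∀ p : S.sl 0, T.G.ζ.1 p = 1 →
    ‖rX T.P (F.Y ξ) (p, 0) - p‖ ≤ (5 * (T.R + 4))⁻¹ * (1 + ‖(p : E)‖)
  cl : ∀ p : S.sl 0, T.G.ζ.1 p = 1 → T.G.Cl (F.Y ξ) p

theorem intg_ζA {Y : Fin 3 → T.G.SmC} (h : ∀ p : S.sl 0, T.G.ζ.1 p = 1 → T.G.Cl Y p) :
    Integrable (T.G.lagC (T.G.oR T.ζA) Y) T.G.M.mu := by
  refine T.G.intg_cW.mono' (T.G.aesm_lagC _ _) (.of_forall fun p => ?_)
  have h0 := T.G.one_le_rt p
  by_cases hz : T.ζA.1 p = 0
  · rw [WS.Geo.lagC, show (T.G.oR T.ζA).1 p = (T.ζA.1 p : ℂ) from rfl, hz, Complex.ofReal_zero,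
      zero_mul, norm_zero]
    positivity
  · refine ((h p (T.ζ_one_of_ne (by norm_num) (by norm_num) (by norm_num) hz)).lag_le _).trans ?_
    refine mul_le_mul_of_nonneg_right (le_trans ?_ h0) (by positivity)
    exact ((Complex.norm_real _).trans (Real.norm_of_nonneg (T.ze_nonneg _ _ p))).trans_le
      (T.ze_le_one _ _ p)

theorem grad_cmul (c : ℝ) {f : E → ℝ} {x : E} (hf : DifferentiableAt ℝ f x) (v : E) :
    ⟪gradient (fun y => c * f y) x, v⟫_ℝ = c * ⟪gradient f x, v⟫_ℝ := by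
  rw [Am.inner_grad, Am.inner_grad, fderiv_const_mul hf]; rfl

theorem AC_eq (Y : Fin 3 → T.G.SmC) : T.AC Y = T.G.actC (T.G.oR T.ζA) Y := rfl

theorem AE_eq (z : Par T.ℓ) : T.AE z = Fm.Ac.actC T.cA T.R z.1 z.2.1 (T.U z) := rfl

variable {N : ℕ} {X : ℝ} {a : Fin T.p → ℂ} {ξ : F.Ξ σ}

theorem rX_fr {Y : Fin 3 → T.G.SmC} {p : S.sl 0} {Q : E ≃ₗᵢ[ℝ] E} {θ x ρ : ℝ}
    (h : Cj.val Y p = Cj.frC (Cj.fQ Q) θ x ρ 0) : rX T.P Y (p, 0) = fr Q θ x ρ 0 := by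
  ext c
  have e := congrFun (Cj.cx_fr Q θ x ρ 0) c
  rw [Complex.ofReal_zero, ← h] at e
  rw [rX_apply]
  exact (congrArg Complex.re e).symm

theorem end_act (c : CjE.Sz' T) (hX : T.R + 2 ≤ X) {z : Par T.ℓ} (hz : z ∈ CjE.Dm T) {a : ℂ}
    (h1 : z.1 = X) (h2 : z.2.1 = a) (hr : ∀ s θ i, (vj T.R X a (T.U z) s θ i).im = 0)
    {v : ℝ × ℝ → ℝ} (hv : v = fun y => (vX T.R X a (T.U z) y).re) : 0 ≤ (T.AE z).re ∧
    ∫⁻ q in strip (Ioo (T.R + 1 / 10) X), ENNReal.ofReal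
      (st (T.R + 1 / 10) (T.R + 1 / 3) q.1 * (√(Qv v q) *
      ((4 * Real.pi)⁻¹ * Real.exp (-q.1 ^ 2 / 4 - v q / 2)))) =
      ENNReal.ofReal ((T.AE z).re / (4 * Real.pi)) := by
  have s1 := CjE.sl hz
  have j1 := s1.sol.jet
  have p1 := fun s θ => s1.re_pos c (fun _ => s) (0, θ)
  rw [AE_eq]
  simp only [vk] at p1
  rw [h1, h2] at p1 ⊢
  rw [h1] at j1
  refine (Fm.Ac.act_real hX j1 hr p1 (contDiff_st (T.R + 1 / 10) (T.R + 1 / 3)).continuous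
    (st_nonneg _ _) (by linarith : T.R ≤ T.R + 1 / 10) (by linarith)
    (fun x hx => st_zero (by linarith) hx) (fun s _ => cA_eq hX s) fun s θ _ _ => ?_).2
  simp only [hv, vX, vk, tX_xr hX]

namespace RP

variable (h : RP F N X a ξ δ)
include h

theorem hT (j : Fin T.p) (c d : Fin 3) : (T.TT ξ.2.2 j c d).im = 0 :=
  rotT_im (β := fun j i => ξ.2.2 (j, i)) (fun _ _ => h.β _) j c d

theorem hY (c : Fin 3) : Re T.P (F.Y ξ c) := re_Xh F.D h.hT h.w c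

theorem hv (c : CjE.Sz' T) (j : Fin T.p) :
    (∀ y, ((dd F N X a ξ).v j y : ℂ) = vX T.R X (a j) (T.U (F.zE N X a ξ j)) y) ∧
      (∀ y, 0 < (dd F N X a ξ).v j y) ∧ Per ((dd F N X a ξ).v j) ∧
      ContDiffOn ℝ 2 ((dd F N X a ξ).v j) (Icc T.R X ×ˢ univ) ∧
      ContDiffOn ℝ ∞ ((dd F N X a ξ).v j) (Ioc T.R X ×ˢ univ) ∧
      ∀ y : ℝ × ℝ, y.1 ∈ Ioo T.R X → ELv ((dd F N X a ξ).v j) y = 0 :=
  (CjE.sl (h.dom j)).real c (div_pos T.k.c0_pos T.R_pos) (fun m => (T.ℓ_l m).ge) (h.vj j) rfl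

theorem mt' (c : CjE.Sz' T) (hX : T.R + 2 ≤ X) (j : Fin T.p) (q : ℝ × ℝ) (h1 : T.R < q.1)
    (h2 : q.1 < T.R + 1 / 3) : (dd F N X a ξ).X (pX (T.e.Q j) (T.e.r j) q, 0) =
      pX ((dd F N X a ξ).Q j) ((dd F N X a ξ).r j) q := by
  have hq : T.e.R < q.1 := T.eR_lt' (by linarith)
  have e1 := F.Xh_ψ (j := j) (q := q) (F.w ξ) ξ.2.2 (by linarith)
  have e2 : T.rW j (F.w ξ) q = ((dd F N X a ξ).r j q : ℝ) := by
    rw [h.mt j q h1 h2, St.vU, Fm.Dat.r, ← sqrt_cast ((h.hv c j).2.1 q).le, (h.hv c j).1 q,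
      vX_strip (D := (F.zE N X a ξ j).2.2) hX (by linarith)]
    rfl
  have e3 : fR (T.e.Q j) (fun i => ξ.2.2 (j, i)) = Cj.fQ ((dd F N X a ξ).Q j) := by
    rw [show (fun i => ξ.2.2 (j, i)) = fun i => (((ξ.2.2 (j, i)).re : ℝ) : ℂ) from
      funext fun i => Complex.ext rfl (h.β _)]
    exact (Ro.fQ_RR (fun i => (ξ.2.2 (j, i)).re) (T.e.Q j)).symm
  rw [Cj.pC, e2, e3] at e1
  rw [← T.hψ j q hq, pX_eq]
  exact rX_fr e1

variable (hg : ∀ k, ContDiff ℝ ∞ (g k)) (hl : ∀ k, Cn.Lin S (Zr F.D) 0 δ (lf T.P (F.φ k)) (g k))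
  (hs : ∀ k, ∀ y ∈ tsupport (g k), ∀ j, xi T.e j y < T.R - 7 / 4 ∨ 6 < r2 T.e j y)
  {n : ℕ} (τ : Fin n ≃ F.I)
include hg hl hs

theorem sees' (p : S.sl 0) (k : ((p : E), (0 : ℝ)) ∈ Fm.Core T.e (T.R + 1 / 3)) :
    Sees F.D (F.w ξ) (T.TT ξ.2.2) g p :=
  have hz : T.G.ζ.1 p = 1 := zeta_core (P := T.P) (by rw [T.ha']; linarith) (q := (p, 0)) p.2 k
  sees hg hl hs k (h.s1 p hz) (h.s2 p hz)

theorem el' (p : ST) (h1 : p ∈ S.M) (h2 : p ∈ Fm.Core T.e (T.R + 1 / 3)) :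
    gau 0 1 (rX T.P (F.Y ξ) p) * S.ELX (rX T.P (F.Y ξ)) p / 2 =
      ∑ i, (F.c ξ (τ i)).re / (4 * Real.pi) * (S.sX (rX T.P (F.Y ξ)) p ^ 2 *
        ⟪gradient (fun y => 4 * Real.pi * gau 0 1 y * g (τ i) y) (rX T.P (F.Y ξ) p),
          S.NX (rX T.P (F.Y ξ)) p⟫_ℝ + S.HX (rX T.P (F.Y ξ)) p *
          (4 * Real.pi * gau 0 1 (rX T.P (F.Y ξ) p) * g (τ i) (rX T.P (F.Y ξ) p))) := by
  obtain ⟨x, t⟩ := p
  have hp := Real.pi_pos
  have hx : x ∈ S.sl 0 := mem_sl T.P h1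
  have k := el_of (p := ⟨x, hx⟩) h.w h.hT h.c hg (h.sees' hg hl hs ⟨x, hx⟩ h2) (h.eq ⟨x, hx⟩ h2).2
    (h.eq ⟨x, hx⟩ h2).1
  have t1 : S.ELX (rX T.P (F.Y ξ)) (x, t) = S.ELX (rX T.P (F.Y ξ)) (x, 0) :=
    Complex.ofReal_injective ((ELX_eq h.hY ⟨x, hx⟩ t).symm.trans (ELX_eq h.hY ⟨x, hx⟩ 0))
  have t2 : S.HX (rX T.P (F.Y ξ)) (x, t) = S.HX (rX T.P (F.Y ξ)) (x, 0) :=
    Complex.ofReal_injective ((HX_eq h.hY ⟨x, hx⟩ t).symm.trans (HX_eq h.hY ⟨x, hx⟩ 0))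
  have t3 : S.NX (rX T.P (F.Y ξ)) (x, t) = S.NX (rX T.P (F.Y ξ)) (x, 0) :=
    T.sta.NX_eq (rX_st _) x t
  rw [← Fa.Y, ← τ.sum_comp] at k
  rw [t1, t2, Mv.sX, t3, ← Mv.sX, rX_st _ x t, k]
  refine Finset.sum_congr rfl fun i _ => ?_
  simp only [mul_assoc (4 * Real.pi)]
  rw [grad_cmul _ ((Am.contDiff_gau.mul (hg _)).differentiable (by simp) _)]
  field_simp

theorem pair' (hδ : 0 ≤ δ) (k : F.I) : ∫ x, zeta T.e (T.R + 1 / 10) (T.R + 1 / 3) x *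
    (4 * Real.pi * gau 0 1 (rX T.P (F.Y ξ) (x, 0)) * g k (rX T.P (F.Y ξ) (x, 0)) *
      S.sX (rX T.P (F.Y ξ)) (x, 0)) ∂S.mu 0 =
    ∫ x, 4 * Real.pi * gau 0 1 x * g k x ∂S.mu 0 + (F.II ξ k).re := by
  have hp : 0 < 4 * Real.pi := by positivity
  have k1 := pair_of (by linarith : T.R + 1 / 10 < T.R + 1 / 3) h.w h.hT (h.sees' hg hl hs) ζA_one
    (fun i x hx => Am.lin_zero (hl i) hδ hx) k
  have e : T.G.actC (F.w ξ * T.G.oR (F.D.φ k)) (F.Y ξ) = F.II ξ k := by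
    rw [mul_comm]; rfl
  rw [← Fa.Y, e] at k1
  have k2 := congrArg (4 * Real.pi * ·) k1
  simp only [mul_add, ← integral_const_mul] at k2
  rw [mul_div_cancel₀ _ hp.ne'] at k2
  simp only [mul_assoc (4 * Real.pi)]
  rw [← k2]
  exact integral_congr_ae (.of_forall fun x => by ring)

omit hg hl hs in
theorem act' (c : CjE.Sz' T) (hX : T.R + 2 ≤ X) :
    ∫⁻ x, ENNReal.ofReal (zeta T.e (T.R + 1 / 10) (T.R + 1 / 3) x *
      (gau 0 1 (rX T.P (F.Y ξ) (x, 0)) * S.sX (rX T.P (F.Y ξ)) (x, 0))) ∂S.mu 0 +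
    ∑ j, ∫⁻ q in strip (Ioo (T.R + 1 / 10) X), ENNReal.ofReal
      (st (T.R + 1 / 10) (T.R + 1 / 3) q.1 * (√(Qv ((dd F N X a ξ).v j) q) *
      ((4 * Real.pi)⁻¹ * Real.exp (-q.1 ^ 2 / 4 - (dd F N X a ξ).v j q / 2)))) =
    ENNReal.ofReal ((F.AT N X a ξ).re / (4 * Real.pi)) := by
  have hp : 0 < 4 * Real.pi := by positivity
  obtain ⟨a0, a1⟩ := act_lint h.hY (w := T.G.oR T.ζA) (z := zeta T.e (T.R + 1 / 10) (T.R + 1 / 3))
    (fun _ => rfl) (zeta_nonneg _ _) (intg_ζA h.cl)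
  have b := fun j => end_act c hX (h.dom j) rfl rfl (h.vj j) (v := (dd F N X a ξ).v j) rfl
  rw [a1, Finset.sum_congr rfl fun j _ => (b j).2,
    ← ENNReal.ofReal_sum_of_nonneg fun j _ => div_nonneg (b j).1 hp.le,
    ← ENNReal.ofReal_add (div_nonneg a0 hp.le)
      (Finset.sum_nonneg fun j _ => div_nonneg (b j).1 hp.le), ← Finset.sum_div, ← add_div,
    Fa.AT, Complex.add_re, Complex.re_sum, AC_eq]

/-- **a real point is a real solution** -/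
theorem sol (c : CjE.Sz' T) (hδ : 0 ≤ δ) (hX : T.R + 2 ≤ X) :
    (dd F N X a ξ).Sol (fun i y => 4 * Real.pi * gau 0 1 y * g (τ i) y) (T.R + 1 / 10) (T.R + 1 / 3) X
      (fun i => (F.II ξ (τ i)).re) (fun i => (F.c ξ (τ i)).re / (4 * Real.pi))
      ((F.AT N X a ξ).re / (4 * Real.pi)) where
  sm := sm_rX _
  st := rX_st _
  smv j := (h.hv c j).2.2.2.2.1.mono fun _ hq => ⟨⟨by linarith [hq.1], hq.2.le⟩, trivial⟩
  per j := (h.hv c j).2.2.1
  elv j q h1 h2 := (h.hv c j).2.2.2.2.2 q ⟨by linarith, h2⟩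
  mt j q h1 h2 := h.mt' c hX j q (by linarith) h2
  el := h.el' hg hl hs τ
  pair i := h.pair' hg hl hs hδ (τ i)
  act := (h.act' c hX).le

end RP

end Crest.Agent.N250.Rp

end
end

-- ▼ part N250/R0/CjR
section

/-!
# Row 250 (helper3): real points of the glued system
-/

set_option autoImplicit false
open Set Complex
open scoped ComplexConjugate
open Crest.GeometryTopology.MCF

noncomputable section

namespace Crest.Agent.N250.R0.CjE

open WS Wr B1 B1.Cj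
open Crest.Agent.N250.B2 (aa ofR)
open Crest.Agent.N250.Gi (KK)

variable {S : Mv} {T : St S}



theorem re_of_cj {f : T.G.SmC} (h : T.G.cj f = f) : Rm.Re T.P f := fun p =>
  conj_eq_iff_im.1 (by rw [← Geo.cj_apply, h])


theorem star_ofR {ι : Type} (x : ι → ℝ) : star (ofR x) = ofR x := funext fun _ => conj_ofReal _


variable (F : Fa T) {σ : Scale T.G} {ξ : F.Ξ σ}


variable {F}

theorem real_w (h : F.cj ξ = ξ) : Rm.Re T.P (F.w ξ) := re_of_cj (by rw [← w_cj, h])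


theorem real_c (h : F.cj ξ = ξ) (k : F.I) : (F.c ξ k).im = 0 :=
  conj_eq_iff_im.1 (congrFun ((c_cj F ξ).symm.trans (by rw [h])) k)

theorem star_β (h : F.cj ξ = ξ) : star ξ.2.2 = ξ.2.2 := congrArg (·.2.2) h

theorem real_β (h : F.cj ξ = ξ) (q : Fin T.p × Fin 2) : (ξ.2.2 q).im = 0 :=
  conj_eq_iff_im.1 (congrFun (star_β h) q)





variable {N : ℕ} {X : ℝ} {a : Fin T.p → ℂ} {j : Fin T.p}

theorem real_zE (h : F.cj ξ = ξ) (ha : star a = a) (h0 : HJ.N0 ≤ N) (hj : HJ.Adm N X (et (a j) X)) :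
    cz (F.zE N X a ξ j) = F.zE N X a ξ j := by
  rw [← zE_cj F h0 ξ hj, conj_ofReal, ha, h]

theorem real_vj' {z : Par T.ℓ} (hz : z ∈ Dm T) (hr : cz z = z) (s : II) (θ : ℝ) (i : Fin 6) :
    (vj T.R z.1 z.2.1 (T.U z) s θ i).im = 0 :=
  ((T.hU.real (K1_pos T) T.k.C_pos.le (small T) hz hr).2 s θ i).2



theorem sz (h : T.Good) : Sz' T := let ⟨_, _, _, f⟩ := h.fm; f.sz

section gf

variable {ξ : ℂ × (F.I → ℂ) → F.Ξ σ} {ρ r X1 θ : ℝ} (g : F.Gf N ξ ρ r X1 θ) {w : F.I → ℂ}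
  {x : F.I → ℝ}
include g

theorem gf_om (hX : X1 < X) (hw : w ∈ DomA r (KK N - 1 / 4) X) :
    ((X : ℂ), w) ∈ Om r (KK N - 1 / 4) X1 θ :=
  ⟨hX, by simpa using div_pos g.θ_pos (by linarith [g.X1_ge]), hw⟩

theorem gf_N0 (j : Fin T.p) : HJ.N0 ≤ N := (g.en j).big.N0

theorem gf_hj {q : ℂ × (F.I → ℂ)} (hq : q ∈ Om r (KK N - 1 / 4) X1 θ) (j : Fin T.p) :
    HJ.Adm N q.1 (et (aa q.2 j) q.1) := (g.en j).hj j hq

/-- real points of the family are fixed by the conjugation -/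
theorem gf_fix (hX : X1 < X) (hx : ofR x ∈ DomA r (KK N - 1 / 4) X) :
    F.cj (ξ (X, ofR x)) = ξ (X, ofR x) := by rw [← g.cj X hX _ hx, star_ofR]

theorem gf_zE (hX : X1 < X) (hx : ofR x ∈ DomA r (KK N - 1 / 4) X) (j : Fin T.p) :
    cz (F.zE N X (aa (ofR x)) (ξ (X, ofR x)) j) = F.zE N X (aa (ofR x)) (ξ (X, ofR x)) j :=
  real_zE (gf_fix g hX hx) (star_ofR (aa x)) (gf_N0 g j) (gf_hj g (gf_om g hX hx) j)

theorem gf_vj (hX : X1 < X) (hx : ofR x ∈ DomA r (KK N - 1 / 4) X) (j : Fin T.p) (s : II) (φ : ℝ)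
    (i : Fin 6) : (vj T.R X (aa (ofR x) j) (T.U (F.zE N X (aa (ofR x)) (ξ (X, ofR x)) j)) s φ i).im = 0 :=
  real_vj' ((g.sv _ (gf_om g hX hx)).dom j) (gf_zE g hX hx j) s φ i


end gf

end Crest.Agent.N250.R0.CjE

end
end

-- ▼ part N250/R0/LReal

/-!
# Row 250 (helper50): the leaf `RealL`
-/

set_option autoImplicit false
open MeasureTheory Set Filter Topology
open Crest.GeometryTopology.MCF

noncomputable section

namespace Crest.Agent.N250.Rm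

open WS B1 R0
open Crest.Agent.N250.B2 (aa ofR)
open Crest.Agent.N250.Gi (KK)

variable {S : Mv} {T : St S} (F : Fa T) {σ : Scale T.G}

theorem rho_le (p : S.sl 0) : T.G.ρ.1 p ≤ 1 + ‖(p : E)‖ :=
  (Wr.rho_le_rho0 _ _).trans (Wr.rho0_le _)

/-- small unknowns have small graph functions and rotations -/
theorem sz_small (Je : σ.Jets F.φ) {s : ℝ} (hs : 0 < s) : ∃ ρ, 0 < ρ ∧ ∀ ξ : F.Ξ σ, ‖ξ‖ < ρ →
    ‖T.TT ξ.2.2‖ ≤ s ∧ ∀ p, T.G.ζ.1 p = 1 → Sz (F.w ξ) s p := by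
  obtain ⟨C2, c2, h2⟩ := sz_wG Je
  obtain ⟨ρ1, ρ10, h3⟩ := TT_small T hs
  refine ⟨min ρ1 (s / C2), lt_min ρ10 (by positivity), fun ξ hξ => ?_⟩
  rw [lt_min_iff] at hξ
  have b1 : ‖ξ.2.2‖ ≤ ‖ξ‖ := (norm_snd_le ξ.2).trans (norm_snd_le ξ)
  have b2 : ‖(ξ.1, ξ.2.1)‖ ≤ ‖ξ‖ := norm_prod_le_iff.2
    ⟨norm_fst_le ξ, (norm_fst_le ξ.2).trans (norm_snd_le ξ)⟩
  have b3 : C2 * ‖(ξ.1, ξ.2.1)‖ ≤ s := by
    have := b2.trans hξ.2.le
    rwa [le_div_iff₀ c2, mul_comm] at this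
  exact ⟨(h3 _ (b1.trans_lt hξ.1)).le, fun p hp => (h2 _ _ hp).mono b3⟩

theorem rp_small (Je : σ.Jets F.φ) {δ : ℝ} (hδ : 0 < δ) : ∃ ρ, 0 < ρ ∧ ∀ ξ : F.Ξ σ, ‖ξ‖ < ρ →
    ∀ p : S.sl 0, T.G.ζ.1 p = 1 → ‖(F.w ξ).1 p‖ < δ * (1 + ‖(p : E)‖) ∧
      ‖rX T.P (F.Y ξ) (p, 0) - p‖ ≤ (5 * (T.R + 4))⁻¹ * (1 + ‖(p : E)‖) ∧ T.G.Cl (F.Y ξ) p := by
  obtain ⟨C1, c1, h1⟩ := sz_Xh F.good
  obtain ⟨η, η0, η1, h2⟩ := F.good.cl
  have R0 := T.R_pos
  have m0 : 0 < (5 * (T.R + 4))⁻¹ / (3 * C1) := by positivity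
  obtain ⟨ρ, ρ0, h⟩ := sz_small F Je (lt_min (lt_min η0 (half_pos hδ)) m0)
  refine ⟨ρ, ρ0, fun ξ hξ p hp => ?_⟩
  obtain ⟨a, b⟩ := h ξ hξ
  set s := min (min η (δ / 2)) ((5 * (T.R + 4))⁻¹ / (3 * C1)) with hs
  have s1 : s ≤ η := (min_le_left _ _).trans (min_le_left _ _)
  have s2 : s ≤ δ / 2 := (min_le_left _ _).trans (min_le_right _ _)
  have s3 : 3 * (C1 * s) ≤ (5 * (T.R + 4))⁻¹ := by
    have := min_le_right (min η (δ / 2)) ((5 * (T.R + 4))⁻¹ / (3 * C1))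
    rw [← hs, le_div_iff₀ (by positivity)] at this
    linarith only [this]
  have n0 : 0 < 1 + ‖(p : E)‖ := by positivity
  refine ⟨?_, ?_, h2 _ _ p hp (a.trans s1) ((b p hp).mono s1).h0 ((b p hp).mono s1).h1⟩
  · refine ((b p hp).mono s2).h0.trans_lt ((mul_le_mul_of_nonneg_left (rho_le p)
      (half_pos hδ).le).trans_lt ?_)
    exact mul_lt_mul_of_pos_right (half_lt_self hδ) n0
  · exact (core0 (q := (p, 0)) p.2 (h1 _ _ _ p hp (s1.trans η1) a (b p hp))).trans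
      (mul_le_mul_of_nonneg_right s3 n0.le)

variable {F} {N : ℕ} {ξ : ℂ × (F.I → ℂ) → F.Ξ σ} {ρ r X1 θ : ℝ}

theorem tail (h : F.Gf N ξ ρ r X1 θ) {X : ℝ} (hX : X1 < X) {w : F.I → ℂ}
    (hw : w ∈ DomA r (KK N - 1 / 4) X) : (F.Aq N ξ (X, w)).re / (4 * Real.pi) ≤
      (Gi.FFo N (F.Aq N ξ) (X, w)).re / (4 * Real.pi) +
        (350 * T.p + 4 * Real.pi) * Real.exp (-(1 / 4) * X ^ 2) := by
  have hp := Real.pi_pos
  have h1 : ‖∑ j, Gi.Sj N j ((X : ℂ), w)‖ ≤ T.p * (700 * Real.exp (-X ^ 2 / 4)) := by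
    refine (norm_sum_le _ _).trans ((Finset.sum_le_card_nsmul _ _ _ fun j _ =>
      norm_S_le (by linarith [h.X1_ge]) (CjE.gf_hj h (CjE.gf_om h hX hw) j)).trans_eq ?_)
    simp
  have h2 := (Complex.re_le_norm _).trans h1
  have e : (Gi.FFo N (F.Aq N ξ) (X, w)).re =
      (F.Aq N ξ (X, w)).re - 2 * Real.pi * (∑ j, Gi.Sj N j ((X : ℂ), w)).re := by
    rw [Gi.FFo, Complex.sub_re, show (2 * Real.pi : ℂ) = ((2 * Real.pi : ℝ) : ℂ) by simp,
      Complex.re_ofReal_mul]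
  rw [e, sub_div, show -(1 / 4) * X ^ 2 = -X ^ 2 / 4 by ring,
    show ∀ u : ℝ, 2 * Real.pi * u / (4 * Real.pi) = u / 2 from fun u => by field_simp; ring]
  nlinarith [Real.exp_pos (-X ^ 2 / 4)]

theorem c_le {n : ℕ} {κ : Type} [Fintype κ] (τ : Fin n ≃ κ) {c : κ → ℂ} (h : ∀ k, (c k).im = 0) :
    ‖c‖ ≤ 4 * Real.pi * ‖fun i => (c (τ i)).re / (4 * Real.pi)‖ := by
  have hp : 0 < 4 * Real.pi := by positivity
  refine (pi_norm_le_iff_of_nonneg (by positivity)).2 fun k => ?_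
  have := norm_le_pi_norm (fun i => (c (τ i)).re / (4 * Real.pi)) (τ.symm k)
  rw [Equiv.apply_symm_apply, norm_div, Real.norm_of_nonneg hp.le, div_le_iff₀' hp] at this
  rwa [← Complex.abs_re_eq_norm.2 (h k)]

theorem realD (hT : T.Good) {δ : ℝ} {g : F.I → E → ℝ} (hA : F.Am δ g) (Je : σ.Jets F.φ) :
    F.RealD σ g := by
  obtain ⟨ρ, ρ0, h⟩ := rp_small F Je hA.δ_pos
  refine ⟨ρ, ρ0, fun N ξ r X1 θ hG => ?_⟩
  obtain ⟨δ2, b2, h2⟩ := pt_dom (ι := Fin F.n) (κ := Fin T.p) hG.r_pos (KK N - 1 / 4)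
    (max X1 (T.R + 2))
  refine realM_abs (e := T.e) Rl.solS_holds T.P.shr
    (d := fun X x => dd F N X (aa (ofR x)) (ξ (X, ofR x)))
    (c := fun X x i => (F.c (ξ (X, ofR x)) (finSumFinEquiv.symm i)).re / (4 * Real.pi))
    ⟨by linarith [T.hR], by linarith, fun i => (hA.cons.sm i).continuous, Cn2.am_ball hA,
      ⟨δ2, 350 * T.p + 4 * Real.pi, 1 / 4, b2, by norm_num, fun X x p => ?_⟩,
      fun t ht => small_gf hT Je hG ht⟩
  obtain ⟨x1, x2⟩ := h2 X x p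
  have x3 : X1 < X := (le_max_left _ _).trans_lt x1
  have m := CjE.gf_om hG x3 x2
  have f := CjE.gf_fix hG x3 x2
  have k := h _ (hG.small _ m).1
  have rp : Rp.RP F N X (aa (ofR x)) (ξ (X, ofR x)) δ :=
    ⟨CjE.real_w f, CjE.real_c f, CjE.real_β f, CjE.gf_vj hG x3 x2, (hG.sv _ m).dom,
      (hG.mat _ m).mt, (hG.mat _ m).eq, fun p hp => (k p hp).1, fun p hp => (k p hp).2.1,
      fun p hp => (k p hp).2.2⟩
  refine ⟨sol_le (rp.sol hA.sm (Cn2.am_lin hA) (fun k y hy => (hA.supp k y hy).2)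
    finSumFinEquiv.symm (CjE.sz hT) hA.δ_pos.le ((le_max_right _ _).trans x1.le)) (tail hG x3 x2),
    (c_le finSumFinEquiv.symm (CjE.real_c f)).trans
      (mul_le_mul_of_nonneg_right (le_add_of_nonneg_left (by positivity)) (norm_nonneg _))⟩

end Crest.Agent.N250.Rm

namespace Crest.Agent.N250.R0

theorem realL : RealL := fun _ T hT F _ _ hA => by
  have j : Sg fun σ : WS.Scale T.G => Nonempty (σ.Jets F.φ) := F.grn.nonempty_jets T.G.mainS
  exact j.mono fun _ k _ => Rm.realD hT hA k.some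

end Crest.Agent.N250.R0

end
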